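import Vale.Agent.P154.Kron
import Mathlib.Data.Nat.Bitwise
import Mathlib.Tactic

/-!
Coefficient checking for polynomials in any number of variables through one packed integer and
one bit mask: all coefficients are nonnegative exactly when the top bit of every digit is clear.
-/

namespace Vale.Agent.P154.Four.Mask

open Vale.Agent.P154

/-- Expansion in `n` variables. -/
def nrm (n : ℕ) : Ex → Pol n
  | .c z => Pol.const n z
  | .x i => if i < n then Pol.var n i else Pol.zero n
  | .add a b => Pol.add n (nrm n a) (nrm n b)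
  | .mul a b => Pol.mul n (nrm n a) (nrm n b)

lemma eval_nrm (n : ℕ) (ρ : ℕ → ℝ) (hρ : ∀ i, n ≤ i → ρ i = 0) :
    ∀ e : Ex, Pol.eval ρ n (nrm n e) = Ex.val ρ e
  | .c z => Pol.eval_const ρ n z
  | .x i => by
    by_cases h : i < n
    · simp only [nrm, if_pos h, Ex.val, Pol.eval_var ρ n i h]
    · simp only [nrm, if_neg h, Ex.val, Pol.eval_zero, hρ i (by omega)]
  | .add a b => by simp only [nrm, Ex.val, Pol.eval_add, eval_nrm n ρ hρ a, eval_nrm n ρ hρ b]
  | .mul a b => by simp only [nrm, Ex.val, Pol.eval_mul, eval_nrm n ρ hρ a, eval_nrm n ρ hρ b]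

lemma size_nrm (n : ℕ) : ∀ e : Ex, Pol.size n (nrm n e) ≤ Ex.bound e
  | .c z => le_of_eq (Pol.size_const n z)
  | .x i => by
    by_cases h : i < n
    · simp only [nrm, if_pos h, Ex.bound]; exact Pol.size_var n i
    · simp only [nrm, if_neg h, Ex.bound, Pol.size_zero]; norm_num
  | .add a b => le_trans (Pol.size_add n _ _) (add_le_add (size_nrm n a) (size_nrm n b))
  | .mul a b => le_trans (Pol.size_mul n _ _)
      (mul_le_mul (size_nrm n a) (size_nrm n b) (Pol.size_nonneg n _)
        (le_trans (Pol.size_nonneg n _) (size_nrm n a)))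

lemma deg_nrm (n : ℕ) : ∀ e : Ex, Pol.Deg (fun i => Ex.deg i e) n (nrm n e)
  | .c z => Pol.deg_const _ n z
  | .x j => by
    by_cases h : j < n
    · simp only [nrm, if_pos h]; exact Pol.deg_var _ j (by simp [Ex.deg]) n
    · simp only [nrm, if_neg h]; exact Pol.deg_zero _ n
  | .add a b => Pol.deg_add _ n _ _
      (Pol.deg_mono (fun i => le_max_left (Ex.deg i a) (Ex.deg i b)) n _ (deg_nrm n a))
      (Pol.deg_mono (fun i => le_max_right (Ex.deg i a) (Ex.deg i b)) n _ (deg_nrm n b))
  | .mul a b => Pol.deg_mul _ _ n _ _ (deg_nrm n a) (deg_nrm n b)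

lemma deg_congr {d e : ℕ → ℕ} : ∀ n a, (∀ i, i < n → d i = e i) → Pol.Deg d n a → Pol.Deg e n a
  | 0, _, _, _ => trivial
  | n + 1, _, h, ha => ⟨by rw [← h n (by omega)]; exact ha.1,
      fun b hb => deg_congr n b (fun i hi => h i (by omega)) (ha.2 b hb)⟩

/-- The packed substitution. -/
def packed (n bits D : ℕ) (i : ℕ) : ℤ := if i < n then Pol.base bits D i else 0

lemma evalZ_nrm (n bits D : ℕ) (e : Ex) :
    Pol.evalZ (Pol.base bits D) n (nrm n e) = Ex.valZ (packed n bits D) e := by
  have h : ∀ e : Ex, Pol.eval (fun i => ((Pol.base bits D i : ℤ) : ℝ)) n (nrm n e)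
      = ((Ex.valZ (packed n bits D) e : ℤ) : ℝ) := by
    intro e
    induction e with
    | c z => exact Pol.eval_const _ n z
    | x i =>
      by_cases h : i < n
      · simp only [nrm, if_pos h, Ex.valZ, packed, Pol.eval_var _ n i h]
      · simp only [nrm, if_neg h, Ex.valZ, packed, Pol.eval_zero, Int.cast_zero]
    | add a b iha ihb => simp only [nrm, Ex.valZ, Pol.eval_add, iha, ihb, Int.cast_add]
    | mul a b iha ihb => simp only [nrm, Ex.valZ, Pol.eval_mul, iha, ihb, Int.cast_mul]
  have h2 := (Pol.evalZ_cast (Pol.base bits D) n (nrm n e)).trans (h e)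
  exact_mod_cast h2

/-- `k` repetitions of the block `m` of width `w`. -/
def rep (w m : ℕ) : ℕ → ℕ
  | 0 => 0
  | k + 1 => m + 2 ^ w * rep w m k

/-- The top bit of every digit. -/
def mask (bits D : ℕ) : ℕ → ℕ
  | 0 => 2 ^ (bits - 1)
  | n + 1 => rep (bits * D ^ n) (mask bits D n) D

lemma rep_lt (w m : ℕ) (hm : m < 2 ^ w) : ∀ k, rep w m k < 2 ^ (w * k)
  | 0 => by simp [rep]
  | k + 1 => by
    have := rep_lt w m hm k
    calc m + 2 ^ w * rep w m k < 2 ^ w * (rep w m k + 1) := by rw [mul_add, mul_one]; omega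
      _ ≤ 2 ^ w * 2 ^ (w * k) := Nat.mul_le_mul le_rfl this
      _ = 2 ^ (w * (k + 1)) := by rw [← pow_add]; ring_nf

lemma mask_lt (bits D : ℕ) (hb : 0 < bits) : ∀ n, mask bits D n < 2 ^ (bits * D ^ n)
  | 0 => by simpa [mask] using Nat.pow_lt_pow_right (by norm_num : 1 < 2) (by omega : bits - 1 < bits)
  | n + 1 => by
    have := rep_lt _ _ (mask_lt bits D hb n) D
    rw [mask, pow_succ, ← mul_assoc]
    exact this

lemma split_mask {w m N k : ℕ} (hm : m < 2 ^ w) (h : N &&& rep w m (k + 1) = 0) :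
    N % 2 ^ w &&& m = 0 ∧ N / 2 ^ w &&& rep w m k = 0 := by
  have e1 : rep w m (k + 1) % 2 ^ w = m := by
    rw [rep, Nat.add_mul_mod_self_left, Nat.mod_eq_of_lt hm]
  have e2 : rep w m (k + 1) / 2 ^ w = rep w m k := by
    rw [rep, Nat.add_mul_div_left _ _ (Nat.two_pow_pos w), Nat.div_eq_of_lt hm, zero_add]
  constructor
  · have := Nat.and_mod_two_pow (a := N) (b := rep w m (k + 1)) (n := w)
    rw [h, e1, Nat.zero_mod] at this
    exact this.symm
  · have := Nat.and_div_two_pow (a := N) (b := rep w m (k + 1)) (n := w)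
    rw [h, e2, Nat.zero_div] at this
    exact this.symm

lemma check_of_mask (bits D : ℕ) (hb : 0 < bits) (hD : 0 < D) :
    ∀ (n N : ℕ), N < 2 ^ (bits * D ^ n) → N &&& mask bits D n = 0 →
      Pol.check bits D n (N : ℤ) = true ∧ 2 * N < 2 ^ (bits * D ^ n) := by
  intro n
  induction n with
  | zero =>
    intro N hN h
    refine ⟨decide_eq_true (Int.natCast_nonneg N), ?_⟩
    rw [pow_zero, mul_one] at hN ⊢
    obtain ⟨b, rfl⟩ : ∃ b, bits = b + 1 := ⟨bits - 1, by omega⟩
    simp only [mask, Nat.add_sub_cancel, Nat.and_two_pow] at h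
    have hbit : N.testBit b = false := by
      cases hh : N.testBit b
      · rfl
      · simp [hh] at h
    rw [Nat.testBit_eq_decide_div_mod_eq, decide_eq_false_iff_not] at hbit
    have h2 : N / 2 ^ b < 2 := by
      rw [Nat.div_lt_iff_lt_mul (Nat.two_pow_pos b)]; rw [pow_succ] at hN; linarith
    have h3 : N < 2 ^ b := by
      have : N / 2 ^ b = 0 := by
        rcases Nat.le_one_iff_eq_zero_or_eq_one.mp (Nat.lt_succ_iff.mp h2) with h4 | h4
        · exact h4
        · simp [h4] at hbit
      rcases Nat.div_eq_zero_iff.mp this with h4 | h4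
      · exact absurd h4 (Nat.two_pow_pos b).ne'
      · exact h4
    rw [pow_succ]; omega
  | succ n ih =>
    set w := bits * D ^ n with hw
    have e : bits * D ^ (n + 1) = w * D := by rw [hw, pow_succ]; ring
    have hm : mask bits D n < 2 ^ w := mask_lt bits D hb n
    have hbase : Pol.base bits D n = ((2 ^ w : ℕ) : ℤ) := by simp [Pol.base, hw]
    have key : ∀ k N : ℕ, N < 2 ^ (w * k) → N &&& rep w (mask bits D n) k = 0 →
        Pol.digits (Pol.check bits D n) (Pol.base bits D n) k (N : ℤ) = true ∧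
          (0 < k → 2 * N < 2 ^ (w * k)) := by
      intro k
      induction k with
      | zero =>
        intro N hN _
        refine ⟨?_, fun hk => absurd hk (lt_irrefl 0)⟩
        simp only [mul_zero, pow_zero, Nat.lt_one_iff] at hN
        simp [Pol.digits, hN]
      | succ k ihk =>
        intro N hN h
        obtain ⟨h1, h2⟩ := split_mask hm h
        obtain ⟨c1, b1⟩ := ih (N % 2 ^ w) (Nat.mod_lt _ (Nat.two_pow_pos w)) h1
        have hdiv : N / 2 ^ w < 2 ^ (w * k) := by
          rw [Nat.div_lt_iff_lt_mul (Nat.two_pow_pos w), ← pow_add]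
          rwa [Nat.mul_succ] at hN
        obtain ⟨c2, b2⟩ := ihk (N / 2 ^ w) hdiv h2
        refine ⟨?_, fun _ => ?_⟩
        · simp only [Pol.digits, Bool.and_eq_true, decide_eq_true_eq, hbase]
          rw [hbase] at c2
          refine ⟨⟨?_, ?_⟩, ?_⟩
          · exact_mod_cast b1
          · exact_mod_cast c1
          · exact_mod_cast c2
        · rcases Nat.eq_zero_or_pos k with rfl | hk
          · rw [zero_add, mul_one] at hN ⊢
            rw [Nat.mod_eq_of_lt hN] at b1
            exact b1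
          · have hlt := b2 hk
            have hmod := Nat.mod_lt N (Nat.two_pow_pos w)
            have heq := Nat.mod_add_div N (2 ^ w)
            calc 2 * N = 2 * (N % 2 ^ w) + 2 ^ w * (2 * (N / 2 ^ w)) := by linarith
              _ < 2 ^ w * (2 * (N / 2 ^ w) + 2) := by rw [mul_add]; omega
              _ ≤ 2 ^ w * 2 ^ (w * k) := by
                  refine Nat.mul_le_mul le_rfl ?_
                  rcases Nat.eq_zero_or_pos w with hw0 | hw0
                  · exact absurd hw0 (by rw [hw]; positivity)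
                  · have : 2 ∣ 2 ^ (w * k) := dvd_pow_self 2 (Nat.mul_ne_zero hw0.ne' hk.ne')
                    omega
              _ = 2 ^ (w * (k + 1)) := by rw [← pow_add]; ring_nf
    intro N hN h
    rw [e] at hN ⊢
    obtain ⟨a, b⟩ := key D N hN h
    exact ⟨a, b hD⟩

/-- All the tests for one expression, given its packed value `Z`. -/
def good (n bits D : ℕ) (e : Ex) : Bool :=
  decide (0 < bits) && decide (0 < D) && (List.range n).all (fun i => decide (Ex.deg i e < D))
    && decide (2 * Ex.bound e < (2 : ℤ) ^ bits)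

/-- The mask test on a packed value. -/
def maskTest (n bits D : ℕ) (Z : ℤ) : Bool :=
  match Z with
  | Int.ofNat N => Nat.blt N (2 ^ (bits * D ^ n)) && Nat.beq (Nat.land N (mask bits D n)) 0
  | Int.negSucc _ => false

section hom
variable {α β : Type} (φ : α → β) {f : α → α → α} {f' : β → β → β} {g : α → α → α}
  {g' : β → β → β}

lemma map_zipAdd (hf : ∀ a b, φ (f a b) = f' (φ a) (φ b)) :
    ∀ as bs, (Pol.zipAdd f as bs).map φ = Pol.zipAdd f' (as.map φ) (bs.map φ)
  | [], bs => by simp [Pol.zipAdd]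
  | a :: as, [] => by simp [Pol.zipAdd]
  | a :: as, b :: bs => by simp [Pol.zipAdd, hf, map_zipAdd hf as bs]

lemma map_listMul {z : α} (hf : ∀ a b, φ (f a b) = f' (φ a) (φ b))
    (hg : ∀ a b, φ (g a b) = g' (φ a) (φ b)) (bs : List α) :
    ∀ as, (Pol.listMul z f g as bs).map φ = Pol.listMul (φ z) f' g' (as.map φ) (bs.map φ)
  | [] => by simp [Pol.listMul]
  | a :: as => by
    have h : φ ∘ g a = g' (φ a) ∘ φ := funext (hg a)
    simp only [Pol.listMul, List.map_cons, map_zipAdd φ hf, map_listMul hf hg bs as, List.map_map, h]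

end hom

lemma evalZ_add (x : ℕ → ℤ) (n : ℕ) (a b : Pol n) :
    Pol.evalZ x n (Pol.add n a b) = Pol.evalZ x n a + Pol.evalZ x n b := by
  have h := Pol.eval_add (fun i => (x i : ℝ)) n a b
  rw [← Pol.evalZ_cast, ← Pol.evalZ_cast, ← Pol.evalZ_cast] at h
  exact_mod_cast h

lemma evalZ_mul (x : ℕ → ℤ) (n : ℕ) (a b : Pol n) :
    Pol.evalZ x n (Pol.mul n a b) = Pol.evalZ x n a * Pol.evalZ x n b := by
  have h := Pol.eval_mul (fun i => (x i : ℝ)) n a b
  rw [← Pol.evalZ_cast, ← Pol.evalZ_cast, ← Pol.evalZ_cast] at h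
  exact_mod_cast h

lemma evalZ_const (x : ℕ → ℤ) (n : ℕ) (z : ℤ) : Pol.evalZ x n (Pol.const n z) = z := by
  have h := Pol.eval_const (fun i => (x i : ℝ)) n z
  rw [← Pol.evalZ_cast] at h
  exact_mod_cast h

lemma evalZ_zero (x : ℕ → ℤ) (n : ℕ) : Pol.evalZ x n (Pol.zero n) = 0 := by
  have h := Pol.eval_zero (fun i => (x i : ℝ)) n
  rw [← Pol.evalZ_cast] at h
  exact_mod_cast h

lemma evalZ_var (x : ℕ → ℤ) (n i : ℕ) (hi : i < n) : Pol.evalZ x n (Pol.var n i) = x i := by
  have h := Pol.eval_var (fun j => (x j : ℝ)) n i hi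
  rw [← Pol.evalZ_cast] at h
  exact_mod_cast h

lemma size_mem {n : ℕ} {b : Pol n} : ∀ {as : List (Pol n)}, b ∈ as →
    Pol.size n b ≤ Pol.listEvalZ (Pol.size n) 1 as
  | c :: cs, hb => by
    simp only [Pol.listEvalZ, one_mul]
    have h0 : 0 ≤ Pol.listEvalZ (Pol.size n) 1 cs := Pol.size_nonneg (n + 1) cs
    have h1 := Pol.size_nonneg n c
    rcases List.mem_cons.mp hb with rfl | h
    · linarith
    · linarith [size_mem h]

end Vale.Agent.P154.Four.Mask
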