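import Vale.Agent.P154.Defs

/-!
Broadcasting of the four-state Potts channel on rooted random trees: definitions.
-/

namespace Vale.Agent.P154.Four

/-- The four-state Potts channel with nontrivial eigenvalue `l`. -/
noncomputable def potts (l : ℝ) (i j : Fin 4) : ℝ := (if i = j then l else 0) + (1 - l) / 4

/-- The observation at depth `n`: the tree down to depth `n` (each vertex carrying the list
of its children) with the spins of the vertices at depth exactly `n`. -/
def Obs : ℕ → Type
  | 0 => Fin 4
  | n + 1 => List (Obs n)

/-- Probability of an observation given the root spin: the offspring counts are independent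
with law `p`, and each child receives its parent's spin through the channel independently. -/
noncomputable def lik (p : ℕ → ℝ) (l : ℝ) : (n : ℕ) → Fin 4 → Obs n → ℝ
  | 0 => fun i (s : Fin 4) => if s = i then 1 else 0
  | n + 1 => fun i (cs : List (Obs n)) =>
      p cs.length * (cs.map fun c => ∑ j, potts l i j * lik p l n j c).prod

/-- Expected total-variation distance between the posterior of the root spin and the uniform
law: the sum over observations `η` of `P(η) * (1/2) * ∑ i, |P(root = i | η) - 1/4|`, written
without division as `(1/2) * ∑ i, |P(root = i, η) - P(η) / 4|`. -/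
noncomputable def advantage (p : ℕ → ℝ) (l : ℝ) (n : ℕ) : ℝ :=
  ∑' η : Obs n, (1 / 2) * ∑ i, |lik p l n i η / 4 - (∑ j, lik p l n j η) / 16|

/-- Nonreconstruction: the advantage tends to zero. -/
def Nonreconstruction (p : ℕ → ℝ) (l : ℝ) : Prop :=
  Filter.Tendsto (advantage p l) Filter.atTop (nhds 0)

/-- Reconstruction: the advantage stays bounded away from zero at every depth. -/
def Reconstruction (p : ℕ → ℝ) (l : ℝ) : Prop :=
  ∃ ε : ℝ, 0 < ε ∧ ∀ n, ε ≤ advantage p l n

end Vale.Agent.P154.Four
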