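import Vale.Agent.P154.Four.Moments
import Vale.Agent.P154.Four.Defs
import Mathlib.Analysis.Normed.Ring.InfiniteSum
import Mathlib.Topology.Algebra.InfiniteSum.Real
import Mathlib.Topology.Algebra.InfiniteSum.Ring
import Mathlib.Topology.Algebra.InfiniteSum.Order
import Mathlib.Tactic

/-!
Channels symmetric under all relabellings of the four states, their moments, and their
combination. The invariant and the two weights are parameters (`Cert`).
-/

namespace Vale.Agent.P154.Four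

open Equiv

variable {ι κ : Type}

lemma hasSum_eq_val {f : ι → ℝ} {a b : ℝ} (h : HasSum f a) (e : a = b) : HasSum f b := e ▸ h

/-- A likelihood table. -/
abbrev Lik (ι : Type) := ι → Fin 4 → ℝ

/-- Moment functions. -/
abbrev Mom := (Fin 4 → ℝ) → ℝ

/-- A probability channel symmetric under every relabelling of the states. -/
structure Ok (L : Lik ι) : Prop where
  nonneg : ∀ x i, 0 ≤ L x i
  total : ∀ i, HasSum (fun x => L x i) 1
  sym : ∀ π : Perm (Fin 4), ∃ e : ι ≃ ι, ∀ x i, L (e x) (π i) = L x i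

/-- The normalised moment of a channel. -/
noncomputable def mo (g : Mom) (L : Lik ι) : ℝ := (∑' x, g (L x)) / 4

/-- Moment functions controlled by the mass. -/
def Dom (g : Mom) (C : ℝ) : Prop := ∀ v : Fin 4 → ℝ, (∀ i, 0 ≤ v i) → |g v| ≤ C * tot v

/-- A likelihood vector seen through one edge. -/
noncomputable def shiftVec (l : ℝ) (v : Fin 4 → ℝ) : Fin 4 → ℝ :=
  fun i => l * v i + (1 - l) / 4 * tot v

/-- An invariant `F` with weights `P` (closure) and `W` (information) and strictness `δ`. -/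
structure Cert (F P W : Mom) (δ : ℝ) : Prop where
  delta_pos : 0 < δ
  delta_le : δ ≤ 1
  domF : ∃ C, Dom F C
  domP : ∃ C, Dom P C
  domW : ∃ C, Dom W C
  nnP : ∀ v : Fin 4 → ℝ, (∀ i, 0 ≤ v i) → 0 ≤ P v
  nnW : ∀ v : Fin 4 → ℝ, (∀ i, 0 ≤ v i) → 0 ≤ W v
  homF : ∀ (c : ℝ) (v : Fin 4 → ℝ), F (fun i => c * v i) = c * F v
  onesF : F (fun _ => 1) = 0
  leafF : ∀ s : Fin 4, 0 ≤ F (fun i => if s = i then 1 else 0)
  shiftF : ∀ l : ℝ, 0 ≤ l → l ≤ 1 →
    ∃ c, 0 ≤ c ∧ ∀ v : Fin 4 → ℝ, (∀ i, 0 ≤ v i) → c * F v ≤ F (shiftVec l v)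
  info : ∀ v w : Fin 4 → ℝ, (∀ i, 0 ≤ v i) → (∀ i, 0 ≤ w i) →
    relabels mA v w ≤ 6 * (mA v * mS w + mS v * mA w - F v * W w - W v * F w
      - δ * (mB v * mA w + mA v * mB w))
  clos : ∀ v w : Fin 4 → ℝ, (∀ i, 0 ≤ v i) → (∀ i, 0 ≤ w i) →
    6 * (F v * P w + P v * F w) ≤ relabels F v w

section vec
variable {v : Fin 4 → ℝ}

lemma tot_nonneg (hv : ∀ i, 0 ≤ v i) : 0 ≤ tot v := by
  simp only [tot]; linarith [hv 0, hv 1, hv 2, hv 3]

lemma sq_nonneg' (v : Fin 4 → ℝ) : 0 ≤ sq v := by simp only [sq]; positivity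

lemma sq_le (hv : ∀ i, 0 ≤ v i) : sq v ≤ 3 * tot v ^ 2 := by
  simp only [sq, u1, u2, u3, tot]
  nlinarith [mul_nonneg (hv 0) (hv 1), mul_nonneg (hv 0) (hv 2), mul_nonneg (hv 0) (hv 3),
    mul_nonneg (hv 1) (hv 2), mul_nonneg (hv 1) (hv 3), mul_nonneg (hv 2) (hv 3)]

lemma mA_nonneg (hv : ∀ i, 0 ≤ v i) : 0 ≤ mA v :=
  div_nonneg (sq_nonneg' v) (by linarith [tot_nonneg hv])

lemma mA_le (hv : ∀ i, 0 ≤ v i) : mA v ≤ tot v := by
  rcases eq_or_lt_of_le (tot_nonneg hv) with h | h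
  · rw [mA, ← h]; simp
  · rw [mA, div_le_iff₀ (by positivity)]; nlinarith [sq_le hv]

lemma mB_eq (v : Fin 4 → ℝ) : mB v = mA v ^ 2 / tot v := by
  by_cases h : tot v = 0
  · simp [mA, mB, h]
  · rw [mA, mB]; field_simp; ring

lemma mB_nonneg (hv : ∀ i, 0 ≤ v i) : 0 ≤ mB v := by
  rw [mB_eq]; exact div_nonneg (sq_nonneg _) (tot_nonneg hv)

lemma mB_le (hv : ∀ i, 0 ≤ v i) : mB v ≤ tot v := by
  rcases eq_or_lt_of_le (tot_nonneg hv) with h | h
  · rw [mB_eq, ← h]; simp
  · rw [mB_eq, div_le_iff₀ h]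
    nlinarith [mA_le hv, mA_nonneg hv]

lemma mB_ge (hv : ∀ i, 0 ≤ v i) (X : ℝ) : 2 * X * mA v - X ^ 2 * tot v ≤ mB v := by
  rcases eq_or_lt_of_le (tot_nonneg hv) with h | h
  · rw [mB_eq, mA, ← h]; simp
  · rw [mB_eq, le_div_iff₀ h]; nlinarith [sq_nonneg (mA v - X * tot v)]

lemma dom_mA : Dom mA 1 := fun v hv => by
  rw [abs_of_nonneg (mA_nonneg hv), one_mul]; exact mA_le hv

lemma dom_mB : Dom mB 1 := fun v hv => by
  rw [abs_of_nonneg (mB_nonneg hv), one_mul]; exact mB_le hv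

lemma dom_mS : Dom mS 1 := fun v hv => by
  rw [mS, abs_of_nonneg (tot_nonneg hv), one_mul]

lemma tot_smul (c : ℝ) (v : Fin 4 → ℝ) : tot (fun i => c * v i) = c * tot v := by
  simp only [tot]; ring

lemma mA_smul (c : ℝ) (v : Fin 4 → ℝ) : mA (fun i => c * v i) = c * mA v := by
  have h : sq (fun i => c * v i) = c ^ 2 * sq v := by simp only [sq, u1, u2, u3]; ring
  rw [mA, mA, tot_smul, h]
  by_cases hc : c = 0
  · simp [hc]
  · field_simp

lemma shiftVec_moments (l : ℝ) (v : Fin 4 → ℝ) :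
    tot (shiftVec l v) = tot v ∧ sq (shiftVec l v) = l ^ 2 * sq v := by
  simp only [shiftVec, tot, sq, u1, u2, u3]
  constructor <;> ring

lemma mA_shiftVec (l : ℝ) (v : Fin 4 → ℝ) : mA (shiftVec l v) = l ^ 2 * mA v := by
  obtain ⟨a, b⟩ := shiftVec_moments l v
  rw [mA, mA, a, b, mul_div_assoc]

end vec

variable {L : Lik ι} {M : Lik κ}

lemma Ok.hasSum_mass (h : Ok L) : HasSum (fun x => mS (L x)) 4 :=
  hasSum_eq_val ((((h.total 0).add (h.total 1)).add (h.total 2)).add (h.total 3)) (by norm_num)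

lemma Ok.summable_mom (h : Ok L) {g : Mom} {C : ℝ} (hg : Dom g C) :
    Summable fun x => g (L x) :=
  Summable.of_norm_bounded (h.hasSum_mass.summable.mul_left C) (fun x => hg _ (h.nonneg x))

lemma Ok.mo_mass (h : Ok L) : mo mS L = 1 := by
  rw [mo, h.hasSum_mass.tsum_eq]; norm_num

lemma Ok.mo_nonneg (h : Ok L) {g : Mom}
    (hg : ∀ v : Fin 4 → ℝ, (∀ i, 0 ≤ v i) → 0 ≤ g v) : 0 ≤ mo g L :=
  div_nonneg (tsum_nonneg fun x => hg _ (h.nonneg x)) (by norm_num)

lemma Ok.mA_le_one (h : Ok L) : mo mA L ≤ 1 := by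
  have : (∑' x, mA (L x)) ≤ ∑' x, mS (L x) :=
    (h.summable_mom dom_mA).tsum_le_tsum (fun x => mA_le (h.nonneg x)) h.hasSum_mass.summable
  rw [h.hasSum_mass.tsum_eq] at this
  rw [mo]; linarith

lemma Ok.sq_le_mB (h : Ok L) : mo mA L ^ 2 ≤ mo mB L := by
  set X := mo mA L with hX
  have hl := ((h.summable_mom dom_mA).hasSum.mul_left (2 * X)).sub (h.hasSum_mass.mul_left (X ^ 2))
  have key := hasSum_le (fun x => mB_ge (h.nonneg x) X) hl (h.summable_mom dom_mB).hasSum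
  have e : (∑' x, mA (L x)) = 4 * X := by rw [hX, mo]; ring
  rw [e] at key
  rw [mo]; linarith

/-- Combination of two channels with a common root spin. -/
def pair (L : Lik ι) (M : Lik κ) : Lik (ι × κ) := fun z i => L z.1 i * M z.2 i

lemma pair_ok (hL : Ok L) (hM : Ok M) : Ok (pair L M) where
  nonneg z i := mul_nonneg (hL.nonneg _ _) (hM.nonneg _ _)
  total i := by
    have hs : Summable fun z : ι × κ => L z.1 i * M z.2 i :=
      (hL.total i).summable.mul_of_nonneg (hM.total i).summable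
        (fun x => hL.nonneg x i) (fun y => hM.nonneg y i)
    have := (hL.total i).mul (hM.total i) hs
    rw [one_mul] at this
    exact this
  sym π := by
    obtain ⟨e, he⟩ := hL.sym π
    obtain ⟨f, hf⟩ := hM.sym π
    exact ⟨Equiv.prodCongr e f, fun z i => by simp [pair, he, hf]⟩

lemma pair_relabels (hL : Ok L) (hM : Ok M) {g : Mom} {C : ℝ} (hg : Dom g C) :
    HasSum (fun z : ι × κ => relabels g (L z.1) (M z.2)) (96 * mo g (pair L M)) := by
  have h := ((pair_ok hL hM).summable_mom hg).hasSum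
  have hπ : ∀ π : Perm (Fin 4), HasSum (fun z : ι × κ => g fun i => L z.1 i * M z.2 (π i))
      (∑' z, g (pair L M z)) := by
    intro π
    obtain ⟨f, hf⟩ := hM.sym π⁻¹
    have h1 := (Equiv.hasSum_iff (Equiv.prodCongr (Equiv.refl ι) f)).mpr h
    refine h1.congr_fun fun z => ?_
    simp only [Function.comp_apply, Equiv.prodCongr_apply]
    congr 1
    funext i
    have := hf z.2 (π i)
    rw [show π⁻¹ (π i) = i from π.symm_apply_apply i] at this
    simp [pair, this]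
  refine hasSum_eq_val (hasSum_sum fun π _ => hπ π) ?_
  rw [Finset.sum_const, Finset.card_univ, Fintype.card_perm, Fintype.card_fin, mo]
  simp [Nat.factorial]
  ring

lemma hasSum_prod_mom (hL : Ok L) (hM : Ok M) {g k : Mom} {C D : ℝ}
    (hg : Dom g C) (hk : Dom k D) :
    HasSum (fun z : ι × κ => g (L z.1) * k (M z.2)) (16 * (mo g L * mo k M)) := by
  have sL : Summable fun x => ‖g (L x)‖ := (hL.summable_mom hg).abs
  have sM : Summable fun y => ‖k (M y)‖ := (hM.summable_mom hk).abs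
  have := (hL.summable_mom hg).hasSum.mul (hM.summable_mom hk).hasSum
    (summable_mul_of_summable_norm sL sM)
  refine hasSum_eq_val this ?_
  simp only [mo]; ring

variable {F P W : Mom} {δ : ℝ}

theorem pair_info (c : Cert F P W δ) (hL : Ok L) (hM : Ok M)
    (fL : 0 ≤ mo F L) (fM : 0 ≤ mo F M) :
    mo mA (pair L M) ≤ mo mA L + mo mA M
      - δ * (mo mA L ^ 2 * mo mA M + mo mA L * mo mA M ^ 2) := by
  obtain ⟨CF, dF⟩ := c.domF
  obtain ⟨CW, dW⟩ := c.domW
  have hl := pair_relabels hL hM dom_mA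
  have hr := (((((hasSum_prod_mom hL hM dom_mA dom_mS).add
      (hasSum_prod_mom hL hM dom_mS dom_mA)).sub
      (hasSum_prod_mom hL hM dF dW)).sub (hasSum_prod_mom hL hM dW dF)).sub
      (((hasSum_prod_mom hL hM dom_mB dom_mA).add
        (hasSum_prod_mom hL hM dom_mA dom_mB)).mul_left δ)).mul_left 6
  have key := hasSum_le (fun z : ι × κ => c.info _ _ (hL.nonneg z.1) (hM.nonneg z.2)) hl hr
  rw [hM.mo_mass, hL.mo_mass] at key
  have h1 : 0 ≤ mo F L * mo W M := mul_nonneg fL (hM.mo_nonneg c.nnW)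
  have h2 : 0 ≤ mo W L * mo F M := mul_nonneg (hL.mo_nonneg c.nnW) fM
  have h3 : mo mA L ^ 2 * mo mA M + mo mA L * mo mA M ^ 2
      ≤ mo mB L * mo mA M + mo mA L * mo mB M :=
    add_le_add (mul_le_mul_of_nonneg_right hL.sq_le_mB (hM.mo_nonneg fun _ => mA_nonneg))
      (mul_le_mul_of_nonneg_left hM.sq_le_mB (hL.mo_nonneg fun _ => mA_nonneg))
  have h4 := mul_le_mul_of_nonneg_left h3 c.delta_pos.le
  linarith

theorem pair_inv (c : Cert F P W δ) (hL : Ok L) (hM : Ok M)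
    (fL : 0 ≤ mo F L) (fM : 0 ≤ mo F M) : 0 ≤ mo F (pair L M) := by
  obtain ⟨CF, dF⟩ := c.domF
  obtain ⟨CP, dP⟩ := c.domP
  have hr := pair_relabels hL hM dF
  have hl := ((hasSum_prod_mom hL hM dF dP).add (hasSum_prod_mom hL hM dP dF)).mul_left 6
  have key := hasSum_le (fun z : ι × κ => c.clos _ _ (hL.nonneg z.1) (hM.nonneg z.2)) hl hr
  have h1 : 0 ≤ mo F L * mo P M := mul_nonneg fL (hM.mo_nonneg c.nnP)
  have h2 : 0 ≤ mo P L * mo F M := mul_nonneg (hL.mo_nonneg c.nnP) fM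
  linarith

/-- Relabelling the observation space. -/
def reindex (e : κ ≃ ι) (L : Lik ι) : Lik κ := fun y => L (e y)

lemma reindex_ok (e : κ ≃ ι) (h : Ok L) : Ok (reindex e L) where
  nonneg _ i := h.nonneg _ i
  total i := (Equiv.hasSum_iff e).mpr (h.total i)
  sym π := by
    obtain ⟨r, hr⟩ := h.sym π
    exact ⟨(e.trans r).trans e.symm, fun y i => by simp [reindex, hr]⟩

lemma mo_reindex (e : κ ≃ ι) (g : Mom) : mo g (reindex e L) = mo g L := by
  rw [mo, mo]; congr 1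
  exact e.tsum_eq fun x => g (L x)

/-- The channel seen through one edge. -/
noncomputable def shift (l : ℝ) (L : Lik ι) : Lik ι := fun x i => ∑ j, potts l i j * L x j

lemma shift_eq (l : ℝ) (L : Lik ι) (x : ι) : shift l L x = shiftVec l (L x) := by
  funext i
  fin_cases i <;> simp [shift, shiftVec, potts, tot, Fin.sum_univ_four] <;> ring

lemma shift_ok {l : ℝ} (h0 : -(1 / 3) ≤ l) (h1 : l ≤ 1) (h : Ok L) : Ok (shift l L) where
  nonneg x i := by
    refine Finset.sum_nonneg fun j _ => mul_nonneg ?_ (h.nonneg x j)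
    simp only [potts]; split_ifs <;> linarith
  total i := by
    have := hasSum_sum (s := (Finset.univ : Finset (Fin 4)))
      fun j _ => (h.total j).mul_left (potts l i j)
    refine hasSum_eq_val this ?_
    simp only [Fin.sum_univ_four]
    fin_cases i <;> simp [potts] <;> ring
  sym π := by
    obtain ⟨r, hr⟩ := h.sym π
    refine ⟨r, fun x i => ?_⟩
    simp only [shift]
    rw [← Equiv.sum_comp π fun j => potts l (π i) j * L (r x) j]
    refine Finset.sum_congr rfl fun j _ => ?_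
    rw [hr]
    simp [potts]

lemma shift_mA (l : ℝ) (L : Lik ι) : mo mA (shift l L) = l ^ 2 * mo mA L := by
  rw [mo, mo]; simp only [shift_eq, mA_shiftVec]; rw [tsum_mul_left]; ring

lemma shift_inv (c : Cert F P W δ) {l : ℝ} (h0 : 0 ≤ l) (h1 : l ≤ 1) (h : Ok L)
    (hF : 0 ≤ mo F L) : 0 ≤ mo F (shift l L) := by
  obtain ⟨CF, dF⟩ := c.domF
  obtain ⟨k, hk, hle⟩ := c.shiftF l h0 h1
  have h2 : (∑' x, k * F (L x)) ≤ ∑' x, F (shift l L x) :=
    ((h.summable_mom dF).mul_left _).tsum_le_tsum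
      (fun x => by rw [shift_eq]; exact hle _ (h.nonneg x))
      ((shift_ok (by linarith) h1 h).summable_mom dF)
  rw [tsum_mul_left] at h2
  have h3 : 0 ≤ k * (∑' x, F (L x)) := mul_nonneg hk (by rw [mo] at hF; linarith)
  rw [mo]; linarith

end Vale.Agent.P154.Four
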