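import Vale.Agent.P154.Four.ClosCone

/-!
Coefficient tests for the closure inequality, one pair of cones at a time.
-/

namespace Vale.Agent.P154.Four

lemma clos_piece0 : NNClos ((2, 1, 1, 1), (1, 1, 0, 0), (1, 1, 1, 0), (1, 1, 1, 1))
    ((2, 1, 1, 1), (1, 1, 0, 0), (1, 1, 1, 0), (1, 1, 1, 1)) :=
  clos_of_test (bits := 103) (D := 11) (by decide +kernel) (by decide +kernel)

lemma clos_piece1 : NNClos ((2, 1, 1, 1), (1, 1, 0, 0), (1, 1, 1, 0), (1, 1, 1, 1))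
    ((2, 1, 1, 0), (1, 1, 0, 0), (1, 1, 1, 0), (2, 1, 1, 1)) :=
  clos_of_test (bits := 103) (D := 11) (by decide +kernel) (by decide +kernel)

lemma clos_piece2 : NNClos ((2, 1, 1, 1), (1, 1, 0, 0), (1, 1, 1, 0), (1, 1, 1, 1))
    ((1, 0, 0, 0), (1, 1, 0, 0), (2, 1, 1, 0), (2, 1, 1, 1)) :=
  clos_of_test (bits := 101) (D := 11) (by decide +kernel) (by decide +kernel)

end Vale.Agent.P154.Four
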