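import Vale.Agent.P154.Four.ClosCone

/-!
Coefficient tests for the closure inequality, one pair of cones at a time.
-/

namespace Vale.Agent.P154.Four

lemma clos_piece3 : NNClos ((2, 1, 1, 0), (1, 1, 0, 0), (1, 1, 1, 0), (2, 1, 1, 1))
    ((1, 0, 0, 0), (1, 1, 0, 0), (1, 1, 1, 0), (1, 1, 1, 1)) :=
  clos_of_test (bits := 99) (D := 11) (by decide +kernel) (by decide +kernel)

lemma clos_piece4 : NNClos ((1, 0, 0, 0), (1, 1, 0, 0), (2, 1, 1, 0), (2, 1, 1, 1))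
    ((1, 0, 0, 0), (1, 1, 0, 0), (1, 1, 1, 0), (1, 1, 1, 1)) :=
  clos_of_test (bits := 97) (D := 11) (by decide +kernel) (by decide +kernel)

lemma clos_piece5 : NNClos ((2, 1, 1, 0), (1, 1, 0, 0), (1, 1, 1, 0), (1, 1, 1, 1))
    ((2, 1, 1, 1), (1, 1, 0, 0), (1, 1, 0, 1), (1, 1, 1, 1)) :=
  clos_of_test (bits := 102) (D := 11) (by decide +kernel) (by decide +kernel)

end Vale.Agent.P154.Four
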