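import Vale.Agent.P154.Four.ClosCone

/-!
Coefficient tests for the closure inequality, one pair of cones at a time.
-/

namespace Vale.Agent.P154.Four

lemma clos_piece6 : NNClos ((1, 0, 0, 0), (1, 1, 0, 0), (2, 1, 1, 0), (1, 1, 1, 1))
    ((2, 1, 1, 1), (1, 1, 0, 0), (1, 1, 0, 1), (1, 1, 1, 1)) :=
  clos_of_test (bits := 100) (D := 11) (by decide +kernel) (by decide +kernel)

lemma clos_piece7 : NNClos ((2, 1, 1, 1), (1, 1, 0, 0), (1, 1, 1, 0), (1, 1, 1, 1))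
    ((2, 1, 0, 1), (1, 1, 0, 0), (1, 1, 0, 1), (2, 1, 1, 1)) :=
  clos_of_test (bits := 103) (D := 11) (by decide +kernel) (by decide +kernel)

lemma clos_piece8 : NNClos ((2, 1, 1, 1), (1, 1, 0, 0), (1, 1, 1, 0), (1, 1, 1, 1))
    ((1, 0, 0, 0), (1, 1, 0, 0), (2, 1, 0, 1), (2, 1, 1, 1)) :=
  clos_of_test (bits := 101) (D := 11) (by decide +kernel) (by decide +kernel)

end Vale.Agent.P154.Four
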