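import Vale.Agent.P154.Four.ClosCone

/-!
Coefficient tests for the closure inequality, one pair of cones at a time.
-/

namespace Vale.Agent.P154.Four

lemma clos_piece9 : NNClos ((1, 0, 0, 0), (1, 1, 0, 0), (1, 1, 1, 0), (2, 1, 1, 1))
    ((1, 0, 0, 0), (1, 1, 0, 0), (1, 1, 0, 1), (2, 1, 1, 1)) :=
  clos_of_test (bits := 97) (D := 11) (by decide +kernel) (by decide +kernel)

lemma clos_piece10 : NNClos ((2, 1, 1, 1), (1, 1, 0, 0), (1, 1, 1, 0), (1, 1, 1, 1))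
    ((2, 1, 1, 0), (1, 0, 1, 0), (1, 1, 1, 0), (1, 1, 1, 1)) :=
  clos_of_test (bits := 102) (D := 11) (by decide +kernel) (by decide +kernel)

lemma clos_piece11 : NNClos ((2, 1, 1, 1), (1, 1, 0, 0), (1, 1, 1, 0), (1, 1, 1, 1))
    ((1, 0, 0, 0), (1, 0, 1, 0), (2, 1, 1, 0), (1, 1, 1, 1)) :=
  clos_of_test (bits := 100) (D := 11) (by decide +kernel) (by decide +kernel)

end Vale.Agent.P154.Four
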