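import Vale.Agent.P154.Four.ClosCone

/-!
Coefficient tests for the closure inequality, one pair of cones at a time.
-/

namespace Vale.Agent.P154.Four

lemma clos_piece12 : NNClos ((2, 1, 1, 0), (1, 1, 0, 0), (1, 1, 1, 0), (2, 1, 1, 1))
    ((1, 0, 0, 0), (1, 0, 1, 0), (1, 1, 1, 0), (1, 1, 1, 1)) :=
  clos_of_test (bits := 98) (D := 11) (by decide +kernel) (by decide +kernel)

lemma clos_piece13 : NNClos ((1, 0, 0, 0), (1, 1, 0, 0), (2, 1, 1, 0), (2, 1, 1, 1))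
    ((1, 0, 0, 0), (1, 0, 1, 0), (1, 1, 1, 0), (1, 1, 1, 1)) :=
  clos_of_test (bits := 96) (D := 11) (by decide +kernel) (by decide +kernel)

lemma clos_piece14 : NNClos ((2, 1, 1, 1), (1, 1, 0, 0), (1, 1, 1, 0), (1, 1, 1, 1))
    ((2, 0, 1, 1), (1, 0, 1, 0), (1, 0, 1, 1), (1, 1, 1, 1)) :=
  clos_of_test (bits := 101) (D := 11) (by decide +kernel) (by decide +kernel)

end Vale.Agent.P154.Four
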