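import Vale.Agent.P154.Four.ClosCone

/-!
Coefficient tests for the closure inequality, one pair of cones at a time.
-/

namespace Vale.Agent.P154.Four

lemma clos_piece15 : NNClos ((2, 1, 1, 1), (1, 1, 0, 0), (1, 1, 1, 0), (1, 1, 1, 1))
    ((1, 0, 0, 0), (1, 0, 1, 0), (2, 0, 1, 1), (1, 1, 1, 1)) :=
  clos_of_test (bits := 99) (D := 11) (by decide +kernel) (by decide +kernel)

lemma clos_piece16 : NNClos ((2, 1, 1, 0), (1, 1, 0, 0), (1, 1, 1, 0), (2, 1, 1, 1))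
    ((1, 0, 0, 0), (1, 0, 1, 0), (1, 0, 1, 1), (1, 1, 1, 1)) :=
  clos_of_test (bits := 98) (D := 11) (by decide +kernel) (by decide +kernel)

lemma clos_piece17 : NNClos ((1, 0, 0, 0), (1, 1, 0, 0), (2, 1, 1, 0), (2, 1, 1, 1))
    ((1, 0, 0, 0), (1, 0, 1, 0), (1, 0, 1, 1), (1, 1, 1, 1)) :=
  clos_of_test (bits := 96) (D := 11) (by decide +kernel) (by decide +kernel)

end Vale.Agent.P154.Four
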