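import Vale.Agent.P154.Four.ClosCone

/-!
Coefficient tests for the closure inequality, one pair of cones at a time.
-/

namespace Vale.Agent.P154.Four

lemma clos_piece18 : NNClos ((2, 1, 1, 0), (1, 1, 0, 0), (1, 1, 1, 0), (1, 1, 1, 1))
    ((2, 1, 1, 1), (1, 0, 0, 1), (1, 0, 1, 1), (1, 1, 1, 1)) :=
  clos_of_test (bits := 101) (D := 11) (by decide +kernel) (by decide +kernel)

lemma clos_piece19 : NNClos ((2, 1, 1, 1), (1, 1, 0, 0), (2, 1, 1, 0), (1, 1, 1, 1))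
    ((2, 1, 1, 1), (1, 0, 0, 1), (1, 0, 1, 1), (1, 1, 1, 1)) :=
  clos_of_test (bits := 104) (D := 11) (by decide +kernel) (by decide +kernel)

lemma clos_piece20 : NNClos ((1, 0, 0, 0), (1, 1, 0, 0), (2, 1, 1, 0), (2, 1, 1, 1))
    ((2, 1, 1, 1), (1, 0, 0, 1), (1, 0, 1, 1), (1, 1, 1, 1)) :=
  clos_of_test (bits := 101) (D := 11) (by decide +kernel) (by decide +kernel)

end Vale.Agent.P154.Four
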