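import Vale.Agent.P154.Four.ClosCone

/-!
Coefficient tests for the closure inequality, one pair of cones at a time.
-/

namespace Vale.Agent.P154.Four

lemma clos_piece21 : NNClos ((1, 0, 0, 0), (1, 1, 0, 0), (1, 1, 1, 0), (1, 1, 1, 1))
    ((2, 0, 1, 1), (1, 0, 0, 1), (1, 0, 1, 1), (2, 1, 1, 1)) :=
  clos_of_test (bits := 98) (D := 11) (by decide +kernel) (by decide +kernel)

lemma clos_piece22 : NNClos ((1, 0, 0, 0), (1, 1, 0, 0), (1, 1, 1, 0), (1, 1, 1, 1))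
    ((1, 0, 0, 0), (1, 0, 0, 1), (2, 0, 1, 1), (2, 1, 1, 1)) :=
  clos_of_test (bits := 96) (D := 11) (by decide +kernel) (by decide +kernel)

lemma clos_piece23 : NNClos ((2, 1, 1, 1), (1, 1, 0, 0), (1, 1, 1, 0), (1, 1, 1, 1))
    ((0, 1, 0, 0), (1, 1, 0, 0), (1, 1, 1, 0), (1, 1, 1, 1)) :=
  clos_of_test (bits := 98) (D := 11) (by decide +kernel) (by decide +kernel)

end Vale.Agent.P154.Four
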