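import Vale.Agent.P154.Four.ClosCone

/-!
Coefficient tests for the closure inequality, one pair of cones at a time.
-/

namespace Vale.Agent.P154.Four

lemma clos_piece24 : NNClos ((2, 1, 1, 0), (1, 1, 0, 0), (1, 1, 1, 0), (2, 1, 1, 1))
    ((0, 1, 0, 0), (1, 1, 0, 0), (1, 1, 1, 0), (1, 1, 1, 1)) :=
  clos_of_test (bits := 98) (D := 11) (by decide +kernel) (by decide +kernel)

lemma clos_piece25 : NNClos ((1, 0, 0, 0), (1, 1, 0, 0), (2, 1, 1, 0), (2, 1, 1, 1))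
    ((0, 1, 0, 0), (1, 1, 0, 0), (1, 1, 1, 0), (1, 1, 1, 1)) :=
  clos_of_test (bits := 96) (D := 11) (by decide +kernel) (by decide +kernel)

lemma clos_piece26 : NNClos ((1, 0, 0, 0), (1, 1, 0, 0), (1, 1, 1, 0), (1, 1, 1, 1))
    ((1, 2, 1, 1), (1, 1, 0, 0), (1, 1, 0, 1), (1, 1, 1, 1)) :=
  clos_of_test (bits := 98) (D := 11) (by decide +kernel) (by decide +kernel)

end Vale.Agent.P154.Four
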