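import Vale.Agent.P154.Four.ClosCone

/-!
Coefficient tests for the closure inequality, one pair of cones at a time.
-/

namespace Vale.Agent.P154.Four

lemma clos_piece27 : NNClos ((1, 0, 0, 0), (1, 1, 0, 0), (1, 1, 1, 0), (1, 1, 1, 1))
    ((1, 2, 0, 1), (1, 1, 0, 0), (1, 1, 0, 1), (1, 2, 1, 1)) :=
  clos_of_test (bits := 98) (D := 11) (by decide +kernel) (by decide +kernel)

lemma clos_piece28 : NNClos ((1, 0, 0, 0), (1, 1, 0, 0), (1, 1, 1, 0), (1, 1, 1, 1))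
    ((0, 1, 0, 0), (1, 1, 0, 0), (1, 2, 0, 1), (1, 2, 1, 1)) :=
  clos_of_test (bits := 96) (D := 11) (by decide +kernel) (by decide +kernel)

lemma clos_piece29 : NNClos ((2, 1, 1, 1), (1, 1, 0, 0), (1, 1, 1, 0), (1, 1, 1, 1))
    ((0, 1, 0, 0), (0, 1, 1, 0), (1, 1, 1, 0), (1, 1, 1, 1)) :=
  clos_of_test (bits := 98) (D := 11) (by decide +kernel) (by decide +kernel)

end Vale.Agent.P154.Four
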