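import Vale.Agent.P154.Four.ClosCone

/-!
Coefficient tests for the closure inequality, one pair of cones at a time.
-/

namespace Vale.Agent.P154.Four

lemma clos_piece30 : NNClos ((2, 1, 1, 0), (1, 1, 0, 0), (1, 1, 1, 0), (2, 1, 1, 1))
    ((0, 1, 0, 0), (0, 1, 1, 0), (1, 1, 1, 0), (1, 1, 1, 1)) :=
  clos_of_test (bits := 98) (D := 11) (by decide +kernel) (by decide +kernel)

lemma clos_piece31 : NNClos ((1, 0, 0, 0), (1, 1, 0, 0), (2, 1, 1, 0), (2, 1, 1, 1))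
    ((0, 1, 0, 0), (0, 1, 1, 0), (1, 1, 1, 0), (1, 1, 1, 1)) :=
  clos_of_test (bits := 95) (D := 11) (by decide +kernel) (by decide +kernel)

lemma clos_piece32 : NNClos ((2, 1, 1, 1), (1, 1, 0, 0), (1, 1, 1, 0), (1, 1, 1, 1))
    ((0, 2, 1, 1), (0, 1, 1, 0), (0, 1, 1, 1), (1, 1, 1, 1)) :=
  clos_of_test (bits := 101) (D := 11) (by decide +kernel) (by decide +kernel)

end Vale.Agent.P154.Four
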