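import Vale.Agent.P154.Four.ClosCone

/-!
Coefficient tests for the closure inequality, one pair of cones at a time.
-/

namespace Vale.Agent.P154.Four

lemma clos_piece33 : NNClos ((2, 1, 1, 1), (1, 1, 0, 0), (1, 1, 1, 0), (1, 1, 1, 1))
    ((0, 1, 0, 0), (0, 1, 1, 0), (0, 2, 1, 1), (1, 1, 1, 1)) :=
  clos_of_test (bits := 99) (D := 11) (by decide +kernel) (by decide +kernel)

lemma clos_piece34 : NNClos ((2, 1, 1, 0), (1, 1, 0, 0), (1, 1, 1, 0), (2, 1, 1, 1))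
    ((0, 1, 0, 0), (0, 1, 1, 0), (0, 1, 1, 1), (1, 1, 1, 1)) :=
  clos_of_test (bits := 97) (D := 11) (by decide +kernel) (by decide +kernel)

lemma clos_piece35 : NNClos ((1, 0, 0, 0), (1, 1, 0, 0), (2, 1, 1, 0), (2, 1, 1, 1))
    ((0, 1, 0, 0), (0, 1, 1, 0), (0, 1, 1, 1), (1, 1, 1, 1)) :=
  clos_of_test (bits := 94) (D := 11) (by decide +kernel) (by decide +kernel)

end Vale.Agent.P154.Four
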