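import Vale.Agent.P154.Four.ClosCone

/-!
Coefficient tests for the closure inequality, one pair of cones at a time.
-/

namespace Vale.Agent.P154.Four

lemma clos_piece36 : NNClos ((2, 1, 1, 1), (1, 1, 0, 0), (1, 1, 1, 0), (1, 1, 1, 1))
    ((1, 2, 0, 1), (0, 1, 0, 1), (1, 1, 0, 1), (1, 1, 1, 1)) :=
  clos_of_test (bits := 101) (D := 11) (by decide +kernel) (by decide +kernel)

lemma clos_piece37 : NNClos ((2, 1, 1, 1), (1, 1, 0, 0), (1, 1, 1, 0), (1, 1, 1, 1))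
    ((0, 1, 0, 0), (0, 1, 0, 1), (1, 2, 0, 1), (1, 1, 1, 1)) :=
  clos_of_test (bits := 99) (D := 11) (by decide +kernel) (by decide +kernel)

lemma clos_piece38 : NNClos ((2, 1, 1, 0), (1, 1, 0, 0), (1, 1, 1, 0), (2, 1, 1, 1))
    ((0, 1, 0, 0), (0, 1, 0, 1), (1, 1, 0, 1), (1, 1, 1, 1)) :=
  clos_of_test (bits := 97) (D := 11) (by decide +kernel) (by decide +kernel)

end Vale.Agent.P154.Four
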