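import Vale.Agent.P154.Four.ClosCone

/-!
Coefficient tests for the closure inequality, one pair of cones at a time.
-/

namespace Vale.Agent.P154.Four

lemma clos_piece39 : NNClos ((1, 0, 0, 0), (1, 1, 0, 0), (2, 1, 1, 0), (2, 1, 1, 1))
    ((0, 1, 0, 0), (0, 1, 0, 1), (1, 1, 0, 1), (1, 1, 1, 1)) :=
  clos_of_test (bits := 95) (D := 11) (by decide +kernel) (by decide +kernel)

lemma clos_piece40 : NNClos ((2, 1, 1, 1), (1, 1, 0, 0), (1, 1, 1, 0), (1, 1, 1, 1))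
    ((0, 2, 1, 1), (0, 1, 0, 1), (0, 1, 1, 1), (1, 1, 1, 1)) :=
  clos_of_test (bits := 101) (D := 11) (by decide +kernel) (by decide +kernel)

lemma clos_piece41 : NNClos ((2, 1, 1, 1), (1, 1, 0, 0), (1, 1, 1, 0), (1, 1, 1, 1))
    ((0, 1, 0, 0), (0, 1, 0, 1), (0, 2, 1, 1), (1, 1, 1, 1)) :=
  clos_of_test (bits := 99) (D := 11) (by decide +kernel) (by decide +kernel)

end Vale.Agent.P154.Four
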