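import Vale.Agent.P154.Four.ClosCone

/-!
Coefficient tests for the closure inequality, one pair of cones at a time.
-/

namespace Vale.Agent.P154.Four

lemma clos_piece42 : NNClos ((2, 1, 1, 0), (1, 1, 0, 0), (1, 1, 1, 0), (2, 1, 1, 1))
    ((0, 1, 0, 0), (0, 1, 0, 1), (0, 1, 1, 1), (1, 1, 1, 1)) :=
  clos_of_test (bits := 97) (D := 11) (by decide +kernel) (by decide +kernel)

lemma clos_piece43 : NNClos ((1, 0, 0, 0), (1, 1, 0, 0), (2, 1, 1, 0), (2, 1, 1, 1))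
    ((0, 1, 0, 0), (0, 1, 0, 1), (0, 1, 1, 1), (1, 1, 1, 1)) :=
  clos_of_test (bits := 94) (D := 11) (by decide +kernel) (by decide +kernel)

lemma clos_piece44 : NNClos ((2, 1, 1, 1), (1, 1, 0, 0), (1, 1, 1, 0), (1, 1, 1, 1))
    ((1, 1, 2, 0), (0, 1, 1, 0), (1, 1, 1, 0), (1, 1, 1, 1)) :=
  clos_of_test (bits := 101) (D := 11) (by decide +kernel) (by decide +kernel)

end Vale.Agent.P154.Four
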