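import Vale.Agent.P154.Four.ClosCone

/-!
Coefficient tests for the closure inequality, one pair of cones at a time.
-/

namespace Vale.Agent.P154.Four

lemma clos_piece48 : NNClos ((2, 1, 1, 0), (1, 1, 0, 0), (1, 1, 1, 0), (1, 1, 1, 1))
    ((1, 1, 2, 1), (0, 1, 1, 0), (0, 1, 1, 1), (1, 1, 1, 1)) :=
  clos_of_test (bits := 101) (D := 11) (by decide +kernel) (by decide +kernel)

lemma clos_piece49 : NNClos ((1, 0, 0, 0), (1, 1, 0, 0), (2, 1, 1, 0), (1, 1, 1, 1))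
    ((1, 1, 2, 1), (0, 1, 1, 0), (0, 1, 1, 1), (1, 1, 1, 1)) :=
  clos_of_test (bits := 98) (D := 11) (by decide +kernel) (by decide +kernel)

lemma clos_piece50 : NNClos ((1, 0, 0, 0), (1, 1, 0, 0), (1, 1, 1, 0), (1, 1, 1, 1))
    ((0, 1, 2, 1), (0, 1, 1, 0), (0, 1, 1, 1), (1, 1, 2, 1)) :=
  clos_of_test (bits := 97) (D := 11) (by decide +kernel) (by decide +kernel)

end Vale.Agent.P154.Four
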