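import Vale.Agent.P154.Four.ClosCone

/-!
Coefficient tests for the closure inequality, one pair of cones at a time.
-/

namespace Vale.Agent.P154.Four

lemma clos_piece51 : NNClos ((1, 0, 0, 0), (1, 1, 0, 0), (1, 1, 1, 0), (1, 1, 1, 1))
    ((0, 0, 1, 0), (0, 1, 1, 0), (0, 1, 2, 1), (1, 1, 2, 1)) :=
  clos_of_test (bits := 95) (D := 11) (by decide +kernel) (by decide +kernel)

lemma clos_piece52 : NNClos ((2, 1, 1, 1), (1, 1, 0, 0), (1, 1, 1, 0), (1, 1, 1, 1))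
    ((0, 0, 1, 0), (0, 0, 1, 1), (2, 1, 2, 2), (1, 1, 1, 1)) :=
  clos_of_test (bits := 102) (D := 11) (by decide +kernel) (by decide +kernel)

lemma clos_piece53 : NNClos ((2, 1, 1, 1), (1, 1, 0, 0), (1, 1, 1, 0), (1, 1, 1, 1))
    ((1, 0, 2, 1), (0, 0, 1, 1), (1, 0, 1, 1), (2, 1, 2, 2)) :=
  clos_of_test (bits := 104) (D := 11) (by decide +kernel) (by decide +kernel)

end Vale.Agent.P154.Four
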