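import Vale.Agent.P154.Four.ClosCone

/-!
Coefficient tests for the closure inequality, one pair of cones at a time.
-/

namespace Vale.Agent.P154.Four

lemma clos_piece54 : NNClos ((2, 1, 1, 1), (1, 1, 0, 0), (1, 1, 1, 0), (1, 1, 1, 1))
    ((0, 0, 1, 0), (0, 0, 1, 1), (1, 0, 2, 1), (2, 1, 2, 2)) :=
  clos_of_test (bits := 102) (D := 11) (by decide +kernel) (by decide +kernel)

lemma clos_piece55 : NNClos ((2, 1, 1, 0), (1, 1, 0, 0), (1, 1, 1, 0), (2, 1, 1, 1))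
    ((0, 0, 1, 0), (0, 0, 1, 1), (1, 0, 1, 1), (1, 1, 1, 1)) :=
  clos_of_test (bits := 97) (D := 11) (by decide +kernel) (by decide +kernel)

lemma clos_piece56 : NNClos ((1, 0, 0, 0), (1, 1, 0, 0), (2, 1, 1, 0), (2, 1, 1, 1))
    ((0, 0, 1, 0), (0, 0, 1, 1), (1, 0, 1, 1), (1, 1, 1, 1)) :=
  clos_of_test (bits := 94) (D := 11) (by decide +kernel) (by decide +kernel)

end Vale.Agent.P154.Four
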