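import Vale.Agent.P154.Four.ClosCone

/-!
Coefficient tests for the closure inequality, one pair of cones at a time.
-/

namespace Vale.Agent.P154.Four

lemma clos_piece57 : NNClos ((2, 1, 1, 0), (1, 1, 0, 0), (1, 1, 1, 0), (1, 1, 1, 1))
    ((1, 1, 2, 1), (0, 0, 1, 1), (0, 1, 1, 1), (1, 1, 1, 1)) :=
  clos_of_test (bits := 101) (D := 11) (by decide +kernel) (by decide +kernel)

lemma clos_piece58 : NNClos ((1, 0, 0, 0), (1, 1, 0, 0), (2, 1, 1, 0), (1, 1, 1, 1))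
    ((1, 1, 2, 1), (0, 0, 1, 1), (0, 1, 1, 1), (1, 1, 1, 1)) :=
  clos_of_test (bits := 98) (D := 11) (by decide +kernel) (by decide +kernel)

lemma clos_piece59 : NNClos ((1, 0, 0, 0), (1, 1, 0, 0), (1, 1, 1, 0), (1, 1, 1, 1))
    ((0, 1, 2, 1), (0, 0, 1, 1), (0, 1, 1, 1), (1, 1, 2, 1)) :=
  clos_of_test (bits := 96) (D := 11) (by decide +kernel) (by decide +kernel)

end Vale.Agent.P154.Four
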