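import Vale.Agent.P154.Four.ClosCone

/-!
Coefficient tests for the closure inequality, one pair of cones at a time.
-/

namespace Vale.Agent.P154.Four

lemma clos_piece60 : NNClos ((1, 0, 0, 0), (1, 1, 0, 0), (1, 1, 1, 0), (1, 1, 1, 1))
    ((0, 0, 1, 0), (0, 0, 1, 1), (0, 1, 2, 1), (1, 1, 2, 1)) :=
  clos_of_test (bits := 94) (D := 11) (by decide +kernel) (by decide +kernel)

lemma clos_piece61 : NNClos ((2, 1, 1, 0), (1, 1, 0, 0), (1, 1, 1, 0), (1, 1, 1, 1))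
    ((1, 1, 1, 2), (0, 1, 0, 1), (0, 1, 1, 1), (1, 1, 1, 1)) :=
  clos_of_test (bits := 100) (D := 11) (by decide +kernel) (by decide +kernel)

lemma clos_piece62 : NNClos ((1, 0, 0, 0), (1, 1, 0, 0), (2, 1, 1, 0), (1, 1, 1, 1))
    ((1, 1, 1, 2), (0, 1, 0, 1), (0, 1, 1, 1), (1, 1, 1, 1)) :=
  clos_of_test (bits := 98) (D := 11) (by decide +kernel) (by decide +kernel)

end Vale.Agent.P154.Four
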