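import Vale.Agent.P154.Four.ClosCone

/-!
Coefficient tests for the closure inequality, one pair of cones at a time.
-/

namespace Vale.Agent.P154.Four

lemma clos_piece63 : NNClos ((1, 0, 0, 0), (1, 1, 0, 0), (1, 1, 1, 0), (1, 1, 1, 1))
    ((0, 1, 1, 2), (0, 1, 0, 1), (0, 1, 1, 1), (1, 1, 1, 2)) :=
  clos_of_test (bits := 96) (D := 11) (by decide +kernel) (by decide +kernel)

lemma clos_piece64 : NNClos ((1, 0, 0, 0), (1, 1, 0, 0), (1, 1, 1, 0), (1, 1, 1, 1))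
    ((0, 0, 0, 1), (0, 1, 0, 1), (0, 1, 1, 2), (1, 1, 1, 2)) :=
  clos_of_test (bits := 94) (D := 11) (by decide +kernel) (by decide +kernel)

lemma clos_piece65 : NNClos ((2, 1, 1, 0), (1, 1, 0, 0), (1, 1, 1, 0), (1, 1, 1, 1))
    ((1, 1, 1, 2), (0, 0, 1, 1), (0, 1, 1, 1), (1, 1, 1, 1)) :=
  clos_of_test (bits := 100) (D := 11) (by decide +kernel) (by decide +kernel)

end Vale.Agent.P154.Four
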