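import Vale.Agent.P154.Four.ClosCone

/-!
Coefficient tests for the closure inequality, one pair of cones at a time.
-/

namespace Vale.Agent.P154.Four

lemma clos_piece66 : NNClos ((1, 0, 0, 0), (1, 1, 0, 0), (2, 1, 1, 0), (1, 1, 1, 1))
    ((1, 1, 1, 2), (0, 0, 1, 1), (0, 1, 1, 1), (1, 1, 1, 1)) :=
  clos_of_test (bits := 98) (D := 11) (by decide +kernel) (by decide +kernel)

lemma clos_piece67 : NNClos ((1, 0, 0, 0), (1, 1, 0, 0), (1, 1, 1, 0), (1, 1, 1, 1))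
    ((0, 1, 1, 2), (0, 0, 1, 1), (0, 1, 1, 1), (1, 1, 1, 2)) :=
  clos_of_test (bits := 96) (D := 11) (by decide +kernel) (by decide +kernel)

lemma clos_piece68 : NNClos ((1, 0, 0, 0), (1, 1, 0, 0), (1, 1, 1, 0), (1, 1, 1, 1))
    ((0, 0, 0, 1), (0, 0, 1, 1), (0, 1, 1, 2), (1, 1, 1, 2)) :=
  clos_of_test (bits := 93) (D := 11) (by decide +kernel) (by decide +kernel)

end Vale.Agent.P154.Four
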