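import Vale.Agent.P154.Four.ClosTable
import Mathlib.Topology.Algebra.Polynomial
import Mathlib.Tactic

/-!
Homogeneity, parity and continuity of the correction in the closure certificate.
-/

namespace Vale.Agent.P154.Four

open Vale.Agent.P154 (rc)

variable (m n S a b c R p q r : ℝ)

private lemma cTab100_h : cTab100 rc (n * R) (n * p) (n * q) (n * r) = n ^ 6 * cTab100 rc R p q r := by
  simp only [cTab100]; ring
private lemma cTab100_f0 : cTab100 rc R p (-q) (-r) = cTab100 rc R p q r := by
  simp only [cTab100]; ring
private lemma cTab100_f1 : cTab100 rc R (-p) q (-r) = -cTab100 rc R p q r := by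
  simp only [cTab100]; ring
private lemma cTab100_f2 : cTab100 rc R (-p) (-q) r = -cTab100 rc R p q r := by
  simp only [cTab100]; ring
private lemma cTab100_c {f g h u : ℝ → ℝ} (hf : Continuous f) (hg : Continuous g)
    (hh : Continuous h) (hu : Continuous u) :
    Continuous fun t => cTab100 rc (f t) (g t) (h t) (u t) := by
  simp only [cTab100]; fun_prop

private lemma cTab200_h : cTab200 rc (n * R) (n * p) (n * q) (n * r) = n ^ 6 * cTab200 rc R p q r := by
  simp only [cTab200]; ring
private lemma cTab200_f0 : cTab200 rc R p (-q) (-r) = cTab200 rc R p q r := by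
  simp only [cTab200]; ring
private lemma cTab200_f1 : cTab200 rc R (-p) q (-r) = cTab200 rc R p q r := by
  simp only [cTab200]; ring
private lemma cTab200_f2 : cTab200 rc R (-p) (-q) r = cTab200 rc R p q r := by
  simp only [cTab200]; ring
private lemma cTab200_c {f g h u : ℝ → ℝ} (hf : Continuous f) (hg : Continuous g)
    (hh : Continuous h) (hu : Continuous u) :
    Continuous fun t => cTab200 rc (f t) (g t) (h t) (u t) := by
  simp only [cTab200]; fun_prop

private lemma cTab110_h : cTab110 rc (n * R) (n * p) (n * q) (n * r) = n ^ 6 * cTab110 rc R p q r := by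
  simp only [cTab110]; ring
private lemma cTab110_f0 : cTab110 rc R p (-q) (-r) = -cTab110 rc R p q r := by
  simp only [cTab110]; ring
private lemma cTab110_f1 : cTab110 rc R (-p) q (-r) = -cTab110 rc R p q r := by
  simp only [cTab110]; ring
private lemma cTab110_f2 : cTab110 rc R (-p) (-q) r = cTab110 rc R p q r := by
  simp only [cTab110]; ring
private lemma cTab110_c {f g h u : ℝ → ℝ} (hf : Continuous f) (hg : Continuous g)
    (hh : Continuous h) (hu : Continuous u) :
    Continuous fun t => cTab110 rc (f t) (g t) (h t) (u t) := by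
  simp only [cTab110]; fun_prop

private lemma cTab300_h : cTab300 rc (n * R) (n * p) (n * q) (n * r) = n ^ 6 * cTab300 rc R p q r := by
  simp only [cTab300]; ring
private lemma cTab300_f0 : cTab300 rc R p (-q) (-r) = cTab300 rc R p q r := by
  simp only [cTab300]; ring
private lemma cTab300_f1 : cTab300 rc R (-p) q (-r) = -cTab300 rc R p q r := by
  simp only [cTab300]; ring
private lemma cTab300_f2 : cTab300 rc R (-p) (-q) r = -cTab300 rc R p q r := by
  simp only [cTab300]; ring
private lemma cTab300_c {f g h u : ℝ → ℝ} (hf : Continuous f) (hg : Continuous g)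
    (hh : Continuous h) (hu : Continuous u) :
    Continuous fun t => cTab300 rc (f t) (g t) (h t) (u t) := by
  simp only [cTab300]; fun_prop

private lemma cTab210_h : cTab210 rc (n * R) (n * p) (n * q) (n * r) = n ^ 6 * cTab210 rc R p q r := by
  simp only [cTab210]; ring
private lemma cTab210_f0 : cTab210 rc R p (-q) (-r) = -cTab210 rc R p q r := by
  simp only [cTab210]; ring
private lemma cTab210_f1 : cTab210 rc R (-p) q (-r) = cTab210 rc R p q r := by
  simp only [cTab210]; ring
private lemma cTab210_f2 : cTab210 rc R (-p) (-q) r = -cTab210 rc R p q r := by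
  simp only [cTab210]; ring
private lemma cTab210_c {f g h u : ℝ → ℝ} (hf : Continuous f) (hg : Continuous g)
    (hh : Continuous h) (hu : Continuous u) :
    Continuous fun t => cTab210 rc (f t) (g t) (h t) (u t) := by
  simp only [cTab210]; fun_prop

private lemma cTab400_h : cTab400 rc (n * R) (n * p) (n * q) (n * r) = n ^ 6 * cTab400 rc R p q r := by
  simp only [cTab400]; ring
private lemma cTab400_f0 : cTab400 rc R p (-q) (-r) = cTab400 rc R p q r := by
  simp only [cTab400]; ring
private lemma cTab400_f1 : cTab400 rc R (-p) q (-r) = cTab400 rc R p q r := by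
  simp only [cTab400]; ring
private lemma cTab400_f2 : cTab400 rc R (-p) (-q) r = cTab400 rc R p q r := by
  simp only [cTab400]; ring
private lemma cTab400_c {f g h u : ℝ → ℝ} (hf : Continuous f) (hg : Continuous g)
    (hh : Continuous h) (hu : Continuous u) :
    Continuous fun t => cTab400 rc (f t) (g t) (h t) (u t) := by
  simp only [cTab400]; fun_prop

private lemma cTab310_h : cTab310 rc (n * R) (n * p) (n * q) (n * r) = n ^ 6 * cTab310 rc R p q r := by
  simp only [cTab310]; ring
private lemma cTab310_f0 : cTab310 rc R p (-q) (-r) = -cTab310 rc R p q r := by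
  simp only [cTab310]; ring
private lemma cTab310_f1 : cTab310 rc R (-p) q (-r) = -cTab310 rc R p q r := by
  simp only [cTab310]; ring
private lemma cTab310_f2 : cTab310 rc R (-p) (-q) r = cTab310 rc R p q r := by
  simp only [cTab310]; ring
private lemma cTab310_c {f g h u : ℝ → ℝ} (hf : Continuous f) (hg : Continuous g)
    (hh : Continuous h) (hu : Continuous u) :
    Continuous fun t => cTab310 rc (f t) (g t) (h t) (u t) := by
  simp only [cTab310]; fun_prop

private lemma cTab220_h : cTab220 rc (n * R) (n * p) (n * q) (n * r) = n ^ 6 * cTab220 rc R p q r := by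
  simp only [cTab220]; ring
private lemma cTab220_f0 : cTab220 rc R p (-q) (-r) = cTab220 rc R p q r := by
  simp only [cTab220]; ring
private lemma cTab220_f1 : cTab220 rc R (-p) q (-r) = cTab220 rc R p q r := by
  simp only [cTab220]; ring
private lemma cTab220_f2 : cTab220 rc R (-p) (-q) r = cTab220 rc R p q r := by
  simp only [cTab220]; ring
private lemma cTab220_c {f g h u : ℝ → ℝ} (hf : Continuous f) (hg : Continuous g)
    (hh : Continuous h) (hu : Continuous u) :
    Continuous fun t => cTab220 rc (f t) (g t) (h t) (u t) := by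
  simp only [cTab220]; fun_prop

private lemma cTab211_h : cTab211 rc (n * R) (n * p) (n * q) (n * r) = n ^ 6 * cTab211 rc R p q r := by
  simp only [cTab211]; ring
private lemma cTab211_f0 : cTab211 rc R p (-q) (-r) = cTab211 rc R p q r := by
  simp only [cTab211]; ring
private lemma cTab211_f1 : cTab211 rc R (-p) q (-r) = -cTab211 rc R p q r := by
  simp only [cTab211]; ring
private lemma cTab211_f2 : cTab211 rc R (-p) (-q) r = -cTab211 rc R p q r := by
  simp only [cTab211]; ring
private lemma cTab211_c {f g h u : ℝ → ℝ} (hf : Continuous f) (hg : Continuous g)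
    (hh : Continuous h) (hu : Continuous u) :
    Continuous fun t => cTab211 rc (f t) (g t) (h t) (u t) := by
  simp only [cTab211]; fun_prop

private lemma cTab500_h : cTab500 rc (n * R) (n * p) (n * q) (n * r) = n ^ 6 * cTab500 rc R p q r := by
  simp only [cTab500]; ring
private lemma cTab500_f0 : cTab500 rc R p (-q) (-r) = cTab500 rc R p q r := by
  simp only [cTab500]; ring
private lemma cTab500_f1 : cTab500 rc R (-p) q (-r) = -cTab500 rc R p q r := by
  simp only [cTab500]; ring
private lemma cTab500_f2 : cTab500 rc R (-p) (-q) r = -cTab500 rc R p q r := by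
  simp only [cTab500]; ring
private lemma cTab500_c {f g h u : ℝ → ℝ} (hf : Continuous f) (hg : Continuous g)
    (hh : Continuous h) (hu : Continuous u) :
    Continuous fun t => cTab500 rc (f t) (g t) (h t) (u t) := by
  simp only [cTab500]; fun_prop

private lemma cTab410_h : cTab410 rc (n * R) (n * p) (n * q) (n * r) = n ^ 6 * cTab410 rc R p q r := by
  simp only [cTab410]; ring
private lemma cTab410_f0 : cTab410 rc R p (-q) (-r) = -cTab410 rc R p q r := by
  simp only [cTab410]; ring
private lemma cTab410_f1 : cTab410 rc R (-p) q (-r) = cTab410 rc R p q r := by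
  simp only [cTab410]; ring
private lemma cTab410_f2 : cTab410 rc R (-p) (-q) r = -cTab410 rc R p q r := by
  simp only [cTab410]; ring
private lemma cTab410_c {f g h u : ℝ → ℝ} (hf : Continuous f) (hg : Continuous g)
    (hh : Continuous h) (hu : Continuous u) :
    Continuous fun t => cTab410 rc (f t) (g t) (h t) (u t) := by
  simp only [cTab410]; fun_prop

private lemma cTab320_h : cTab320 rc (n * R) (n * p) (n * q) (n * r) = n ^ 6 * cTab320 rc R p q r := by
  simp only [cTab320]; ring
private lemma cTab320_f0 : cTab320 rc R p (-q) (-r) = cTab320 rc R p q r := by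
  simp only [cTab320]; ring
private lemma cTab320_f1 : cTab320 rc R (-p) q (-r) = -cTab320 rc R p q r := by
  simp only [cTab320]; ring
private lemma cTab320_f2 : cTab320 rc R (-p) (-q) r = -cTab320 rc R p q r := by
  simp only [cTab320]; ring
private lemma cTab320_c {f g h u : ℝ → ℝ} (hf : Continuous f) (hg : Continuous g)
    (hh : Continuous h) (hu : Continuous u) :
    Continuous fun t => cTab320 rc (f t) (g t) (h t) (u t) := by
  simp only [cTab320]; fun_prop

private lemma cTab311_h : cTab311 rc (n * R) (n * p) (n * q) (n * r) = n ^ 6 * cTab311 rc R p q r := by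
  simp only [cTab311]; ring
private lemma cTab311_f0 : cTab311 rc R p (-q) (-r) = cTab311 rc R p q r := by
  simp only [cTab311]; ring
private lemma cTab311_f1 : cTab311 rc R (-p) q (-r) = cTab311 rc R p q r := by
  simp only [cTab311]; ring
private lemma cTab311_f2 : cTab311 rc R (-p) (-q) r = cTab311 rc R p q r := by
  simp only [cTab311]; ring
private lemma cTab311_c {f g h u : ℝ → ℝ} (hf : Continuous f) (hg : Continuous g)
    (hh : Continuous h) (hu : Continuous u) :
    Continuous fun t => cTab311 rc (f t) (g t) (h t) (u t) := by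
  simp only [cTab311]; fun_prop

private lemma cTab221_h : cTab221 rc (n * R) (n * p) (n * q) (n * r) = n ^ 6 * cTab221 rc R p q r := by
  simp only [cTab221]; ring
private lemma cTab221_f0 : cTab221 rc R p (-q) (-r) = -cTab221 rc R p q r := by
  simp only [cTab221]; ring
private lemma cTab221_f1 : cTab221 rc R (-p) q (-r) = -cTab221 rc R p q r := by
  simp only [cTab221]; ring
private lemma cTab221_f2 : cTab221 rc R (-p) (-q) r = cTab221 rc R p q r := by
  simp only [cTab221]; ring
private lemma cTab221_c {f g h u : ℝ → ℝ} (hf : Continuous f) (hg : Continuous g)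
    (hh : Continuous h) (hu : Continuous u) :
    Continuous fun t => cTab221 rc (f t) (g t) (h t) (u t) := by
  simp only [cTab221]; fun_prop

private lemma cTab600_h : cTab600 rc (n * R) (n * p) (n * q) (n * r) = n ^ 6 * cTab600 rc R p q r := by
  simp only [cTab600]; ring
private lemma cTab600_f0 : cTab600 rc R p (-q) (-r) = cTab600 rc R p q r := by
  simp only [cTab600]; ring
private lemma cTab600_f1 : cTab600 rc R (-p) q (-r) = cTab600 rc R p q r := by
  simp only [cTab600]; ring
private lemma cTab600_f2 : cTab600 rc R (-p) (-q) r = cTab600 rc R p q r := by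
  simp only [cTab600]; ring
private lemma cTab600_c {f g h u : ℝ → ℝ} (hf : Continuous f) (hg : Continuous g)
    (hh : Continuous h) (hu : Continuous u) :
    Continuous fun t => cTab600 rc (f t) (g t) (h t) (u t) := by
  simp only [cTab600]; fun_prop

private lemma cTab510_h : cTab510 rc (n * R) (n * p) (n * q) (n * r) = n ^ 6 * cTab510 rc R p q r := by
  simp only [cTab510]; ring
private lemma cTab510_f0 : cTab510 rc R p (-q) (-r) = -cTab510 rc R p q r := by
  simp only [cTab510]; ring
private lemma cTab510_f1 : cTab510 rc R (-p) q (-r) = -cTab510 rc R p q r := by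
  simp only [cTab510]; ring
private lemma cTab510_f2 : cTab510 rc R (-p) (-q) r = cTab510 rc R p q r := by
  simp only [cTab510]; ring
private lemma cTab510_c {f g h u : ℝ → ℝ} (hf : Continuous f) (hg : Continuous g)
    (hh : Continuous h) (hu : Continuous u) :
    Continuous fun t => cTab510 rc (f t) (g t) (h t) (u t) := by
  simp only [cTab510]; fun_prop

private lemma cTab420_h : cTab420 rc (n * R) (n * p) (n * q) (n * r) = n ^ 6 * cTab420 rc R p q r := by
  simp only [cTab420]; ring
private lemma cTab420_f0 : cTab420 rc R p (-q) (-r) = cTab420 rc R p q r := by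
  simp only [cTab420]; ring
private lemma cTab420_f1 : cTab420 rc R (-p) q (-r) = cTab420 rc R p q r := by
  simp only [cTab420]; ring
private lemma cTab420_f2 : cTab420 rc R (-p) (-q) r = cTab420 rc R p q r := by
  simp only [cTab420]; ring
private lemma cTab420_c {f g h u : ℝ → ℝ} (hf : Continuous f) (hg : Continuous g)
    (hh : Continuous h) (hu : Continuous u) :
    Continuous fun t => cTab420 rc (f t) (g t) (h t) (u t) := by
  simp only [cTab420]; fun_prop

private lemma cTab411_h : cTab411 rc (n * R) (n * p) (n * q) (n * r) = n ^ 6 * cTab411 rc R p q r := by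
  simp only [cTab411]; ring
private lemma cTab411_f0 : cTab411 rc R p (-q) (-r) = cTab411 rc R p q r := by
  simp only [cTab411]; ring
private lemma cTab411_f1 : cTab411 rc R (-p) q (-r) = -cTab411 rc R p q r := by
  simp only [cTab411]; ring
private lemma cTab411_f2 : cTab411 rc R (-p) (-q) r = -cTab411 rc R p q r := by
  simp only [cTab411]; ring
private lemma cTab411_c {f g h u : ℝ → ℝ} (hf : Continuous f) (hg : Continuous g)
    (hh : Continuous h) (hu : Continuous u) :
    Continuous fun t => cTab411 rc (f t) (g t) (h t) (u t) := by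
  simp only [cTab411]; fun_prop

private lemma cTab330_h : cTab330 rc (n * R) (n * p) (n * q) (n * r) = n ^ 6 * cTab330 rc R p q r := by
  simp only [cTab330]; ring
private lemma cTab330_f0 : cTab330 rc R p (-q) (-r) = -cTab330 rc R p q r := by
  simp only [cTab330]; ring
private lemma cTab330_f1 : cTab330 rc R (-p) q (-r) = -cTab330 rc R p q r := by
  simp only [cTab330]; ring
private lemma cTab330_f2 : cTab330 rc R (-p) (-q) r = cTab330 rc R p q r := by
  simp only [cTab330]; ring
private lemma cTab330_c {f g h u : ℝ → ℝ} (hf : Continuous f) (hg : Continuous g)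
    (hh : Continuous h) (hu : Continuous u) :
    Continuous fun t => cTab330 rc (f t) (g t) (h t) (u t) := by
  simp only [cTab330]; fun_prop

private lemma cTab321_h : cTab321 rc (n * R) (n * p) (n * q) (n * r) = n ^ 6 * cTab321 rc R p q r := by
  simp only [cTab321]; ring
private lemma cTab321_f0 : cTab321 rc R p (-q) (-r) = -cTab321 rc R p q r := by
  simp only [cTab321]; ring
private lemma cTab321_f1 : cTab321 rc R (-p) q (-r) = cTab321 rc R p q r := by
  simp only [cTab321]; ring
private lemma cTab321_f2 : cTab321 rc R (-p) (-q) r = -cTab321 rc R p q r := by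
  simp only [cTab321]; ring
private lemma cTab321_c {f g h u : ℝ → ℝ} (hf : Continuous f) (hg : Continuous g)
    (hh : Continuous h) (hu : Continuous u) :
    Continuous fun t => cTab321 rc (f t) (g t) (h t) (u t) := by
  simp only [cTab321]; fun_prop

/-- The shared form is the symmetrised form. -/
lemma cFast_eq : cFast rc S a b c R p q r = cForm rc S a b c R p q r
    + (cForm rc S a c b R p r q + (cForm rc S b a c R q p r + (cForm rc S b c a R q r p
    + (cForm rc S c a b R r p q + cForm rc S c b a R r q p)))) := by
  simp only [cFast, cForm]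
  ring

lemma cFast_hom : cFast rc (m * S) (m * a) (m * b) (m * c) (n * R) (n * p) (n * q) (n * r)
      = (m * n) ^ 6 * cFast rc S a b c R p q r := by
  simp only [cFast_eq, cForm, cTab100_h, cTab200_h, cTab110_h, cTab300_h, cTab210_h, cTab400_h, cTab310_h, cTab220_h,
    cTab211_h, cTab500_h, cTab410_h, cTab320_h, cTab311_h, cTab221_h, cTab600_h,
    cTab510_h, cTab420_h, cTab411_h, cTab330_h, cTab321_h]
  ring

lemma cForm_f0 : cForm rc S a (-b) (-c) R p (-q) (-r) = cForm rc S a b c R p q r := by
  simp only [cForm, cTab100_f0, cTab200_f0, cTab110_f0, cTab300_f0, cTab210_f0, cTab400_f0, cTab310_f0,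
    cTab220_f0, cTab211_f0, cTab500_f0, cTab410_f0, cTab320_f0, cTab311_f0, cTab221_f0,
    cTab600_f0, cTab510_f0, cTab420_f0, cTab411_f0, cTab330_f0, cTab321_f0]
  ring

lemma cForm_f1 : cForm rc S (-a) b (-c) R (-p) q (-r) = cForm rc S a b c R p q r := by
  simp only [cForm, cTab100_f1, cTab200_f1, cTab110_f1, cTab300_f1, cTab210_f1, cTab400_f1, cTab310_f1,
    cTab220_f1, cTab211_f1, cTab500_f1, cTab410_f1, cTab320_f1, cTab311_f1, cTab221_f1,
    cTab600_f1, cTab510_f1, cTab420_f1, cTab411_f1, cTab330_f1, cTab321_f1]
  ring

lemma cForm_f2 : cForm rc S (-a) (-b) c R (-p) (-q) r = cForm rc S a b c R p q r := by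
  simp only [cForm, cTab100_f2, cTab200_f2, cTab110_f2, cTab300_f2, cTab210_f2, cTab400_f2, cTab310_f2,
    cTab220_f2, cTab211_f2, cTab500_f2, cTab410_f2, cTab320_f2, cTab311_f2, cTab221_f2,
    cTab600_f2, cTab510_f2, cTab420_f2, cTab411_f2, cTab330_f2, cTab321_f2]
  ring

lemma cForm_cont {e f g h i j u v : ℝ → ℝ} (he : Continuous e) (hf : Continuous f)
    (hg : Continuous g) (hh : Continuous h) (hi : Continuous i) (hj : Continuous j)
    (hu : Continuous u) (hv : Continuous v) :
    Continuous fun t => cForm rc (e t) (f t) (g t) (h t) (i t) (j t) (u t) (v t) := by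
  have cTab100e := cTab100_c hi hj hu hv
  have cTab200e := cTab200_c hi hj hu hv
  have cTab110e := cTab110_c hi hj hu hv
  have cTab300e := cTab300_c hi hj hu hv
  have cTab210e := cTab210_c hi hj hu hv
  have cTab400e := cTab400_c hi hj hu hv
  have cTab310e := cTab310_c hi hj hu hv
  have cTab220e := cTab220_c hi hj hu hv
  have cTab211e := cTab211_c hi hj hu hv
  have cTab500e := cTab500_c hi hj hu hv
  have cTab410e := cTab410_c hi hj hu hv
  have cTab320e := cTab320_c hi hj hu hv
  have cTab311e := cTab311_c hi hj hu hv
  have cTab221e := cTab221_c hi hj hu hv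
  have cTab600e := cTab600_c hi hj hu hv
  have cTab510e := cTab510_c hi hj hu hv
  have cTab420e := cTab420_c hi hj hu hv
  have cTab411e := cTab411_c hi hj hu hv
  have cTab330e := cTab330_c hi hj hu hv
  have cTab321e := cTab321_c hi hj hu hv
  simp only [cForm]
  fun_prop

end Vale.Agent.P154.Four
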