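import Vale.Agent.P154.Four.ClosPoly
import Vale.Agent.P154.Four.ClosTableFacts

/-!
From the coefficient test to nonnegativity of the closure certificate on a pair of cones, and
bisection of a cone along an edge.
-/

namespace Vale.Agent.P154.Four

open Vale.Agent.P154 (Ex rc)

/-- The certificate at two vectors. -/
def closV (x y : Fin 4 → ℝ) : ℝ :=
  closPoly rc (x 0) (x 1) (x 2) (x 3) (y 0) (y 1) (y 2) (y 3)

/-- The generators of a cone. -/
def gen (A : Cone4) : Fin 4 → Vec := ![A.1, A.2.1, A.2.2.1, A.2.2.2]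

/-- One coordinate of an integer vector. -/
def crd (g : Vec) : Fin 4 → ℤ := ![g.1, g.2.1, g.2.2.1, g.2.2.2]

/-- Membership in the cone spanned by four generators. -/
def InCone (A : Cone4) (x : Fin 4 → ℝ) : Prop :=
  ∃ c : Fin 4 → ℝ, (∀ j, 0 ≤ c j) ∧ ∀ i, x i = ∑ j, c j * (crd (gen A j) i : ℝ)

/-- Nonnegativity of the certificate on a pair of cones. -/
def NNClos (A B : Cone4) : Prop := ∀ x y, InCone A x → InCone B y → 0 ≤ closV x y

section hom

lemma invOf_hom (c S a b e : ℝ) :
    invOf rc (c * S) (c * a) (c * b) (c * e) = c ^ 5 * invOf rc S a b e := by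
  simp only [invOf, pInv]; ring

lemma cloOf_hom (c S a b e : ℝ) :
    cloOf rc (c * S) (c * a) (c * b) (c * e) = c ^ 5 * cloOf rc S a b e := by
  simp only [cloOf, pClo]; ring

end hom

lemma closPoly_hom (c d x0 x1 x2 x3 y0 y1 y2 y3 : ℝ) :
    closPoly rc (c * x0) (c * x1) (c * x2) (c * x3) (d * y0) (d * y1) (d * y2) (d * y3)
      = (c * d) ^ 10 * closPoly rc x0 x1 x2 x3 y0 y1 y2 y3 := by
  have e : ∀ x y : ℝ, c * x * (d * y) = c * d * (x * y) := fun x y => by ring
  have t : ∀ m a b c' d' : ℝ, pTot (m * a) (m * b) (m * c') (m * d') = m * pTot a b c' d' :=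
    fun m a b c' d' => by simp only [pTot]; ring
  have df : ∀ m a b c' d' : ℝ,
      pDif rc (m * a) (m * b) (m * c') (m * d') = m * pDif rc a b c' d' :=
    fun m a b c' d' => by simp only [pDif]; ring
  simp only [closPoly, closCore, e, t, df, invOf_hom, cloOf_hom, cFast_hom]
  ring

/-- The six packed or listed values as a valuation. -/
def sixVal (b c d f g h : ℝ) : ℕ → ℝ
  | 0 => f
  | 1 => g
  | 2 => h
  | 3 => b
  | 4 => c
  | 5 => d
  | _ + 6 => 0

lemma lin4_scale' (u a b c d : ℝ) (g : Vec) :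
    lin4 rc (u * a) (u * b) (u * c) (u * d) g = u * lin4 rc a b c d g := by
  simp only [lin4]; ring

set_option maxRecDepth 4000 in
set_option maxHeartbeats 2000000 in
lemma val_exClos (A B : Cone4) (b c d f g h : ℝ) :
    Ex.val (sixVal b c d f g h) (exClos A B)
      = closPair rc A B ((1 : ℤ) : ℝ) b c d ((1 : ℤ) : ℝ) f g h := rfl

/-- The two tests suffice for nonnegativity on the pair of cones. -/
theorem clos_of_test
    {bits D : ℕ} {A B : Cone4}
    (hg : Mask.sizeTest bits D (sizeClos A B) = true)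
    (hm : Mask.triTest bits D (packClos bits D A B) = true) :
    NNClos A B := by
  have base : ∀ b c d f g h : ℝ, 0 ≤ b → 0 ≤ c → 0 ≤ d → 0 ≤ f → 0 ≤ g → 0 ≤ h →
      0 ≤ closPair rc A B 1 b c d 1 f g h := by
    intro b c d f g h hb hc hd hf hg' hh
    have h0 : ∀ i, 0 ≤ sixVal b c d f g h i := fun
      | 0 => hf | 1 => hg' | 2 => hh | 3 => hb | 4 => hc | 5 => hd | _ + 6 => le_refl _
    have h1 : ∀ i, 3 + 3 ≤ i → sixVal b c d f g h i = 0 := fun
      | 0, i | 1, i | 2, i | 3, i | 4, i | 5, i => absurd i (by omega)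
      | _ + 6, _ => rfl
    have hv := Mask.sound_tri bits D _ (sizeClos A B) rfl _ (valTri_exClos bits D A B) hg hm _ h0 h1
    have e1 : ((1 : ℤ) : ℝ) = 1 := Int.cast_one
    rw [val_exClos, e1] at hv
    exact hv
  have pos : ∀ a b c d e f g h : ℝ, 0 < a → 0 ≤ b → 0 ≤ c → 0 ≤ d → 0 < e → 0 ≤ f → 0 ≤ g →
      0 ≤ h → 0 ≤ closPair rc A B a b c d e f g h := by
    intro a b c d e f g h ha hb hc hd he hf hg' hh
    have hs : ∀ u w a b c d e f g h : ℝ,
        closPair rc A B (u * a) (u * b) (u * c) (u * d) (w * e) (w * f) (w * g) (w * h)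
          = (u * w) ^ 10 * closPair rc A B a b c d e f g h := fun u w a b c d e f g h => by
      simp only [closPair, lin4_scale', closPoly_hom]
    have := hs a e 1 (b / a) (c / a) (d / a) 1 (f / e) (g / e) (h / e)
    rw [mul_one, mul_one, mul_div_cancel₀ b ha.ne', mul_div_cancel₀ c ha.ne',
      mul_div_cancel₀ d ha.ne', mul_div_cancel₀ f he.ne', mul_div_cancel₀ g he.ne',
      mul_div_cancel₀ h he.ne'] at this
    rw [this]
    exact mul_nonneg (pow_nonneg (mul_nonneg ha.le he.le) _)
      (base _ _ _ _ _ _ (by positivity) (by positivity) (by positivity) (by positivity)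
        (by positivity) (by positivity))
  intro x y ⟨u, hu, hx⟩ ⟨w, hw, hy⟩
  have ex : closPair rc A B (u 0) (u 1) (u 2) (u 3) (w 0) (w 1) (w 2) (w 3) = closV x y := by
    simp [closPair, closV, hx, hy, Fin.sum_univ_four, gen, crd, lin4, row0, row1, row2, row3]
    ring_nf
  rw [← ex]
  have hc' : Continuous fun t : ℝ =>
      closPair rc A B (u 0 + t) (u 1) (u 2) (u 3) (w 0 + t) (w 1) (w 2) (w 3) := by
    have base : ∀ g0 g1 g2 g3 g4 g5 g6 g7 : ℝ → ℝ, Continuous g0 → Continuous g1 → Continuous g2 →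
        Continuous g3 → Continuous g4 → Continuous g5 → Continuous g6 → Continuous g7 →
        Continuous fun t => cFast rc (g0 t) (g1 t) (g2 t) (g3 t) (g4 t) (g5 t) (g6 t) (g7 t) :=
      fun g0 g1 g2 g3 g4 g5 g6 g7 h0 h1 h2 h3 h4 h5 h6 h7 => by
        simp only [cFast_eq]
        exact (cForm_cont h0 h1 h2 h3 h4 h5 h6 h7).add ((cForm_cont h0 h1 h3 h2 h4 h5 h7 h6).add
          ((cForm_cont h0 h2 h1 h3 h4 h6 h5 h7).add ((cForm_cont h0 h2 h3 h1 h4 h6 h7 h5).add
          ((cForm_cont h0 h3 h1 h2 h4 h7 h5 h6).add (cForm_cont h0 h3 h2 h1 h4 h7 h6 h5)))))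
    simp only [closPair, closPoly, closCore, invOf, cloOf, pInv, pClo]
    refine Continuous.add (by simp only [lin4, pTot, pDif]; fun_prop)
      (Continuous.mul continuous_const (Continuous.mul (by simp only [lin4, pTot, pDif]; fun_prop)
        (Continuous.add (by simp only [lin4, pTot, pDif]; fun_prop) (base _ _ _ _ _ _ _ _ ?_ ?_ ?_
          ?_ ?_ ?_ ?_ ?_)))) <;> (simp only [lin4, pTot, pDif]; fun_prop)
  have hlim : Filter.Tendsto
      (fun t : ℝ => closPair rc A B (u 0 + t) (u 1) (u 2) (u 3) (w 0 + t) (w 1) (w 2) (w 3))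
      (nhdsWithin 0 (Set.Ioi 0))
      (nhds (closPair rc A B (u 0) (u 1) (u 2) (u 3) (w 0) (w 1) (w 2) (w 3))) := by
    have := (hc'.tendsto 0).mono_left (nhdsWithin_le_nhds (s := Set.Ioi (0 : ℝ)))
    simpa using this
  refine ge_of_tendsto hlim ?_
  filter_upwards [self_mem_nhdsWithin] with t ht
  have ht' : (0 : ℝ) < t := ht
  exact pos _ _ _ _ _ _ _ _ (by linarith [hu 0]) (hu 1) (hu 2) (hu 3) (by linarith [hw 0]) (hw 1)
    (hw 2) (hw 3)

/-- `A1` and `A2` arise from `A` by moving generator `s`, respectively `t`, to `(g s + g t) / d`. -/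
def splitOk (A A1 A2 : Cone4) (s t : Fin 4) (d : ℕ) : Bool :=
  decide (0 < d) && decide (s ≠ t) && (List.finRange 4).all fun i => (List.finRange 4).all fun j =>
    (if j = s then decide ((d : ℤ) * crd (gen A1 j) i = crd (gen A s) i + crd (gen A t) i)
      else decide (crd (gen A1 j) i = crd (gen A j) i)) &&
    (if j = t then decide ((d : ℤ) * crd (gen A2 j) i = crd (gen A s) i + crd (gen A t) i)
      else decide (crd (gen A2 j) i = crd (gen A j) i))

/-- A point of a cone lies in one of the halves. -/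
lemma InCone.split {A A1 A2 : Cone4} {s t : Fin 4} {d : ℕ} (h : splitOk A A1 A2 s t d = true)
    {x : Fin 4 → ℝ} (hx : InCone A x) : InCone A1 x ∨ InCone A2 x := by
  simp only [splitOk, Bool.and_eq_true, decide_eq_true_eq, List.all_eq_true] at h
  obtain ⟨⟨hd, hst⟩, h⟩ := h
  obtain ⟨c, hc, hx⟩ := hx
  have key : ∀ (B : Cone4) (s' t' : Fin 4), s' ≠ t' → c s' ≤ c t' →
      (∀ i j, if j = s' then (d : ℤ) * crd (gen B j) i = crd (gen A s) i + crd (gen A t) i
        else crd (gen B j) i = crd (gen A j) i) →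
      (∀ i, (crd (gen A s) i : ℝ) + crd (gen A t) i = crd (gen A s') i + crd (gen A t') i) →
      InCone B x := by
    intro B s' t' hne hle hB hsym
    refine ⟨Function.update (Function.update c t' (c t' - c s')) s' ((d : ℝ) * c s'), fun j => ?_,
      fun i => ?_⟩
    · by_cases h1 : j = s'
      · subst h1; rw [Function.update_self]; exact mul_nonneg (Nat.cast_nonneg d) (hc _)
      · by_cases h2 : j = t'
        · subst h2; rw [Function.update_of_ne h1, Function.update_self]; linarith
        · rw [Function.update_of_ne h1, Function.update_of_ne h2]; exact hc j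
    · rw [hx i]
      refine (sub_eq_zero.mp ?_).symm
      rw [← Finset.sum_sub_distrib, Finset.sum_eq_add (a := s') (b := t') hne]
      · have e1 := hB i s'
        rw [if_pos rfl] at e1
        have e1' : (d : ℝ) * crd (gen B s') i
            = (crd (gen A s) i : ℝ) + crd (gen A t) i := by exact_mod_cast e1
        rw [hsym i] at e1'
        have e2 := hB i t'
        rw [if_neg hne.symm] at e2
        rw [Function.update_self, Function.update_of_ne hne.symm, Function.update_self, e2]
        linear_combination c s' * e1'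
      · intro j _ hj
        have e2 := hB i j
        rw [if_neg hj.1] at e2
        rw [Function.update_of_ne hj.1, Function.update_of_ne hj.2, e2, sub_self]
      · exact fun h0 => absurd (Finset.mem_univ _) h0
      · exact fun h0 => absurd (Finset.mem_univ _) h0
  rcases le_total (c s) (c t) with hle | hle
  · refine Or.inl (key A1 s t hst hle (fun i j => ?_) fun i => rfl)
    have hij := (h i (List.mem_finRange i) j (List.mem_finRange j)).1
    split_ifs at hij ⊢ <;> exact of_decide_eq_true hij
  · refine Or.inr (key A2 t s hst.symm hle (fun i j => ?_) fun i => add_comm _ _)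
    have hij := (h i (List.mem_finRange i) j (List.mem_finRange j)).2
    split_ifs at hij ⊢ <;> exact of_decide_eq_true hij

/-- Splitting on the first side. -/
theorem NNClos.left {A A1 A2 B : Cone4} (s t : Fin 4) (d : ℕ) (h : splitOk A A1 A2 s t d = true)
    (h1 : NNClos A1 B) (h2 : NNClos A2 B) : NNClos A B := fun x y hx hy =>
  (InCone.split h hx).elim (fun q => h1 x y q hy) fun q => h2 x y q hy

/-- Splitting on the second side. -/
theorem NNClos.right {A B B1 B2 : Cone4} (s t : Fin 4) (d : ℕ) (h : splitOk B B1 B2 s t d = true)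
    (h1 : NNClos A B1) (h2 : NNClos A B2) : NNClos A B := fun x y hx hy =>
  (InCone.split h hy).elim (fun q => h1 x y hx q) fun q => h2 x y hx q

end Vale.Agent.P154.Four
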