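import Vale.Agent.P154.Four.ClosTableFacts

/-!
The correction averages to zero over the 24 relabellings of the second vector, which act on the
Fourier coordinates by permutations and even sign changes.
-/

namespace Vale.Agent.P154.Four

open Vale.Agent.P154 (rc)

/-- The sum over even sign changes. -/
def sum4 (G : ℝ → ℝ → ℝ → ℝ) (p q r : ℝ) : ℝ :=
  G p q r + G p (-q) (-r) + (G (-p) q (-r) + G (-p) (-q) r)

/-- The sum over permutations and even sign changes. -/
def sum24 (G : ℝ → ℝ → ℝ → ℝ) (p q r : ℝ) : ℝ :=
  sum4 G p q r + sum4 G p r q + sum4 G q p r + sum4 G q r p + sum4 G r p q + sum4 G r q p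

variable (R : ℝ)

private lemma cTab100_mean (p q r : ℝ) : sum24 (cTab100 rc R) p q r = 0 := by
  simp only [sum24, sum4, cTab100]; ring

private lemma cTab200_mean (p q r : ℝ) : sum24 (cTab200 rc R) p q r = 0 := by
  simp only [sum24, sum4, cTab200]; ring

private lemma cTab110_mean (p q r : ℝ) : sum24 (cTab110 rc R) p q r = 0 := by
  simp only [sum24, sum4, cTab110]; ring

private lemma cTab300_mean (p q r : ℝ) : sum24 (cTab300 rc R) p q r = 0 := by
  simp only [sum24, sum4, cTab300]; ring

private lemma cTab210_mean (p q r : ℝ) : sum24 (cTab210 rc R) p q r = 0 := by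
  simp only [sum24, sum4, cTab210]; ring

private lemma cTab400_mean (p q r : ℝ) : sum24 (cTab400 rc R) p q r = 0 := by
  simp only [sum24, sum4, cTab400]; ring

private lemma cTab310_mean (p q r : ℝ) : sum24 (cTab310 rc R) p q r = 0 := by
  simp only [sum24, sum4, cTab310]; ring

private lemma cTab220_mean (p q r : ℝ) : sum24 (cTab220 rc R) p q r = 0 := by
  simp only [sum24, sum4, cTab220]; ring

private lemma cTab211_mean (p q r : ℝ) : sum24 (cTab211 rc R) p q r = 0 := by
  simp only [sum24, sum4, cTab211]; ring

private lemma cTab500_mean (p q r : ℝ) : sum24 (cTab500 rc R) p q r = 0 := by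
  simp only [sum24, sum4, cTab500]; ring

private lemma cTab410_mean (p q r : ℝ) : sum24 (cTab410 rc R) p q r = 0 := by
  simp only [sum24, sum4, cTab410]; ring

private lemma cTab320_mean (p q r : ℝ) : sum24 (cTab320 rc R) p q r = 0 := by
  simp only [sum24, sum4, cTab320]; ring

private lemma cTab311_mean (p q r : ℝ) : sum24 (cTab311 rc R) p q r = 0 := by
  simp only [sum24, sum4, cTab311]; ring

private lemma cTab221_mean (p q r : ℝ) : sum24 (cTab221 rc R) p q r = 0 := by
  simp only [sum24, sum4, cTab221]; ring

private lemma cTab600_mean (p q r : ℝ) : sum24 (cTab600 rc R) p q r = 0 := by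
  simp only [sum24, sum4, cTab600]; ring

private lemma cTab510_mean (p q r : ℝ) : sum24 (cTab510 rc R) p q r = 0 := by
  simp only [sum24, sum4, cTab510]; ring

private lemma cTab420_mean (p q r : ℝ) : sum24 (cTab420 rc R) p q r = 0 := by
  simp only [sum24, sum4, cTab420]; ring

private lemma cTab411_mean (p q r : ℝ) : sum24 (cTab411 rc R) p q r = 0 := by
  simp only [sum24, sum4, cTab411]; ring

private lemma cTab330_mean (p q r : ℝ) : sum24 (cTab330 rc R) p q r = 0 := by
  simp only [sum24, sum4, cTab330]; ring

private lemma cTab321_mean (p q r : ℝ) : sum24 (cTab321 rc R) p q r = 0 := by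
  simp only [sum24, sum4, cTab321]; ring

lemma cForm_mean (S a b c p q r : ℝ) : sum24 (cForm rc S a b c R) p q r = 0 := by
  have h100 := cTab100_mean R p q r
  have h200 := cTab200_mean R p q r
  have h110 := cTab110_mean R p q r
  have h300 := cTab300_mean R p q r
  have h210 := cTab210_mean R p q r
  have h400 := cTab400_mean R p q r
  have h310 := cTab310_mean R p q r
  have h220 := cTab220_mean R p q r
  have h211 := cTab211_mean R p q r
  have h500 := cTab500_mean R p q r
  have h410 := cTab410_mean R p q r
  have h320 := cTab320_mean R p q r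
  have h311 := cTab311_mean R p q r
  have h221 := cTab221_mean R p q r
  have h600 := cTab600_mean R p q r
  have h510 := cTab510_mean R p q r
  have h420 := cTab420_mean R p q r
  have h411 := cTab411_mean R p q r
  have h330 := cTab330_mean R p q r
  have h321 := cTab321_mean R p q r
  simp only [sum24, sum4, cForm] at *
  linear_combination (S ^ 5 * a) * h100 + (S ^ 4 * a ^ 2) * h200 + (S ^ 4 * a * b) * h110 + (S ^ 3 * a ^ 3) *
    h300 + (S ^ 3 * a ^ 2 * b) * h210 + (S ^ 2 * a ^ 4) * h400 + (S ^ 2 * a ^ 3 * b) * h310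
    + (S ^ 2 * a ^ 2 * b ^ 2) * h220 + (S ^ 2 * a ^ 2 * b * c) * h211 + (S * a ^ 5) * h500 +
    (S * a ^ 4 * b) * h410 + (S * a ^ 3 * b ^ 2) * h320 + (S * a ^ 3 * b * c) * h311 + (S *
    a ^ 2 * b ^ 2 * c) * h221 + (a ^ 6) * h600 + (a ^ 5 * b) * h510 + (a ^ 4 * b ^ 2) * h420
    + (a ^ 4 * b * c) * h411 + (a ^ 3 * b ^ 3) * h330 + (a ^ 3 * b ^ 2 * c) * h321

/-- The correction has zero mean. -/
theorem cFast_mean (S a b c p q r : ℝ) : sum24 (cFast rc S a b c R) p q r = 0 := by
  have h1 := cForm_mean R S a b c p q r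
  have h2 := cForm_mean R S a c b p r q
  have h3 := cForm_mean R S b a c q p r
  have h4 := cForm_mean R S b c a q r p
  have h5 := cForm_mean R S c a b r p q
  have h6 := cForm_mean R S c b a r q p
  simp only [sum24, sum4, cFast_eq] at *
  linear_combination h1 + h2 + h3 + h4 + h5 + h6

end Vale.Agent.P154.Four
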