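import Vale.Agent.P154.Four.ClosCone

/-!
Symmetries of the closure certificate: simultaneous relabellings, and exchange of the two vectors.
-/

namespace Vale.Agent.P154.Four

open Vale.Agent.P154 (rc)

section core

variable (S a b c R p q r s e f g : ℝ)

private lemma fast_flip0 : cFast rc S a (-b) (-c) R p (-q) (-r) = cFast rc S a b c R p q r := by
  simp only [cFast_eq, cForm_f0, cForm_f1, cForm_f2]

private lemma fast_flip1 : cFast rc S (-a) b (-c) R (-p) q (-r) = cFast rc S a b c R p q r := by
  simp only [cFast_eq, cForm_f0, cForm_f1, cForm_f2]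

private lemma fast_axes23 : cFast rc S a c b R p r q = cFast rc S a b c R p q r := by
  simp only [cFast_eq]; ring

private lemma fast_cycle : cFast rc S b c a R q r p = cFast rc S a b c R p q r := by
  simp only [cFast_eq]; ring

private lemma core_flip0 :
    closCore rc S a (-b) (-c) R p (-q) (-r) s e (-f) (-g)
      = closCore rc S a b c R p q r s e f g := by
  simp only [closCore, fast_flip0, invOf, cloOf, pInv, pClo]; ring

private lemma core_flip1 :
    closCore rc S (-a) b (-c) R (-p) q (-r) s (-e) f (-g)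
      = closCore rc S a b c R p q r s e f g := by
  simp only [closCore, fast_flip1, invOf, cloOf, pInv, pClo]; ring

private lemma core_axes23 :
    closCore rc S a c b R p r q s e g f = closCore rc S a b c R p q r s e f g := by
  simp only [closCore, fast_axes23, invOf, cloOf, pInv, pClo]; ring

private lemma core_cycle :
    closCore rc S b c a R q r p s f g e = closCore rc S a b c R p q r s e f g := by
  simp only [closCore, fast_cycle, invOf, cloOf, pInv, pClo]; ring

end core

variable (x0 x1 x2 x3 y0 y1 y2 y3 : ℝ)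

lemma closPoly_k01 :
    closPoly rc x1 x0 x3 x2 y1 y0 y3 y2 = closPoly rc x0 x1 x2 x3 y0 y1 y2 y3 := by
  rw [closPoly, closPoly]
  refine Eq.trans ?_ (core_flip0 ..)
  congr 1 <;> (simp only [pTot, pDif]; ring)

lemma closPoly_k02 :
    closPoly rc x2 x3 x0 x1 y2 y3 y0 y1 = closPoly rc x0 x1 x2 x3 y0 y1 y2 y3 := by
  rw [closPoly, closPoly]
  refine Eq.trans ?_ (core_flip1 ..)
  congr 1 <;> (simp only [pTot, pDif]; ring)

lemma closPoly_axes23 :
    closPoly rc x0 x1 x3 x2 y0 y1 y3 y2 = closPoly rc x0 x1 x2 x3 y0 y1 y2 y3 := by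
  rw [closPoly, closPoly]
  refine Eq.trans ?_ (core_axes23 ..)
  congr 1 <;> (simp only [pTot, pDif]; ring)

lemma closPoly_cycle :
    closPoly rc x0 x2 x3 x1 y0 y2 y3 y1 = closPoly rc x0 x1 x2 x3 y0 y1 y2 y3 := by
  rw [closPoly, closPoly]
  refine Eq.trans ?_ (core_cycle ..)
  congr 1 <;> (simp only [pTot, pDif]; ring)

lemma fast_swap (S a b c R p q r : ℝ) :
    cFast rc R p q r S a b c = cFast rc S a b c R p q r := by
  simp only [cFast_eq, cForm, cTab100, cTab200, cTab110, cTab300, cTab210, cTab400, cTab310,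
    cTab220, cTab211, cTab500, cTab410, cTab320, cTab311, cTab221, cTab600, cTab510, cTab420,
    cTab411, cTab330, cTab321]
  ring

lemma closPoly_swap :
    closPoly rc y0 y1 y2 y3 x0 x1 x2 x3 = closPoly rc x0 x1 x2 x3 y0 y1 y2 y3 := by
  simp only [closPoly, closCore, fast_swap (pTot x0 x1 x2 x3), mul_comm y0 x0, mul_comm y1 x1,
    mul_comm y2 x2, mul_comm y3 x3]
  ring

end Vale.Agent.P154.Four
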