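import Vale.Agent.P154.Four.ClosTypes
import Vale.Agent.P154.Four.ClosSym
import Mathlib.Data.Fin.Tuple.Sort
import Mathlib.Data.Fintype.Perm

/-!
The closure certificate is nonnegative on the orthant: a simultaneous relabelling sorts the first
vector, and exchanging the vectors halves the remaining orderings.
-/

namespace Vale.Agent.P154.Four

open Equiv
open Vale.Agent.P154 (rc)

/-- The sorted cone. -/
abbrev coneS : Cone4 := ((1, 0, 0, 0), (1, 1, 0, 0), (1, 1, 1, 0), (1, 1, 1, 1))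

/-- The vectors with `v (σ 0) ≥ v (σ 1) ≥ v (σ 2) ≥ v (σ 3)`, by extreme rays. -/
def ordCone (σ : Perm (Fin 4)) : Cone4 :=
  let e : Fin 4 → Fin 4 → ℤ := fun j i => if σ.symm i ≤ j then 1 else 0
  ((e 0 0, e 0 1, e 0 2, e 0 3), (e 1 0, e 1 1, e 1 2, e 1 3), (e 2 0, e 2 1, e 2 2, e 2 3),
    (e 3 0, e 3 1, e 3 2, e 3 3))

/-- The orderings treated directly. -/
def ordTypes : List Cone4 :=
  [((1, 0, 0, 0), (1, 1, 0, 0), (1, 1, 1, 0), (1, 1, 1, 1)),
   ((1, 0, 0, 0), (1, 1, 0, 0), (1, 1, 0, 1), (1, 1, 1, 1)),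
   ((1, 0, 0, 0), (1, 0, 1, 0), (1, 1, 1, 0), (1, 1, 1, 1)),
   ((1, 0, 0, 0), (1, 0, 1, 0), (1, 0, 1, 1), (1, 1, 1, 1)),
   ((1, 0, 0, 0), (1, 0, 0, 1), (1, 0, 1, 1), (1, 1, 1, 1)),
   ((0, 1, 0, 0), (1, 1, 0, 0), (1, 1, 1, 0), (1, 1, 1, 1)),
   ((0, 1, 0, 0), (1, 1, 0, 0), (1, 1, 0, 1), (1, 1, 1, 1)),
   ((0, 1, 0, 0), (0, 1, 1, 0), (1, 1, 1, 0), (1, 1, 1, 1)),
   ((0, 1, 0, 0), (0, 1, 1, 0), (0, 1, 1, 1), (1, 1, 1, 1)),
   ((0, 1, 0, 0), (0, 1, 0, 1), (1, 1, 0, 1), (1, 1, 1, 1)),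
   ((0, 1, 0, 0), (0, 1, 0, 1), (0, 1, 1, 1), (1, 1, 1, 1)),
   ((0, 0, 1, 0), (0, 1, 1, 0), (1, 1, 1, 0), (1, 1, 1, 1)),
   ((0, 0, 1, 0), (0, 1, 1, 0), (0, 1, 1, 1), (1, 1, 1, 1)),
   ((0, 0, 1, 0), (0, 0, 1, 1), (1, 0, 1, 1), (1, 1, 1, 1)),
   ((0, 0, 1, 0), (0, 0, 1, 1), (0, 1, 1, 1), (1, 1, 1, 1)),
   ((0, 0, 0, 1), (0, 1, 0, 1), (0, 1, 1, 1), (1, 1, 1, 1)),
   ((0, 0, 0, 1), (0, 0, 1, 1), (0, 1, 1, 1), (1, 1, 1, 1))]

private lemma ordTypes_nn : ∀ C ∈ ordTypes, NNClos coneS C := by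
  intro C hC
  simp only [ordTypes, List.mem_cons, List.not_mem_nil, or_false] at hC
  rcases hC with rfl | rfl | rfl | rfl | rfl | rfl | rfl | rfl | rfl | rfl | rfl | rfl | rfl |
    rfl | rfl | rfl | rfl
  exacts [clos_ord0123, clos_ord0132, clos_ord0213, clos_ord0231, clos_ord0321, clos_ord1023,
    clos_ord1032, clos_ord1203, clos_ord1230, clos_ord1302, clos_ord1320, clos_ord2103,
    clos_ord2130, clos_ord2301, clos_ord2310, clos_ord3120, clos_ord3210]

set_option synthInstance.maxSize 2000 in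
private lemma ordTypes_cover : ∀ σ : Perm (Fin 4), ordCone σ ∈ ordTypes ∨ ordCone σ.symm ∈ ordTypes := by
  decide +kernel

/-- A vector lies in the cone of an ordering that sorts it. -/
lemma inCone_ordCone {v : Fin 4 → ℝ} (σ : Perm (Fin 4)) (hs : Antitone (v ∘ σ)) (h0 : ∀ i, 0 ≤ v i) :
    InCone (ordCone σ) v := by
  have h01 : v (σ 1) ≤ v (σ 0) := hs (show (0 : Fin 4) ≤ 1 by decide)
  have h12 : v (σ 2) ≤ v (σ 1) := hs (show (1 : Fin 4) ≤ 2 by decide)
  have h23 : v (σ 3) ≤ v (σ 2) := hs (show (2 : Fin 4) ≤ 3 by decide)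
  refine ⟨![v (σ 0) - v (σ 1), v (σ 1) - v (σ 2), v (σ 2) - v (σ 3), v (σ 3)], ?_, ?_⟩
  · intro j; fin_cases j <;> simp <;> linarith [h0 (σ 3)]
  · intro i
    have e : ∀ j, crd (gen (ordCone σ) j) i = if σ.symm i ≤ j then 1 else 0 := by
      intro j; fin_cases j <;> fin_cases i <;> rfl
    simp only [e, Fin.sum_univ_four]
    obtain ⟨m, rfl⟩ := σ.surjective i
    rw [Equiv.symm_apply_apply]
    fin_cases m <;> simp

lemma inCone_coneS {v : Fin 4 → ℝ} (hs : Antitone v) (h0 : ∀ i, 0 ≤ v i) : InCone coneS v := by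
  have h := inCone_ordCone (v := v) (Equiv.refl _) (by simpa using hs) h0
  exact h

private lemma closV_transp (i j : Fin 4) (x y : Fin 4 → ℝ) :
    closV (x ∘ swap i j) (y ∘ swap i j) = closV x y := by
  have h01 : ∀ a b c d e f g h : ℝ,
      closPoly rc b a c d f e g h = closPoly rc a b c d e f g h := fun a b c d e f g h => by
    rw [← closPoly_axes23, closPoly_k01]
  have h12 : ∀ a b c d e f g h : ℝ,
      closPoly rc a c b d e g f h = closPoly rc a b c d e f g h := fun a b c d e f g h => by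
    rw [← closPoly_cycle, closPoly_axes23]
  have h13 : ∀ a b c d e f g h : ℝ,
      closPoly rc a d c b e h g f = closPoly rc a b c d e f g h := fun a b c d e f g h => by
    rw [← closPoly_axes23, h12, closPoly_axes23]
  have h02 : ∀ a b c d e f g h : ℝ,
      closPoly rc c b a d g f e h = closPoly rc a b c d e f g h := fun a b c d e f g h => by
    rw [← h01, ← h12, ← h01]
  have h23 := closPoly_axes23
  have h03 : ∀ a b c d e f g h : ℝ,
      closPoly rc d b c a h f g e = closPoly rc a b c d e f g h := fun a b c d e f g h => by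
    rw [← h23, h02, h23]
  fin_cases i <;> fin_cases j <;> simp [closV, Function.comp, swap_apply_def] <;>
    first
      | exact h01 .. | exact h12 .. | exact h02 .. | exact h03 .. | exact h13 .. | exact h23 ..

/-- The certificate is invariant under simultaneous relabelling. -/
lemma closV_perm (σ : Perm (Fin 4)) : ∀ x y : Fin 4 → ℝ, closV (x ∘ σ) (y ∘ σ) = closV x y := by
  induction σ using Perm.swap_induction_on with
  | one => intro x y; simp
  | swap_mul f a b _ ih =>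
    intro x y
    rw [Perm.coe_mul, ← Function.comp_assoc, ← Function.comp_assoc, ih, closV_transp]

lemma closV_swap (x y : Fin 4 → ℝ) : closV y x = closV x y := closPoly_swap ..

/-- The certificate is nonnegative on the orthant. -/
theorem closV_nonneg (x y : Fin 4 → ℝ) (hx : ∀ i, 0 ≤ x i) (hy : ∀ i, 0 ≤ y i) : 0 ≤ closV x y := by
  set α := Tuple.sort fun i => -x i with hα
  rw [← closV_perm α x y]
  have ax : Antitone (x ∘ α) := fun i j hij => by
    have := Tuple.monotone_sort (fun i => -x i) hij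
    simpa [hα] using this
  have nx : ∀ i, 0 ≤ (x ∘ α) i := fun i => hx _
  have ny : ∀ i, 0 ≤ (y ∘ α) i := fun i => hy _
  generalize x ∘ α = u at *
  generalize y ∘ α = w at *
  set τ := Tuple.sort fun i => -w i with hτ
  have aw : Antitone (w ∘ τ) := fun i j hij => by
    have := Tuple.monotone_sort (fun i => -w i) hij
    simpa [hτ] using this
  rcases ordTypes_cover τ with h | h
  · exact ordTypes_nn _ h u w (inCone_coneS ax nx) (inCone_ordCone τ aw ny)
  · rw [← closV_swap, ← closV_perm τ]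
    refine ordTypes_nn _ h _ _ (inCone_coneS aw fun i => ny _) (inCone_ordCone τ.symm ?_ fun i => nx _)
    have e : (u ∘ τ) ∘ τ.symm = u := by funext i; simp
    rw [e]; exact ax

end Vale.Agent.P154.Four
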