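import Vale.Agent.P154.Four.Instance
import Mathlib.Analysis.SpecificLimits.Basic

/-!
Relabellings grouped by cosets of the Klein group, and passage from positive to nonnegative
vectors.
-/

namespace Vale.Agent.P154.Four

open Filter Topology

/-- The sum of a moment over one coset: the products of `v` with the four Klein moves of
`(a, b, c, d)`. -/
noncomputable def cosetSum (g : (Fin 4 → ℝ) → ℝ) (v : Fin 4 → ℝ) (a b c d : ℝ) : ℝ :=
  g ![v 0 * a, v 1 * b, v 2 * c, v 3 * d] + g ![v 0 * b, v 1 * a, v 2 * d, v 3 * c]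
    + (g ![v 0 * c, v 1 * d, v 2 * a, v 3 * b] + g ![v 0 * d, v 1 * c, v 2 * b, v 3 * a])

/-- The 24 relabellings, grouped by cosets. -/
private def images : List (Fin 4 × Fin 4 × Fin 4 × Fin 4) :=
  [(0,1,2,3), (1,0,3,2), (2,3,0,1), (3,2,1,0), (0,1,3,2), (1,0,2,3), (3,2,0,1), (2,3,1,0),
   (0,2,1,3), (2,0,3,1), (1,3,0,2), (3,1,2,0), (0,2,3,1), (2,0,1,3), (3,1,0,2), (1,3,2,0),
   (0,3,1,2), (3,0,2,1), (1,2,0,3), (2,1,3,0), (0,3,2,1), (3,0,1,2), (2,1,0,3), (1,2,3,0)]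

/-- The relabellings fall into six cosets. -/
theorem relabels_eq_cosets (g : (Fin 4 → ℝ) → ℝ) (v w : Fin 4 → ℝ) :
    relabels g v w = cosetSum g v (w 0) (w 1) (w 2) (w 3) + cosetSum g v (w 0) (w 1) (w 3) (w 2)
      + cosetSum g v (w 0) (w 2) (w 1) (w 3) + cosetSum g v (w 0) (w 2) (w 3) (w 1)
      + cosetSum g v (w 0) (w 3) (w 1) (w 2) + cosetSum g v (w 0) (w 3) (w 2) (w 1) := by
  set G : Fin 4 × Fin 4 × Fin 4 × Fin 4 → ℝ := fun t =>
    g ![v 0 * w t.1, v 1 * w t.2.1, v 2 * w t.2.2.1, v 3 * w t.2.2.2] with hG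
  set f : Equiv.Perm (Fin 4) → Fin 4 × Fin 4 × Fin 4 × Fin 4 := fun π => (π 0, π 1, π 2, π 3)
    with hf
  have h1 : relabels g v w = ∑ π : Equiv.Perm (Fin 4), G (f π) := by
    refine Finset.sum_congr rfl fun π _ => congrArg g ?_
    funext i; fin_cases i <;> rfl
  have h2 : ∑ π : Equiv.Perm (Fin 4), G (f π) = (images.map G).sum := by
    have himg : Finset.univ.image f = images.toFinset := by rw [hf]; decide
    have hinj : Set.InjOn f ↑(Finset.univ : Finset (Equiv.Perm (Fin 4))) := by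
      intro a _ b _ h
      simp only [hf, Prod.mk.injEq] at h
      refine Equiv.ext fun i => ?_
      fin_cases i
      exacts [h.1, h.2.1, h.2.2.1, h.2.2.2]
    rw [← Finset.sum_image (f := G) hinj, himg, List.sum_toFinset G (by decide)]
  rw [h1, h2]
  simp only [images, List.map_cons, List.map_nil, List.sum_cons, List.sum_nil, hG, cosetSum]
  ring

/-- Moments do not depend on the coset representative. -/
lemma moments_perms4 (a b c d : ℝ) :
    (tot ![a, b, d, c] = tot ![a, b, c, d] ∧ sq ![a, b, d, c] = sq ![a, b, c, d] ∧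
      cub ![a, b, d, c] = cub ![a, b, c, d] ∧ quart ![a, b, d, c] = quart ![a, b, c, d]) ∧
    (tot ![a, c, b, d] = tot ![a, b, c, d] ∧ sq ![a, c, b, d] = sq ![a, b, c, d] ∧
      cub ![a, c, b, d] = cub ![a, b, c, d] ∧ quart ![a, c, b, d] = quart ![a, b, c, d]) ∧
    (tot ![a, c, d, b] = tot ![a, b, c, d] ∧ sq ![a, c, d, b] = sq ![a, b, c, d] ∧
      cub ![a, c, d, b] = cub ![a, b, c, d] ∧ quart ![a, c, d, b] = quart ![a, b, c, d]) ∧
    (tot ![a, d, b, c] = tot ![a, b, c, d] ∧ sq ![a, d, b, c] = sq ![a, b, c, d] ∧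
      cub ![a, d, b, c] = cub ![a, b, c, d] ∧ quart ![a, d, b, c] = quart ![a, b, c, d]) ∧
    (tot ![a, d, c, b] = tot ![a, b, c, d] ∧ sq ![a, d, c, b] = sq ![a, b, c, d] ∧
      cub ![a, d, c, b] = cub ![a, b, c, d] ∧ quart ![a, d, c, b] = quart ![a, b, c, d]) := by
  refine ⟨⟨?_, ?_, ?_, ?_⟩, ⟨?_, ?_, ?_, ?_⟩, ⟨?_, ?_, ?_, ?_⟩, ⟨?_, ?_, ?_, ?_⟩,
    ⟨?_, ?_, ?_, ?_⟩⟩ <;>
    (simp [tot, sq, cub, quart, u1, u2, u3]; ring)

/-- Fourier coordinates of the coset representatives. -/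
lemma fourier_perms (a b c d : ℝ) :
    (u1 ![a, b, d, c] = u1 ![a, b, c, d] ∧ u2 ![a, b, d, c] = u3 ![a, b, c, d] ∧
      u3 ![a, b, d, c] = u2 ![a, b, c, d]) ∧
    (u1 ![a, c, b, d] = u2 ![a, b, c, d] ∧ u2 ![a, c, b, d] = u1 ![a, b, c, d] ∧
      u3 ![a, c, b, d] = u3 ![a, b, c, d]) ∧
    (u1 ![a, c, d, b] = u2 ![a, b, c, d] ∧ u2 ![a, c, d, b] = u3 ![a, b, c, d] ∧
      u3 ![a, c, d, b] = u1 ![a, b, c, d]) ∧
    (u1 ![a, d, b, c] = u3 ![a, b, c, d] ∧ u2 ![a, d, b, c] = u1 ![a, b, c, d] ∧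
      u3 ![a, d, b, c] = u2 ![a, b, c, d]) ∧
    (u1 ![a, d, c, b] = u3 ![a, b, c, d] ∧ u2 ![a, d, c, b] = u2 ![a, b, c, d] ∧
      u3 ![a, d, c, b] = u1 ![a, b, c, d]) := by
  refine ⟨⟨?_, ?_, ?_⟩, ⟨?_, ?_, ?_⟩, ⟨?_, ?_, ?_⟩, ⟨?_, ?_, ?_⟩, ⟨?_, ?_, ?_⟩⟩ <;>
    (simp [u1, u2, u3]; ring)

/-- A moment dominated by the total and continuous off the origin converges along `v + t`. -/
lemma tendsto_dom {g : (Fin 4 → ℝ) → ℝ} {C : ℝ} (hg : Dom g C)
    (hc : ∀ f : ℝ → Fin 4 → ℝ, Continuous f → tot (f 0) ≠ 0 →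
      ContinuousAt (fun t => g (f t)) 0)
    (f : ℝ → Fin 4 → ℝ) (hf : Continuous f) (h0 : ∀ t, 0 ≤ t → ∀ i, 0 ≤ f t i) :
    Tendsto (fun t => g (f t)) (𝓝[>] (0 : ℝ)) (𝓝 (g (f 0))) := by
  by_cases h : tot (f 0) = 0
  · have hz : g (f 0) = 0 := by
      have := hg (f 0) (h0 0 le_rfl)
      rw [h, mul_zero] at this
      exact abs_eq_zero.mp (le_antisymm this (abs_nonneg _))
    rw [hz]
    have hlim : Tendsto (fun t => C * tot (f t)) (𝓝[>] (0 : ℝ)) (𝓝 0) := by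
      have hcont : Continuous fun t => C * tot (f t) := by simp only [tot]; fun_prop
      have := (hcont.tendsto 0).mono_left (nhdsWithin_le_nhds (s := Set.Ioi (0 : ℝ)))
      simpa [h] using this
    refine squeeze_zero_norm' ?_ hlim
    filter_upwards [self_mem_nhdsWithin] with t ht
    exact hg _ (h0 t (le_of_lt ht))
  · exact (hc f hf h).tendsto.mono_left nhdsWithin_le_nhds

section moments

variable (f : ℝ → Fin 4 → ℝ) (hf : Continuous f) (h0 : ∀ t, 0 ≤ t → ∀ i, 0 ≤ f t i)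
include hf h0

lemma tendsto_mS : Tendsto (fun t => mS (f t)) (𝓝[>] (0 : ℝ)) (𝓝 (mS (f 0))) :=
  tendsto_dom dom_mS (fun f hf _ => (show Continuous fun t => mS (f t) by
    simp only [mS, tot]; fun_prop).continuousAt) f hf h0

lemma tendsto_mA : Tendsto (fun t => mA (f t)) (𝓝[>] (0 : ℝ)) (𝓝 (mA (f 0))) :=
  tendsto_dom dom_mA (fun f hf h => by
    refine ContinuousAt.div ?_ ?_ (mul_ne_zero (by norm_num) h) <;>
      (simp only [sq, tot, u1, u2, u3]; fun_prop)) f hf h0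

lemma tendsto_mB : Tendsto (fun t => mB (f t)) (𝓝[>] (0 : ℝ)) (𝓝 (mB (f 0))) :=
  tendsto_dom dom_mB (fun f hf h => by
    refine ContinuousAt.div ?_ ?_ (mul_ne_zero (by norm_num) (pow_ne_zero 3 h)) <;>
      (simp only [sq, tot, u1, u2, u3]; fun_prop)) f hf h0

lemma tendsto_mF : Tendsto (fun t => mF (f t)) (𝓝[>] (0 : ℝ)) (𝓝 (mF (f 0))) :=
  tendsto_dom dom_mF (fun f hf h => by
    refine ContinuousAt.div ?_ ?_ (mul_ne_zero (by norm_num) (pow_ne_zero 4 h)) <;>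
      (simp only [invNum, sq, cub, quart, tot, u1, u2, u3]; fun_prop)) f hf h0

lemma tendsto_mP : Tendsto (fun t => mP (f t)) (𝓝[>] (0 : ℝ)) (𝓝 (mP (f 0))) :=
  tendsto_dom dom_mP (fun f hf h => by
    refine ContinuousAt.div ?_ ?_ (mul_ne_zero (by norm_num) (pow_ne_zero 4 h)) <;>
      (simp only [cloNum, sq, cub, quart, tot, u1, u2, u3]; fun_prop)) f hf h0

lemma tendsto_mW : Tendsto (fun t => mW (f t)) (𝓝[>] (0 : ℝ)) (𝓝 (mW (f 0))) :=
  tendsto_dom dom_mW (fun f hf h => by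
    refine ContinuousAt.div ?_ ?_ (mul_ne_zero (by norm_num) (pow_ne_zero 4 h)) <;>
      (simp only [infNum, sq, cub, quart, tot, u1, u2, u3]; fun_prop)) f hf h0

end moments

/-- The relabelling sum converges along `(v + t, w + t)`. -/
lemma tendsto_relabels {g : (Fin 4 → ℝ) → ℝ}
    (hg : ∀ (f : ℝ → Fin 4 → ℝ), Continuous f → (∀ t, 0 ≤ t → ∀ i, 0 ≤ f t i) →
      Tendsto (fun t => g (f t)) (𝓝[>] (0 : ℝ)) (𝓝 (g (f 0))))
    {v w : Fin 4 → ℝ} (hv : ∀ i, 0 ≤ v i) (hw : ∀ i, 0 ≤ w i) :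
    Tendsto (fun t : ℝ => relabels g (fun i => v i + t) (fun i => w i + t)) (𝓝[>] (0 : ℝ))
      (𝓝 (relabels g v w)) := by
  refine tendsto_finsetSum _ fun π _ => ?_
  have := hg (fun t i => (v i + t) * (w (π i) + t)) (by fun_prop)
    (fun t ht i => mul_nonneg (add_nonneg (hv i) ht) (add_nonneg (hw _) ht))
  simpa using this

end Vale.Agent.P154.Four
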