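import Vale.Agent.P154.Four.ClosOrthant
import Vale.Agent.P154.Four.ClosMean
import Vale.Agent.P154.Four.Relabel

/-!
The closure inequality for nonnegative four-state vectors.
-/

namespace Vale.Agent.P154.Four

open Vale.Agent.P154 (rc)
open Filter Topology

/-- The lower bound for one relabelling. -/
private noncomputable def low (v y : Fin 4 → ℝ) : ℝ :=
  (mF v * mP y + mP v * mF y) / 4
    + cFast rc (tot v) (u1 v) (u2 v) (u3 v) (tot y) (u1 y) (u2 y) (u3 y)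
      / (4608000 * (tot v * tot y) ^ 5)

private lemma core_bound {S R s I C J E T K : ℝ} (hS : 0 < S) (hR : 0 < R) (hs : 0 < s)
    (h : 0 ≤ 30720 * ((T * (S * S * (S * S) * S)) * (R * R * (R * R) * R))
      + -1 * ((s * s * (s * s)) * (256 * ((I * S) * (E * R) + (C * S) * (J * R)) + K))) :
    (I / (150 * S ^ 4) * (E / (30 * R ^ 4)) + C / (30 * S ^ 4) * (J / (150 * R ^ 4))) / 4
        + K / (4608000 * (S * R) ^ 5)
      ≤ T / (150 * s ^ 4) := by
  rw [← sub_nonneg]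
  refine le_of_le_of_eq
    (div_nonneg h (show 0 ≤ 4608000 * (S * R) ^ 5 * s ^ 4 by positivity)) ?_
  field_simp
  ring

private theorem one_term {v y : Fin 4 → ℝ} (hv : ∀ i, 0 < v i) (hy : ∀ i, 0 < y i) :
    low v y ≤ mF fun i => v i * y i := by
  have h := closV_nonneg v y (fun i => (hv i).le) (fun i => (hy i).le)
  have h0 := hv 0; have h1 := hv 1; have h2 := hv 2; have h3 := hv 3
  have g0 := hy 0; have g1 := hy 1; have g2 := hy 2; have g3 := hy 3
  have eS : ∀ z : Fin 4 → ℝ, pTot (z 0) (z 1) (z 2) (z 3) = tot z := fun z => by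
    simp only [pTot, tot]; ring
  have x1 : ∀ z : Fin 4 → ℝ, pDif rc (z 0) (z 1) (z 2) (z 3) = u1 z := fun z => by
    simp [pDif, u1]; ring
  have x2 : ∀ z : Fin 4 → ℝ, pDif rc (z 0) (z 2) (z 1) (z 3) = u2 z := fun z => by
    simp [pDif, u2]; ring
  have x3 : ∀ z : Fin 4 → ℝ, pDif rc (z 0) (z 3) (z 1) (z 2) = u3 z := fun z => by
    simp [pDif, u3]; ring
  have i1 : ∀ z : Fin 4 → ℝ, invOf rc (tot z) (u1 z) (u2 z) (u3 z) = invNum z := fun z => by
    simp only [invOf, pInv, invNum, sq, cub, quart, rc]; push_cast; ring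
  have i2 : ∀ z : Fin 4 → ℝ, cloOf rc (tot z) (u1 z) (u2 z) (u3 z) = cloNum z := fun z => by
    simp only [cloOf, pClo, cloNum, sq, cub, quart, rc]; push_cast; ring
  set r : Fin 4 → ℝ := fun i => v i * y i with hr
  have eh : closV v y = closCore rc (tot v) (u1 v) (u2 v) (u3 v) (tot y) (u1 y) (u2 y) (u3 y)
      (tot r) (u1 r) (u2 r) (u3 r) := by
    rw [← eS v, ← eS y, ← eS r, ← x1 v, ← x1 y, ← x1 r, ← x2 v, ← x2 y, ← x2 r, ← x3 v, ← x3 y,
      ← x3 r]
    rfl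
  rw [eh] at h
  simp only [closCore, i1, i2, rc, Int.cast_ofNat, Int.cast_neg, Int.cast_one] at h
  exact core_bound (by simp only [tot]; positivity) (by simp only [tot]; positivity)
    (by simp only [tot, hr]; positivity) h

private lemma low_klein (v : Fin 4 → ℝ) (a b c d : ℝ) :
    low v ![a, b, c, d] + low v ![b, a, d, c] + (low v ![c, d, a, b] + low v ![d, c, b, a])
      = mF v * mP ![a, b, c, d] + mP v * mF ![a, b, c, d]
        + sum4 (cFast rc (tot v) (u1 v) (u2 v) (u3 v) (tot ![a, b, c, d])) (u1 ![a, b, c, d])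
            (u2 ![a, b, c, d]) (u3 ![a, b, c, d]) / (4608000 * (tot v * tot ![a, b, c, d]) ^ 5) := by
  have t1 : tot ![b, a, d, c] = tot ![a, b, c, d] := by simp [tot]; ring
  have t2 : tot ![c, d, a, b] = tot ![a, b, c, d] := by simp [tot]; ring
  have t3 : tot ![d, c, b, a] = tot ![a, b, c, d] := by simp [tot]; ring
  have a1 : u1 ![b, a, d, c] = u1 ![a, b, c, d] := by simp [u1]; ring
  have b1 : u2 ![b, a, d, c] = -u2 ![a, b, c, d] := by simp [u2]; ring
  have c1 : u3 ![b, a, d, c] = -u3 ![a, b, c, d] := by simp [u3]; ring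
  have a2 : u1 ![c, d, a, b] = -u1 ![a, b, c, d] := by simp [u1]; ring
  have b2 : u2 ![c, d, a, b] = u2 ![a, b, c, d] := by simp [u2]; ring
  have c2 : u3 ![c, d, a, b] = -u3 ![a, b, c, d] := by simp [u3]; ring
  have a3 : u1 ![d, c, b, a] = -u1 ![a, b, c, d] := by simp [u1]; ring
  have b3 : u2 ![d, c, b, a] = -u2 ![a, b, c, d] := by simp [u2]; ring
  have c3 : u3 ![d, c, b, a] = u3 ![a, b, c, d] := by simp [u3]; ring
  simp only [low, mF, mP, invNum, cloNum, sq, cub, quart, sum4, t1, t2, t3, a1, b1, c1, a2, b2, c2,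
    a3, b3, c3, add_div]
  ring

/-- The inequality for positive vectors. -/
private theorem clos_pos {v w : Fin 4 → ℝ} (hv : ∀ i, 0 < v i) (hw : ∀ i, 0 < w i) :
    6 * (mF v * mP w + mP v * mF w) ≤ relabels mF v w := by
  have step : relabels (low v) (fun _ => 1) w ≤ relabels mF v w := by
    refine Finset.sum_le_sum fun π _ => ?_
    simp only [one_mul]
    exact one_term hv fun i => hw _
  refine le_trans (le_of_eq ?_) step
  rw [relabels_eq_cosets]
  simp only [cosetSum, one_mul, low_klein]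
  set a := w 0
  set b := w 1
  set c := w 2
  set d := w 3
  have e : (![a, b, c, d] : Fin 4 → ℝ) = w := by funext i; fin_cases i <;> rfl
  have m : ∀ z, (tot z = tot w ∧ sq z = sq w ∧ cub z = cub w ∧ quart z = quart w) →
      mF z = mF w ∧ mP z = mP w := fun z ⟨t, p, q, r⟩ => by
    simp only [mF, mP, invNum, cloNum, t, p, q, r, and_self]
  obtain ⟨⟨t1, p1, z1, q1⟩, ⟨t2, p2, z2, q2⟩, ⟨t3, p3, z3, q3⟩, ⟨t4, p4, z4, q4⟩,
    ⟨t5, p5, z5, q5⟩⟩ := moments_perms4 a b c d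
  rw [e] at t1 t2 t3 t4 t5 p1 p2 p3 p4 p5 z1 z2 z3 z4 z5 q1 q2 q3 q4 q5
  obtain ⟨⟨a1, b1, c1⟩, ⟨a2, b2, c2⟩, ⟨a3, b3, c3⟩, ⟨a4, b4, c4⟩, ⟨a5, b5, c5⟩⟩ :=
    fourier_perms a b c d
  rw [e] at a1 a2 a3 a4 a5 b1 b2 b3 b4 b5 c1 c2 c3 c4 c5
  rw [e, (m _ ⟨t1, p1, z1, q1⟩).1, (m _ ⟨t1, p1, z1, q1⟩).2, (m _ ⟨t2, p2, z2, q2⟩).1,
    (m _ ⟨t2, p2, z2, q2⟩).2, (m _ ⟨t3, p3, z3, q3⟩).1, (m _ ⟨t3, p3, z3, q3⟩).2,
    (m _ ⟨t4, p4, z4, q4⟩).1, (m _ ⟨t4, p4, z4, q4⟩).2, (m _ ⟨t5, p5, z5, q5⟩).1,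
    (m _ ⟨t5, p5, z5, q5⟩).2]
  simp only [t1, t2, t3, t4, t5, a1, a2, a3, a4, a5, b1, b2, b3, b4, b5, c1, c2, c3, c4, c5]
  have hz := cFast_mean (tot w) (tot v) (u1 v) (u2 v) (u3 v) (u1 w) (u2 w) (u3 w)
  simp only [sum24] at hz
  linear_combination (-(4608000 * (tot v * tot w) ^ 5)⁻¹) * hz

/-- The closure inequality. -/
theorem closPoint : ClosPoint := by
  intro v w hv hw
  have nv : ∀ t : ℝ, 0 ≤ t → ∀ i, 0 ≤ v i + t := fun t ht i => add_nonneg (hv i) ht
  have nw : ∀ t : ℝ, 0 ≤ t → ∀ i, 0 ≤ w i + t := fun t ht i => add_nonneg (hw i) ht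
  set fv : ℝ → Fin 4 → ℝ := fun t i => v i + t with hfv
  set fw : ℝ → Fin 4 → ℝ := fun t i => w i + t with hfw
  have cv : Continuous fv := by rw [hfv]; fun_prop
  have cw : Continuous fw := by rw [hfw]; fun_prop
  have key := le_of_tendsto_of_tendsto
    ((((tendsto_mF fv cv nv).mul (tendsto_mP fw cw nw)).add
      ((tendsto_mP fv cv nv).mul (tendsto_mF fw cw nw))).const_mul 6)
    (tendsto_relabels tendsto_mF hv hw) (by
      filter_upwards [self_mem_nhdsWithin] with t ht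
      have ht' : (0 : ℝ) < t := ht
      exact clos_pos (fun i => add_pos_of_nonneg_of_pos (hv i) ht')
        (fun i => add_pos_of_nonneg_of_pos (hw i) ht'))
  simpa [hfv, hfw] using key

end Vale.Agent.P154.Four
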