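import Vale.Agent.P154.Four.InfoPoly

/-!
The correction in the bound for a single relabelling: for each exponent of the first vector, a
form of degree six in the total and the Fourier coordinates of the second.
-/

namespace Vale.Agent.P154.Four

variable {α : Type} [Add α] [Mul α] (k : ℤ → α)

/-- The coefficient of exponent `(1, 0, 0)`. -/
def cTab100 (R a b c : α) : α :=
  let R2 := R * R
  let R3 := R2 * R
  let R4 := R3 * R
  ((((((((k 195840 * R))) * a + (((((k (-322560)) * c)) * b))) * a + (((((k 587520 * R)) * b) * b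
    + ((((k 587520 * R) * c) * c + (k (-261120) * R3)))))) * a + (((((((k (-322560)) * c)) * b) *
    b + (((((k (-322560)) * c) * c + (k (-1585920) * R2)) * c))) * b))) * a + (((((((k 276480 *
    R)) * b) * b + ((((k 990720 * R) * c) * c + (k 238080 * R3)))) * b) * b + ((((((k 276480 * R)
    * c) * c + (k 238080 * R3)) * c) * c))))) * a + (((((((k (-518400) * R2) * c)) * b) * b +
    (((((k (-518400) * R2) * c) * c + (k 576000 * R4)) * c))) * b)))

/-- The coefficient of exponent `(2, 0, 0)`. -/
def cTab200 (R a b c : α) : α :=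
  let R2 := R * R
  let R3 := R2 * R
  let R4 := R3 * R
  (((((((((k (-402144)))) * a) * a + (((((k 294216)) * b) * b + ((((k 294216) * c) * c + (k 725232
    * R2)))))) * a + (((((k (-516288) * R) * c)) * b))) * a + (((((((k (-536088))) * b) * b + ((k
    300864 * R2))) * b) * b + ((((((k (-536088)) * c) * c + (k 300864 * R2)) * c) * c + (k
    (-589248) * R4)))))) * a + (((((((k 258144 * R) * c)) * b) * b + (((((k 258144 * R) * c) * c)
    * c))) * b))) * a + (((((((((k 201072)) * b) * b + ((((k 241872) * c) * c + (k (-362616) *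
    R2)))) * b) * b + ((((((k 241872) * c) * c + (k (-601728) * R2)) * c) * c + (k 294624 * R4))))
    * b) * b + ((((((((k 201072) * c) * c + (k (-362616) * R2)) * c) * c + (k 294624 * R4)) * c) *
    c)))))

/-- The coefficient of exponent `(1, 1, 0)`. -/
def cTab110 (R a b c : α) : α :=
  let R2 := R * R
  let R3 := R2 * R
  let R4 := R3 * R
  let R5 := R4 * R
  (((((((((k (-1011024))) * b)) * a + ((((k 1001664 * R) * c)))) * a + ((((((k (-115488))) * b) *
    b + ((((k (-234864)) * c) * c + (k 972288 * R2)))) * b))) * a + ((((((k 852912 * R) * c)) * b)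
    * b + (((((k 648216 * R) * c) * c + (k (-1727568) * R3)) * c))))) * a + ((((((((k (-1011024)))
    * b) * b + ((((k (-234864)) * c) * c + (k 972288 * R2)))) * b) * b + ((((((k (-1026720)) * c)
    * c + (k 105408 * R2)) * c) * c + (k 126432 * R4)))) * b))) * a + ((((((((k 1001664 * R) * c))
    * b) * b + (((((k 648216 * R) * c) * c + (k (-1727568) * R3)) * c))) * b) * b + (((((((k
    219456 * R) * c) * c + (k (-176688) * R3)) * c) * c + (k 576000 * R5)) * c)))))

/-- The coefficient of exponent `(3, 0, 0)`. -/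
def cTab300 (R a b c : α) : α :=
  let R2 := R * R
  let R3 := R2 * R
  let R4 := R3 * R
  let R5 := R4 * R
  ((((((((k (-342000) * R))) * a + (((((k 747072) * c)) * b))) * a + (((((k (-2047176) * R)) * b)
    * b + ((((k (-2047176) * R) * c) * c + (k 906336 * R3)))))) * a + (((((((k 727416) * c)) * b)
    * b + (((((k 727416) * c) * c + (k 2599200 * R2)) * c))) * b))) * a + (((((((k 295128 * R)) *
    b) * b + ((((k (-821952) * R) * c) * c + (k (-228456) * R3)))) * b) * b + ((((((k 295128 * R)
    * c) * c + (k (-228456) * R3)) * c) * c + (k (-261120) * R5)))))) * a + (((((((((k (-600192))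
    * c)) * b) * b + (((((k 524160) * c) * c + (k 293328 * R2)) * c))) * b) * b + (((((((k
    (-600192)) * c) * c + (k 293328 * R2)) * c) * c + (k (-176688) * R4)) * c))) * b)))

/-- The coefficient of exponent `(2, 1, 0)`. -/
def cTab210 (R a b c : α) : α :=
  let R2 := R * R
  let R3 := R2 * R
  let R4 := R3 * R
  let R5 := R4 * R
  (((((((((k 2300688) * c))) * a + ((((k (-9141552) * R)) * b))) * a + ((((((k 9594720) * c)) * b)
    * b + (((((k (-3250800)) * c) * c + (k 5707008 * R2)) * c))))) * a + ((((((k (-7677360) * R))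
    * b) * b + ((((k (-5448528) * R) * c) * c + (k 4478688 * R3)))) * b))) * a + ((((((((k
    1077984) * c)) * b) * b + (((((k (-5782176)) * c) * c + (k 8046000 * R2)) * c))) * b) * b +
    (((((((k 1966032) * c) * c + (k 579168 * R2)) * c) * c + (k (-3455136) * R4)) * c))))) * a +
    ((((((((k (-328752) * R)) * b) * b + ((((k 3029328 * R) * c) * c + (k (-456912) * R3)))) * b)
    * b + ((((((k 1321632 * R) * c) * c + (k (-3197088) * R3)) * c) * c + (k 476160 * R5)))) *
    b)))

/-- The coefficient of exponent `(4, 0, 0)`. -/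
def cTab400 (R a b c : α) : α :=
  let R2 := R * R
  let R3 := R2 * R
  let R4 := R3 * R
  (((((((((k 1109040))) * a) * a + (((((k (-1589640))) * b) * b + ((((k (-1589640)) * c) * c + (k
    (-1890048) * R2)))))) * a + (((((k 4357152 * R) * c)) * b))) * a + (((((((k 1337520)) * b) * b
    + ((k (-297408) * R2))) * b) * b + ((((((k 1337520) * c) * c + (k (-297408) * R2)) * c) * c +
    (k 725232 * R4)))))) * a + (((((((k (-2178576) * R) * c)) * b) * b + (((((k (-2178576) * R) *
    c) * c) * c))) * b))) * a + (((((((((k (-554520))) * b) * b + ((((k 252120) * c) * c + (k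
    945024 * R2)))) * b) * b + ((((((k 252120) * c) * c + (k 594816 * R2)) * c) * c + (k (-362616)
    * R4)))) * b) * b + ((((((((k (-554520)) * c) * c + (k 945024 * R2)) * c) * c + (k (-362616) *
    R4)) * c) * c)))))

/-- The coefficient of exponent `(3, 1, 0)`. -/
def cTab310 (R a b c : α) : α :=
  let R2 := R * R
  let R3 := R2 * R
  let R4 := R3 * R
  let R5 := R4 * R
  (((((((((k 3553776)) * b)) * a + ((((k (-4111632) * R) * c)))) * a + ((((((k 3406176)) * b) * b
    + ((((k 2656800) * c) * c + (k (-6764256) * R2)))) * b))) * a + ((((((k 497088 * R) * c)) * b)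
    * b + (((((k (-233712) * R) * c) * c + (k 5707008 * R3)) * c))))) * a + ((((((((k 644688)) *
    b) * b + ((((k (-4801104)) * c) * c + (k (-1150272) * R2)))) * b) * b + ((((((k (-602640)) *
    c) * c + (k (-4611312) * R2)) * c) * c + (k 1944576 * R4)))) * b))) * a + ((((((((k (-1004256)
    * R) * c)) * b) * b + (((((k 5833296 * R) * c) * c + (k 579168 * R3)) * c))) * b) * b +
    (((((((k (-848592) * R) * c) * c + (k 586656 * R3)) * c) * c + (k (-1036800) * R5)) * c)))))

/-- The coefficient of exponent `(2, 2, 0)`. -/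
def cTab220 (R a b c : α) : α :=
  let R2 := R * R
  let R3 := R2 * R
  let R4 := R3 * R
  (((((((((k 465264))) * a) * a + (((((k 2599128)) * b) * b + ((((k (-2073528)) * c) * c + (k
    (-297408) * R2)))))) * a + (((((k (-1537344) * R) * c)) * b))) * a + (((((((k 2599128)) * b) *
    b + ((k (-3757536) * R2))) * b) * b + ((((((k (-525600)) * c) * c + (k 1878768 * R2)) * c) * c
    + (k 300864 * R4)))))) * a + (((((((k (-1537344) * R) * c)) * b) * b + (((((k 3074688 * R) *
    c) * c) * c))) * b))) * a + (((((((((k 465264)) * b) * b + ((((k (-2073528)) * c) * c + (k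
    (-297408) * R2)))) * b) * b + ((((((k (-525600)) * c) * c + (k 1878768 * R2)) * c) * c + (k
    300864 * R4)))) * b) * b + ((((((((k (-930528)) * c) * c + (k 594816 * R2)) * c) * c + (k
    (-601728) * R4)) * c) * c)))))

/-- The coefficient of exponent `(2, 1, 1)`. -/
def cTab211 (R a b c : α) : α :=
  let R2 := R * R
  let R3 := R2 * R
  let R4 := R3 * R
  let R5 := R4 * R
  ((((((((k (-1468800) * R))) * a + (((((k 10169136) * c)) * b))) * a + (((((k (-8958600) * R)) *
    b) * b + ((((k (-8958600) * R) * c) * c + (k 2599200 * R3)))))) * a + (((((((k 2224728) * c))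
    * b) * b + (((((k 2224728) * c) * c + (k (-284832) * R2)) * c))) * b))) * a + (((((((k 138312
    * R)) * b) * b + ((((k 766656 * R) * c) * c + (k 4023000 * R3)))) * b) * b + ((((((k 138312 *
    R) * c) * c + (k 4023000 * R3)) * c) * c + (k (-1585920) * R5)))))) * a + (((((((((k
    (-188280)) * c)) * b) * b + (((((k 129600) * c) * c + (k (-2305656) * R2)) * c))) * b) * b +
    (((((((k (-188280)) * c) * c + (k (-2305656) * R2)) * c) * c + (k 105408 * R4)) * c))) * b)))

/-- The coefficient of exponent `(5, 0, 0)`. -/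
def cTab500 (R a b c : α) : α :=
  let R2 := R * R
  let R3 := R2 * R
  let R4 := R3 * R
  let R5 := R4 * R
  ((((((((k (-157824) * R))) * a + (((((k 1328400) * c)) * b))) * a + (((((k 923544 * R)) * b) * b
    + ((((k 923544 * R) * c) * c + (k (-342000) * R3)))))) * a + (((((((k (-1613880)) * c)) * b) *
    b + (((((k (-1613880)) * c) * c + (k (-1468800) * R2)) * c))) * b))) * a + (((((((k (-65376) *
    R)) * b) * b + ((((k 1939536 * R) * c) * c + (k (-164376) * R3)))) * b) * b + ((((((k (-65376)
    * R) * c) * c + (k (-164376) * R3)) * c) * c + (k 195840 * R5)))))) * a + (((((((((k 479304) *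
    c)) * b) * b + (((((k (-68688)) * c) * c + (k (-424296) * R2)) * c))) * b) * b + (((((((k
    479304) * c) * c + (k (-424296) * R2)) * c) * c + (k 219456 * R4)) * c))) * b)))

/-- The coefficient of exponent `(4, 1, 0)`. -/
def cTab410 (R a b c : α) : α :=
  let R2 := R * R
  let R3 := R2 * R
  let R4 := R3 * R
  let R5 := R4 * R
  (((((((((k (-5695056)) * c))) * a + ((((k 16044768 * R)) * b))) * a + ((((((k (-8982864)) * c))
    * b) * b + (((((k 3851280) * c) * c + (k (-4111632) * R2)) * c))))) * a + ((((((k (-522288) *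
    R)) * b) * b + ((((k 6093360 * R) * c) * c + (k (-9141552) * R3)))) * b))) * a + ((((((((k
    5877936) * c)) * b) * b + (((((k 3001536) * c) * c + (k 276624 * R2)) * c))) * b) * b +
    (((((((k (-3458448)) * c) * c + (k (-1004256) * R2)) * c) * c + (k 2003328 * R4)) * c))))) * a
    + ((((((((k (-130752) * R)) * b) * b + ((((k (-8727408) * R) * c) * c + (k 590256 * R3)))) *
    b) * b + ((((((k 2172672 * R) * c) * c + (k 1321632 * R3)) * c) * c + (k 552960 * R5)))) *
    b)))

/-- The coefficient of exponent `(3, 2, 0)`. -/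
def cTab320 (R a b c : α) : α :=
  let R2 := R * R
  let R3 := R2 * R
  let R4 := R3 * R
  let R5 := R4 * R
  ((((((((k 1847088 * R))) * a + (((((k (-20870208)) * c)) * b))) * a + (((((k 37345248 * R)) * b)
    * b + ((((k 8931456 * R) * c) * c + (k (-4094352) * R3)))))) * a + (((((((k (-14756832)) * c))
    * b) * b + (((((k 15752592) * c) * c + (k (-17917200) * R2)) * c))) * b))) * a + (((((((k
    (-522288) * R)) * b) * b + ((((k (-2543472) * R) * c) * c + (k (-7677360) * R3)))) * b) * b +
    ((((((k (-8727408) * R) * c) * c + (k 3029328 * R3)) * c) * c + (k 1175040 * R5)))))) * a +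
    (((((((((k 5952240) * c)) * b) * b + (((((k (-5096880)) * c) * c + (k (-233712) * R2)) * c)))
    * b) * b + (((((((k 1153152) * c) * c + (k 5833296 * R2)) * c) * c + (k 1296432 * R4)) * c)))
    * b)))

/-- The coefficient of exponent `(3, 1, 1)`. -/
def cTab311 (R a b c : α) : α :=
  let R2 := R * R
  let R3 := R2 * R
  let R4 := R3 * R
  (((((((((k (-5046192)))) * a) * a + (((((k 9355800)) * b) * b + ((((k 9355800) * c) * c + (k
    4357152 * R2)))))) * a + (((((k (-10754880) * R) * c)) * b))) * a + (((((((k (-7780704))) * b)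
    * b + ((k (-1537344) * R2))) * b) * b + ((((((k (-7780704)) * c) * c + (k (-1537344) * R2)) *
    c) * c + (k (-516288) * R4)))))) * a + (((((((k 5377440 * R) * c)) * b) * b + (((((k 5377440 *
    R) * c) * c) * c))) * b))) * a + (((((((((k 2523096)) * b) * b + ((((k (-1575096)) * c) * c +
    (k (-2178576) * R2)))) * b) * b + ((((((k (-1575096)) * c) * c + (k 3074688 * R2)) * c) * c +
    (k 258144 * R4)))) * b) * b + ((((((((k 2523096) * c) * c + (k (-2178576) * R2)) * c) * c + (k
    258144 * R4)) * c) * c)))))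

/-- The coefficient of exponent `(2, 2, 1)`. -/
def cTab221 (R a b c : α) : α :=
  let R2 := R * R
  let R3 := R2 * R
  let R4 := R3 * R
  let R5 := R4 * R
  (((((((((k (-1644984))) * b)) * a + ((((k 3046680 * R) * c)))) * a + ((((((k (-326448))) * b) *
    b + ((((k (-2613744)) * c) * c + (k 248544 * R2)))) * b))) * a + ((((((k 7675200 * R) * c)) *
    b) * b + (((((k (-1271736) * R) * c) * c + (k (-2724264) * R3)) * c))))) * a + ((((((((k
    (-1644984))) * b) * b + ((((k (-2613744)) * c) * c + (k 248544 * R2)))) * b) * b + ((((((k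
    (-971568)) * c) * c + (k 766656 * R2)) * c) * c + (k 852912 * R4)))) * b))) * a + ((((((((k
    3046680 * R) * c)) * b) * b + (((((k (-1271736) * R) * c) * c + (k (-2724264) * R3)) * c))) *
    b) * b + (((((((k 1939536 * R) * c) * c + (k (-821952) * R3)) * c) * c + (k 990720 * R5)) *
    c)))))

/-- The coefficient of exponent `(6, 0, 0)`. -/
def cTab600 (R a b c : α) : α :=
  let R2 := R * R
  let R3 := R2 * R
  let R4 := R3 * R
  (((((((((k (-377472)))) * a) * a + (((((k 1169136)) * b) * b + ((((k 1169136) * c) * c + (k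
    1109040 * R2)))))) * a + (((((k (-5046192) * R) * c)) * b))) * a + (((((((k (-660024))) * b) *
    b + ((k 465264 * R2))) * b) * b + ((((((k (-660024)) * c) * c + (k 465264 * R2)) * c) * c + (k
    (-402144) * R4)))))) * a + (((((((k 2523096 * R) * c)) * b) * b + (((((k 2523096 * R) * c) *
    c) * c))) * b))) * a + (((((((((k 188736)) * b) * b + ((((k (-509112)) * c) * c + (k (-554520)
    * R2)))) * b) * b + ((((((k (-509112)) * c) * c + (k (-930528) * R2)) * c) * c + (k 201072 *
    R4)))) * b) * b + ((((((((k 188736) * c) * c + (k (-554520) * R2)) * c) * c + (k 201072 * R4))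
    * c) * c)))))

/-- The coefficient of exponent `(5, 1, 0)`. -/
def cTab510 (R a b c : α) : α :=
  let R2 := R * R
  let R3 := R2 * R
  let R4 := R3 * R
  (((((((((k 2517984)) * b)) * a + ((((k (-5695056) * R) * c)))) * a + ((((((k (-3741408))) * b) *
    b + ((((k (-822240)) * c) * c + (k 3553776 * R2)))) * b))) * a + ((((((k (-3289968) * R) * c))
    * b) * b + (((((k 5952240 * R) * c) * c + (k 2300688 * R3)) * c))))) * a + ((((((((k 3405024))
    * b) * b + ((((k 3028896) * c) * c + (k 644688 * R2)))) * b) * b + ((((((k (-4845168)) * c) *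
    c + (k (-376560) * R2)) * c) * c + (k (-2022048) * R4)))) * b))) * a + ((((((((k (-3458448) *
    R) * c)) * b) * b + (((((k 1153152 * R) * c) * c + (k 1966032 * R3)) * c))) * b) * b +
    (((((((k 958608 * R) * c) * c + (k (-1200384) * R3)) * c) * c) * c)))))

/-- The coefficient of exponent `(4, 2, 0)`. -/
def cTab420 (R a b c : α) : α :=
  let R2 := R * R
  let R3 := R2 * R
  let R4 := R3 * R
  (((((((((k 2338272))) * a) * a + (((((k (-8245440))) * b) * b + ((((k (-9577728)) * c) * c + (k
    (-3179280) * R2)))))) * a + (((((k 18711600 * R) * c)) * b))) * a + (((((((k 2876256)) * b) *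
    b + ((k 5198256 * R2))) * b) * b + ((((((k 8798112) * c) * c + (k (-4147056) * R2)) * c) * c +
    (k 588432 * R4)))))) * a + (((((((k (-15561408) * R) * c)) * b) * b + (((((k (-3150192) * R) *
    c) * c) * c))) * b))) * a + (((((((((k (-1320048))) * b) * b + ((((k 8798112) * c) * c + (k
    2675040 * R2)))) * b) * b + ((((((k (-2649312)) * c) * c + (k (-1051200) * R2)) * c) * c + (k
    (-1072176) * R4)))) * b) * b + ((((((((k (-1018224)) * c) * c + (k 504240 * R2)) * c) * c + (k
    483744 * R4)) * c) * c)))))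

/-- The coefficient of exponent `(4, 1, 1)`. -/
def cTab411 (R a b c : α) : α :=
  let R2 := R * R
  let R3 := R2 * R
  let R4 := R3 * R
  let R5 := R4 * R
  ((((((((k 1328400 * R))) * a + (((((k 2634624) * c)) * b))) * a + (((((k (-10435104) * R)) * b)
    * b + ((((k (-10435104) * R) * c) * c + (k 747072 * R3)))))) * a + (((((((k 3089808) * c)) *
    b) * b + (((((k 3089808) * c) * c + (k 10169136 * R2)) * c))) * b))) * a + (((((((k 2938968 *
    R)) * b) * b + ((((k (-971568) * R) * c) * c + (k 538992 * R3)))) * b) * b + ((((((k 2938968 *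
    R) * c) * c + (k 538992 * R3)) * c) * c + (k (-322560) * R5)))))) * a + (((((((((k (-2422584))
    * c)) * b) * b + (((((k 859392) * c) * c + (k (-301320) * R2)) * c))) * b) * b + (((((((k
    (-2422584)) * c) * c + (k (-301320) * R2)) * c) * c + (k (-1026720) * R4)) * c))) * b)))

/-- The coefficient of exponent `(3, 3, 0)`. -/
def cTab330 (R a b c : α) : α :=
  let R2 := R * R
  let R3 := R2 * R
  let R4 := R3 * R
  (((((((((k (-1870704))) * b)) * a + ((((k 1925640 * R) * c)))) * a + ((((((k (-3128832))) * b) *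
    b + ((((k 3502656) * c) * c + (k 1703088 * R2)))) * b))) * a + ((((((k (-326448) * R) * c)) *
    b) * b + (((((k (-2548440) * R) * c) * c + (k (-1625400) * R3)) * c))))) * a + ((((((((k
    (-1870704))) * b) * b + ((((k 3502656) * c) * c + (k 1703088 * R2)))) * b) * b + ((((((k
    859392) * c) * c + (k 129600 * R2)) * c) * c + (k (-115488) * R4)))) * b))) * a + ((((((((k
    1925640 * R) * c)) * b) * b + (((((k (-2548440) * R) * c) * c + (k (-1625400) * R3)) * c))) *
    b) * b + (((((((k (-68688) * R) * c) * c + (k 524160 * R3)) * c) * c) * c)))))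

/-- The coefficient of exponent `(3, 2, 1)`. -/
def cTab321 (R a b c : α) : α :=
  let R2 := R * R
  let R3 := R2 * R
  let R4 := R3 * R
  let R5 := R4 * R
  (((((((((k (-822240)) * c))) * a + ((((k (-8982864) * R)) * b))) * a + ((((((k 8197056) * c)) *
    b) * b + (((((k 7005312) * c) * c + (k 2656800 * R2)) * c))))) * a + ((((((k (-14756832) * R))
    * b) * b + ((((k (-5227488) * R) * c) * c + (k 9594720 * R3)))) * b))) * a + ((((((((k
    6179616) * c)) * b) * b + (((((k (-17165088)) * c) * c + (k 4449456 * R2)) * c))) * b) * b +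
    (((((((k 3028896) * c) * c + (k (-4801104) * R2)) * c) * c + (k (-469728) * R4)) * c))))) * a
    + ((((((((k (-3227760) * R)) * b) * b + ((((k 15752592 * R) * c) * c + (k 1454832 * R3)))) *
    b) * b + ((((((k 3001536 * R) * c) * c + (k (-5782176) * R3)) * c) * c + (k (-645120) * R5))))
    * b)))

/-- One term of the correction. -/
def cForm (S a b c R p q r : α) : α :=
  let S2 := S * S
  let S3 := S2 * S
  let S4 := S3 * S
  let S5 := S4 * S
  (S5 * a) * cTab100 k R p q r + ((S4 * a * a) * cTab200 k R p q r + ((S4 * a * b) * cTab110 k R p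
    q r + ((S3 * a * a * a) * cTab300 k R p q r + ((S3 * a * a * b) * cTab210 k R p q r + ((S2 * a
    * a * a * a) * cTab400 k R p q r + ((S2 * a * a * a * b) * cTab310 k R p q r + ((S2 * a * a *
    b * b) * cTab220 k R p q r + ((S2 * a * a * b * c) * cTab211 k R p q r + ((S * a * a * a * a *
    a) * cTab500 k R p q r + ((S * a * a * a * a * b) * cTab410 k R p q r + ((S * a * a * a * b *
    b) * cTab320 k R p q r + ((S * a * a * a * b * c) * cTab311 k R p q r + ((S * a * a * b * b *
    c) * cTab221 k R p q r + ((a * a * a * a * a * a) * cTab600 k R p q r + ((a * a * a * a * a *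
    b) * cTab510 k R p q r + ((a * a * a * a * b * b) * cTab420 k R p q r + ((a * a * a * a * b *
    c) * cTab411 k R p q r + ((a * a * a * b * b * b) * cTab330 k R p q r + ((a * a * a * b * b *
    c) * cTab321 k R p q r)))))))))))))))))))

/-- The symmetrised correction, in Horner form in the coordinates of the first vector. -/
def cFast (S a b c R p q r : α) : α :=
  let S2 := S * S
  let S3 := S2 * S
  let S4 := S3 * S
  let S5 := S4 * S
  (((((((cTab600 k R p q r + (cTab600 k R p r q)) * a + ((cTab510 k R p q r) * b + ((cTab510 k R p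
    r q) * c + (S * (cTab500 k R p q r + (cTab500 k R p r q)))))) * a + (((cTab420 k R p q r) * b
    + ((cTab411 k R p q r + (cTab411 k R p r q)) * c + (S * (cTab410 k R p q r)))) * b +
    (((cTab420 k R p r q) * c + (S * (cTab410 k R p r q))) * c + (S2 * (cTab400 k R p q r +
    (cTab400 k R p r q)))))) * a + ((((cTab330 k R p q r + (cTab330 k R q p r)) * b + ((cTab321 k
    R p q r) * c + (S * (cTab320 k R p q r)))) * b + (((cTab321 k R p r q) * c + (S * (cTab311 k R
    p q r + (cTab311 k R p r q)))) * c + (S2 * (cTab310 k R p q r)))) * b + ((((cTab330 k R p r q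
    + (cTab330 k R r p q)) * c + (S * (cTab320 k R p r q))) * c + (S2 * (cTab310 k R p r q))) * c
    + (S3 * (cTab300 k R p q r + (cTab300 k R p r q)))))) * a + (((((cTab420 k R q p r) * b +
    ((cTab321 k R q p r) * c + (S * (cTab320 k R q p r)))) * b + ((S * (cTab221 k R p q r +
    (cTab221 k R q p r))) * c + (S2 * (cTab220 k R p q r + (cTab220 k R q p r))))) * b +
    ((((cTab321 k R r p q) * c + (S * (cTab221 k R p r q + (cTab221 k R r p q)))) * c + (S2 *
    (cTab211 k R p q r + (cTab211 k R p r q)))) * c + (S3 * (cTab210 k R p q r)))) * b +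
    (((((cTab420 k R r p q) * c + (S * (cTab320 k R r p q))) * c + (S2 * (cTab220 k R p r q +
    (cTab220 k R r p q)))) * c + (S3 * (cTab210 k R p r q))) * c + (S4 * (cTab200 k R p q r +
    (cTab200 k R p r q)))))) * a + ((((((cTab510 k R q p r) * b + ((cTab411 k R q p r + (cTab411 k
    R q r p)) * c + (S * (cTab410 k R q p r)))) * b + (((cTab321 k R q r p) * c + (S * (cTab311 k
    R q p r + (cTab311 k R q r p)))) * c + (S2 * (cTab310 k R q p r)))) * b + ((((cTab321 k R r q
    p) * c + (S * (cTab221 k R q r p + (cTab221 k R r q p)))) * c + (S2 * (cTab211 k R q p r +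
    (cTab211 k R q r p)))) * c + (S3 * (cTab210 k R q p r)))) * b + (((((cTab411 k R r p q +
    (cTab411 k R r q p)) * c + (S * (cTab311 k R r p q + (cTab311 k R r q p)))) * c + (S2 *
    (cTab211 k R r p q + (cTab211 k R r q p)))) * c) * c + (S4 * (cTab110 k R p q r + (cTab110 k R
    q p r))))) * b + ((((((cTab510 k R r p q) * c + (S * (cTab410 k R r p q))) * c + (S2 *
    (cTab310 k R r p q))) * c + (S3 * (cTab210 k R r p q))) * c + (S4 * (cTab110 k R p r q +
    (cTab110 k R r p q)))) * c + (S5 * (cTab100 k R p q r + (cTab100 k R p r q)))))) * a +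
    (((((((cTab600 k R q p r + (cTab600 k R q r p)) * b + ((cTab510 k R q r p) * c + (S * (cTab500
    k R q p r + (cTab500 k R q r p))))) * b + (((cTab420 k R q r p) * c + (S * (cTab410 k R q r
    p))) * c + (S2 * (cTab400 k R q p r + (cTab400 k R q r p))))) * b + ((((cTab330 k R q r p +
    (cTab330 k R r q p)) * c + (S * (cTab320 k R q r p))) * c + (S2 * (cTab310 k R q r p))) * c +
    (S3 * (cTab300 k R q p r + (cTab300 k R q r p))))) * b + (((((cTab420 k R r q p) * c + (S *
    (cTab320 k R r q p))) * c + (S2 * (cTab220 k R q r p + (cTab220 k R r q p)))) * c + (S3 *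
    (cTab210 k R q r p))) * c + (S4 * (cTab200 k R q p r + (cTab200 k R q r p))))) * b +
    ((((((cTab510 k R r q p) * c + (S * (cTab410 k R r q p))) * c + (S2 * (cTab310 k R r q p))) *
    c + (S3 * (cTab210 k R r q p))) * c + (S4 * (cTab110 k R q r p + (cTab110 k R r q p)))) * c +
    (S5 * (cTab100 k R q p r + (cTab100 k R q r p))))) * b + (((((((cTab600 k R r p q + (cTab600 k
    R r q p)) * c + (S * (cTab500 k R r p q + (cTab500 k R r q p)))) * c + (S2 * (cTab400 k R r p
    q + (cTab400 k R r q p)))) * c + (S3 * (cTab300 k R r p q + (cTab300 k R r q p)))) * c + (S4 *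
    (cTab200 k R r p q + (cTab200 k R r q p)))) * c + (S5 * (cTab100 k R r p q + (cTab100 k R r q
    p)))) * c)))

end Vale.Agent.P154.Four
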