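import Vale.Agent.P154.Four.Part
import Vale.Agent.P154.Four.ClosTable
import Vale.Agent.P154.Cert

/-!
The polynomial certificate behind the closure inequality: a lower bound for the invariant of one
relabelled product whose average over all relabellings is the required right-hand side.
-/

namespace Vale.Agent.P154.Four

open Vale.Agent.P154

section generic

variable {α : Type} [Add α] [Mul α] (k : ℤ → α)

/-- Quintic numerator of the closure weight. -/
def pClo (S P Q z : α) : α :=
  k 30 * (S * S * S * (S * S)) + (k (-38) * (P * (S * S * S)) + (k (-90) * (z * (S * S))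
    + (k 54 * (P * P * S) + (k (-29) * (Q * S) + k (-75) * (P * z)))))

/-- The invariant's numerator from total and Fourier coordinates. -/
def invOf (S a b c : α) : α :=
  let A := a * a
  let B := b * b
  let C := c * c
  pInv k S (A + (B + C)) (A * A + (B * B + C * C)) (a * b * c)

/-- The closure weight's numerator from total and Fourier coordinates. -/
def cloOf (S a b c : α) : α :=
  let A := a * a
  let B := b * b
  let C := c * c
  pClo k S (A + (B + C)) (A * A + (B * B + C * C)) (a * b * c)

/-- `18000 · 256 · s^4 (S R)^5` times the slack for one relabelling, in totals and Fourier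
coordinates of the two vectors and of their product. -/
def closCore (S a b c R p q r s e f g : α) : α :=
  let S2 := S * S
  let R2 := R * R
  let s2 := s * s
  k 30720 * ((invOf k s e f g * (S2 * S2 * S)) * (R2 * R2 * R))
    + k (-1) * ((s2 * s2)
      * (k 256 * ((invOf k S a b c * S) * (cloOf k R p q r * R)
          + (cloOf k S a b c * S) * (invOf k R p q r * R))
        + cFast k S a b c R p q r))

/-- The certificate as a function of two vectors. -/
def closPoly (x0 x1 x2 x3 y0 y1 y2 y3 : α) : α :=
  let r0 := x0 * y0
  let r1 := x1 * y1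
  let r2 := x2 * y2
  let r3 := x3 * y3
  closCore k (pTot x0 x1 x2 x3) (pDif k x0 x1 x2 x3) (pDif k x0 x2 x1 x3) (pDif k x0 x3 x1 x2)
    (pTot y0 y1 y2 y3) (pDif k y0 y1 y2 y3) (pDif k y0 y2 y1 y3) (pDif k y0 y3 y1 y2)
    (pTot r0 r1 r2 r3) (pDif k r0 r1 r2 r3) (pDif k r0 r2 r1 r3) (pDif k r0 r3 r1 r2)

/-- The certificate on two cones. -/
def closPair (A B : Cone4) (a b c d e f g h : α) : α :=
  closPoly k (lin4 k a b c d (row0 A)) (lin4 k a b c d (row1 A)) (lin4 k a b c d (row2 A))
    (lin4 k a b c d (row3 A)) (lin4 k e f g h (row0 B)) (lin4 k e f g h (row1 B))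
    (lin4 k e f g h (row2 B)) (lin4 k e f g h (row3 B))

end generic

/-- The expression on two cones, first coefficient one on each. -/
def exClos (A B : Cone4) : Ex :=
  closPair Ex.c A B (.c 1) (.x 3) (.x 4) (.x 5) (.c 1) (.x 0) (.x 1) (.x 2)

/-- The partially evaluated coefficients, computed directly. -/
noncomputable def packClos (bits D : ℕ) (A B : Cone4) : Mask.Tri :=
  closPair (fun z : ℤ => Mask.Tri.num z) A B (.num 1)
    (.pol (Pol.var 3 0)) (.pol (Pol.var 3 1)) (.pol (Pol.var 3 2)) (.num 1)
    (.num (Pol.base bits D 0)) (.num (Pol.base bits D 1)) (.num (Pol.base bits D 2))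

/-- The degree and coefficient bound. -/
noncomputable def sizeClos (A B : Cone4) : Mask.Size := Mask.valSize (exClos A B)

set_option maxRecDepth 4000 in
set_option maxHeartbeats 2000000 in
lemma valTri_exClos (bits D : ℕ) (A B : Cone4) :
    Mask.valTri bits D (exClos A B) = packClos bits D A B := rfl

end Vale.Agent.P154.Four
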