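import Vale.Agent.P154.Four.ClosCert00
import Vale.Agent.P154.Four.ClosCert01
import Vale.Agent.P154.Four.ClosCert02
import Vale.Agent.P154.Four.ClosCert03
import Vale.Agent.P154.Four.ClosCert04
import Vale.Agent.P154.Four.ClosCert05
import Vale.Agent.P154.Four.ClosCert06
import Vale.Agent.P154.Four.ClosCert07
import Vale.Agent.P154.Four.ClosCert08
import Vale.Agent.P154.Four.ClosCert09
import Vale.Agent.P154.Four.ClosCert10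
import Vale.Agent.P154.Four.ClosCert11
import Vale.Agent.P154.Four.ClosCert12
import Vale.Agent.P154.Four.ClosCert13
import Vale.Agent.P154.Four.ClosCert14
import Vale.Agent.P154.Four.ClosCert15
import Vale.Agent.P154.Four.ClosCert16
import Vale.Agent.P154.Four.ClosCert17
import Vale.Agent.P154.Four.ClosCert18
import Vale.Agent.P154.Four.ClosCert19
import Vale.Agent.P154.Four.ClosCert20
import Vale.Agent.P154.Four.ClosCert21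
import Vale.Agent.P154.Four.ClosCert22

/-!
Nonnegativity of the closure certificate on the seventeen pairs of ordering cones, assembled
from the bisections.
-/

namespace Vale.Agent.P154.Four

/-- The pair with second ordering `0, 1, 2, 3`. -/
lemma clos_ord0123 : NNClos
    ((1, 0, 0, 0), (1, 1, 0, 0), (1, 1, 1, 0), (1, 1, 1, 1))
    ((1, 0, 0, 0), (1, 1, 0, 0), (1, 1, 1, 0), (1, 1, 1, 1)) :=
  (NNClos.left (A1 := ((2, 1, 1, 1), (1, 1, 0, 0), (1, 1, 1, 0), (1, 1, 1, 1)))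
    (A2 := ((1, 0, 0, 0), (1, 1, 0, 0), (1, 1, 1, 0), (2, 1, 1, 1)))
    0 3 1 (by decide +kernel)
    (NNClos.right (B1 := ((2, 1, 1, 1), (1, 1, 0, 0), (1, 1, 1, 0), (1, 1, 1, 1)))
      (B2 := ((1, 0, 0, 0), (1, 1, 0, 0), (1, 1, 1, 0), (2, 1, 1, 1)))
      0 3 1 (by decide +kernel)
      clos_piece0
      (NNClos.right (B1 := ((2, 1, 1, 0), (1, 1, 0, 0), (1, 1, 1, 0), (2, 1, 1, 1)))
        (B2 := ((1, 0, 0, 0), (1, 1, 0, 0), (2, 1, 1, 0), (2, 1, 1, 1)))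
        0 2 1 (by decide +kernel)
        clos_piece1
        clos_piece2))
    (NNClos.left (A1 := ((2, 1, 1, 0), (1, 1, 0, 0), (1, 1, 1, 0), (2, 1, 1, 1)))
      (A2 := ((1, 0, 0, 0), (1, 1, 0, 0), (2, 1, 1, 0), (2, 1, 1, 1)))
      0 2 1 (by decide +kernel)
      clos_piece3
      clos_piece4))

/-- The pair with second ordering `0, 1, 3, 2`. -/
lemma clos_ord0132 : NNClos
    ((1, 0, 0, 0), (1, 1, 0, 0), (1, 1, 1, 0), (1, 1, 1, 1))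
    ((1, 0, 0, 0), (1, 1, 0, 0), (1, 1, 0, 1), (1, 1, 1, 1)) :=
  (NNClos.right (B1 := ((2, 1, 1, 1), (1, 1, 0, 0), (1, 1, 0, 1), (1, 1, 1, 1)))
    (B2 := ((1, 0, 0, 0), (1, 1, 0, 0), (1, 1, 0, 1), (2, 1, 1, 1)))
    0 3 1 (by decide +kernel)
    (NNClos.left (A1 := ((2, 1, 1, 0), (1, 1, 0, 0), (1, 1, 1, 0), (1, 1, 1, 1)))
      (A2 := ((1, 0, 0, 0), (1, 1, 0, 0), (2, 1, 1, 0), (1, 1, 1, 1)))
      0 2 1 (by decide +kernel)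
      clos_piece5
      clos_piece6)
    (NNClos.left (A1 := ((2, 1, 1, 1), (1, 1, 0, 0), (1, 1, 1, 0), (1, 1, 1, 1)))
      (A2 := ((1, 0, 0, 0), (1, 1, 0, 0), (1, 1, 1, 0), (2, 1, 1, 1)))
      0 3 1 (by decide +kernel)
      (NNClos.right (B1 := ((2, 1, 0, 1), (1, 1, 0, 0), (1, 1, 0, 1), (2, 1, 1, 1)))
        (B2 := ((1, 0, 0, 0), (1, 1, 0, 0), (2, 1, 0, 1), (2, 1, 1, 1)))
        0 2 1 (by decide +kernel)
        clos_piece7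
        clos_piece8)
      clos_piece9))

/-- The pair with second ordering `0, 2, 1, 3`. -/
lemma clos_ord0213 : NNClos
    ((1, 0, 0, 0), (1, 1, 0, 0), (1, 1, 1, 0), (1, 1, 1, 1))
    ((1, 0, 0, 0), (1, 0, 1, 0), (1, 1, 1, 0), (1, 1, 1, 1)) :=
  (NNClos.left (A1 := ((2, 1, 1, 1), (1, 1, 0, 0), (1, 1, 1, 0), (1, 1, 1, 1)))
    (A2 := ((1, 0, 0, 0), (1, 1, 0, 0), (1, 1, 1, 0), (2, 1, 1, 1)))
    0 3 1 (by decide +kernel)
    (NNClos.right (B1 := ((2, 1, 1, 0), (1, 0, 1, 0), (1, 1, 1, 0), (1, 1, 1, 1)))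
      (B2 := ((1, 0, 0, 0), (1, 0, 1, 0), (2, 1, 1, 0), (1, 1, 1, 1)))
      0 2 1 (by decide +kernel)
      clos_piece10
      clos_piece11)
    (NNClos.left (A1 := ((2, 1, 1, 0), (1, 1, 0, 0), (1, 1, 1, 0), (2, 1, 1, 1)))
      (A2 := ((1, 0, 0, 0), (1, 1, 0, 0), (2, 1, 1, 0), (2, 1, 1, 1)))
      0 2 1 (by decide +kernel)
      clos_piece12
      clos_piece13))

/-- The pair with second ordering `0, 2, 3, 1`. -/
lemma clos_ord0231 : NNClos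
    ((1, 0, 0, 0), (1, 1, 0, 0), (1, 1, 1, 0), (1, 1, 1, 1))
    ((1, 0, 0, 0), (1, 0, 1, 0), (1, 0, 1, 1), (1, 1, 1, 1)) :=
  (NNClos.left (A1 := ((2, 1, 1, 1), (1, 1, 0, 0), (1, 1, 1, 0), (1, 1, 1, 1)))
    (A2 := ((1, 0, 0, 0), (1, 1, 0, 0), (1, 1, 1, 0), (2, 1, 1, 1)))
    0 3 1 (by decide +kernel)
    (NNClos.right (B1 := ((2, 0, 1, 1), (1, 0, 1, 0), (1, 0, 1, 1), (1, 1, 1, 1)))
      (B2 := ((1, 0, 0, 0), (1, 0, 1, 0), (2, 0, 1, 1), (1, 1, 1, 1)))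
      0 2 1 (by decide +kernel)
      clos_piece14
      clos_piece15)
    (NNClos.left (A1 := ((2, 1, 1, 0), (1, 1, 0, 0), (1, 1, 1, 0), (2, 1, 1, 1)))
      (A2 := ((1, 0, 0, 0), (1, 1, 0, 0), (2, 1, 1, 0), (2, 1, 1, 1)))
      0 2 1 (by decide +kernel)
      clos_piece16
      clos_piece17))

/-- The pair with second ordering `0, 3, 2, 1`. -/
lemma clos_ord0321 : NNClos
    ((1, 0, 0, 0), (1, 1, 0, 0), (1, 1, 1, 0), (1, 1, 1, 1))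
    ((1, 0, 0, 0), (1, 0, 0, 1), (1, 0, 1, 1), (1, 1, 1, 1)) :=
  (NNClos.right (B1 := ((2, 1, 1, 1), (1, 0, 0, 1), (1, 0, 1, 1), (1, 1, 1, 1)))
    (B2 := ((1, 0, 0, 0), (1, 0, 0, 1), (1, 0, 1, 1), (2, 1, 1, 1)))
    0 3 1 (by decide +kernel)
    (NNClos.left (A1 := ((2, 1, 1, 0), (1, 1, 0, 0), (1, 1, 1, 0), (1, 1, 1, 1)))
      (A2 := ((1, 0, 0, 0), (1, 1, 0, 0), (2, 1, 1, 0), (1, 1, 1, 1)))
      0 2 1 (by decide +kernel)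
      clos_piece18
      (NNClos.left (A1 := ((2, 1, 1, 1), (1, 1, 0, 0), (2, 1, 1, 0), (1, 1, 1, 1)))
        (A2 := ((1, 0, 0, 0), (1, 1, 0, 0), (2, 1, 1, 0), (2, 1, 1, 1)))
        0 3 1 (by decide +kernel)
        clos_piece19
        clos_piece20))
    (NNClos.right (B1 := ((2, 0, 1, 1), (1, 0, 0, 1), (1, 0, 1, 1), (2, 1, 1, 1)))
      (B2 := ((1, 0, 0, 0), (1, 0, 0, 1), (2, 0, 1, 1), (2, 1, 1, 1)))
      0 2 1 (by decide +kernel)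
      clos_piece21
      clos_piece22))

/-- The pair with second ordering `1, 0, 2, 3`. -/
lemma clos_ord1023 : NNClos
    ((1, 0, 0, 0), (1, 1, 0, 0), (1, 1, 1, 0), (1, 1, 1, 1))
    ((0, 1, 0, 0), (1, 1, 0, 0), (1, 1, 1, 0), (1, 1, 1, 1)) :=
  (NNClos.left (A1 := ((2, 1, 1, 1), (1, 1, 0, 0), (1, 1, 1, 0), (1, 1, 1, 1)))
    (A2 := ((1, 0, 0, 0), (1, 1, 0, 0), (1, 1, 1, 0), (2, 1, 1, 1)))
    0 3 1 (by decide +kernel)
    clos_piece23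
    (NNClos.left (A1 := ((2, 1, 1, 0), (1, 1, 0, 0), (1, 1, 1, 0), (2, 1, 1, 1)))
      (A2 := ((1, 0, 0, 0), (1, 1, 0, 0), (2, 1, 1, 0), (2, 1, 1, 1)))
      0 2 1 (by decide +kernel)
      clos_piece24
      clos_piece25))

/-- The pair with second ordering `1, 0, 3, 2`. -/
lemma clos_ord1032 : NNClos
    ((1, 0, 0, 0), (1, 1, 0, 0), (1, 1, 1, 0), (1, 1, 1, 1))
    ((0, 1, 0, 0), (1, 1, 0, 0), (1, 1, 0, 1), (1, 1, 1, 1)) :=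
  (NNClos.right (B1 := ((1, 2, 1, 1), (1, 1, 0, 0), (1, 1, 0, 1), (1, 1, 1, 1)))
    (B2 := ((0, 1, 0, 0), (1, 1, 0, 0), (1, 1, 0, 1), (1, 2, 1, 1)))
    0 3 1 (by decide +kernel)
    clos_piece26
    (NNClos.right (B1 := ((1, 2, 0, 1), (1, 1, 0, 0), (1, 1, 0, 1), (1, 2, 1, 1)))
      (B2 := ((0, 1, 0, 0), (1, 1, 0, 0), (1, 2, 0, 1), (1, 2, 1, 1)))
      0 2 1 (by decide +kernel)
      clos_piece27
      clos_piece28))

/-- The pair with second ordering `1, 2, 0, 3`. -/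
lemma clos_ord1203 : NNClos
    ((1, 0, 0, 0), (1, 1, 0, 0), (1, 1, 1, 0), (1, 1, 1, 1))
    ((0, 1, 0, 0), (0, 1, 1, 0), (1, 1, 1, 0), (1, 1, 1, 1)) :=
  (NNClos.left (A1 := ((2, 1, 1, 1), (1, 1, 0, 0), (1, 1, 1, 0), (1, 1, 1, 1)))
    (A2 := ((1, 0, 0, 0), (1, 1, 0, 0), (1, 1, 1, 0), (2, 1, 1, 1)))
    0 3 1 (by decide +kernel)
    clos_piece29
    (NNClos.left (A1 := ((2, 1, 1, 0), (1, 1, 0, 0), (1, 1, 1, 0), (2, 1, 1, 1)))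
      (A2 := ((1, 0, 0, 0), (1, 1, 0, 0), (2, 1, 1, 0), (2, 1, 1, 1)))
      0 2 1 (by decide +kernel)
      clos_piece30
      clos_piece31))

/-- The pair with second ordering `1, 2, 3, 0`. -/
lemma clos_ord1230 : NNClos
    ((1, 0, 0, 0), (1, 1, 0, 0), (1, 1, 1, 0), (1, 1, 1, 1))
    ((0, 1, 0, 0), (0, 1, 1, 0), (0, 1, 1, 1), (1, 1, 1, 1)) :=
  (NNClos.left (A1 := ((2, 1, 1, 1), (1, 1, 0, 0), (1, 1, 1, 0), (1, 1, 1, 1)))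
    (A2 := ((1, 0, 0, 0), (1, 1, 0, 0), (1, 1, 1, 0), (2, 1, 1, 1)))
    0 3 1 (by decide +kernel)
    (NNClos.right (B1 := ((0, 2, 1, 1), (0, 1, 1, 0), (0, 1, 1, 1), (1, 1, 1, 1)))
      (B2 := ((0, 1, 0, 0), (0, 1, 1, 0), (0, 2, 1, 1), (1, 1, 1, 1)))
      0 2 1 (by decide +kernel)
      clos_piece32
      clos_piece33)
    (NNClos.left (A1 := ((2, 1, 1, 0), (1, 1, 0, 0), (1, 1, 1, 0), (2, 1, 1, 1)))
      (A2 := ((1, 0, 0, 0), (1, 1, 0, 0), (2, 1, 1, 0), (2, 1, 1, 1)))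
      0 2 1 (by decide +kernel)
      clos_piece34
      clos_piece35))

/-- The pair with second ordering `1, 3, 0, 2`. -/
lemma clos_ord1302 : NNClos
    ((1, 0, 0, 0), (1, 1, 0, 0), (1, 1, 1, 0), (1, 1, 1, 1))
    ((0, 1, 0, 0), (0, 1, 0, 1), (1, 1, 0, 1), (1, 1, 1, 1)) :=
  (NNClos.left (A1 := ((2, 1, 1, 1), (1, 1, 0, 0), (1, 1, 1, 0), (1, 1, 1, 1)))
    (A2 := ((1, 0, 0, 0), (1, 1, 0, 0), (1, 1, 1, 0), (2, 1, 1, 1)))
    0 3 1 (by decide +kernel)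
    (NNClos.right (B1 := ((1, 2, 0, 1), (0, 1, 0, 1), (1, 1, 0, 1), (1, 1, 1, 1)))
      (B2 := ((0, 1, 0, 0), (0, 1, 0, 1), (1, 2, 0, 1), (1, 1, 1, 1)))
      0 2 1 (by decide +kernel)
      clos_piece36
      clos_piece37)
    (NNClos.left (A1 := ((2, 1, 1, 0), (1, 1, 0, 0), (1, 1, 1, 0), (2, 1, 1, 1)))
      (A2 := ((1, 0, 0, 0), (1, 1, 0, 0), (2, 1, 1, 0), (2, 1, 1, 1)))
      0 2 1 (by decide +kernel)
      clos_piece38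
      clos_piece39))

/-- The pair with second ordering `1, 3, 2, 0`. -/
lemma clos_ord1320 : NNClos
    ((1, 0, 0, 0), (1, 1, 0, 0), (1, 1, 1, 0), (1, 1, 1, 1))
    ((0, 1, 0, 0), (0, 1, 0, 1), (0, 1, 1, 1), (1, 1, 1, 1)) :=
  (NNClos.left (A1 := ((2, 1, 1, 1), (1, 1, 0, 0), (1, 1, 1, 0), (1, 1, 1, 1)))
    (A2 := ((1, 0, 0, 0), (1, 1, 0, 0), (1, 1, 1, 0), (2, 1, 1, 1)))
    0 3 1 (by decide +kernel)
    (NNClos.right (B1 := ((0, 2, 1, 1), (0, 1, 0, 1), (0, 1, 1, 1), (1, 1, 1, 1)))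
      (B2 := ((0, 1, 0, 0), (0, 1, 0, 1), (0, 2, 1, 1), (1, 1, 1, 1)))
      0 2 1 (by decide +kernel)
      clos_piece40
      clos_piece41)
    (NNClos.left (A1 := ((2, 1, 1, 0), (1, 1, 0, 0), (1, 1, 1, 0), (2, 1, 1, 1)))
      (A2 := ((1, 0, 0, 0), (1, 1, 0, 0), (2, 1, 1, 0), (2, 1, 1, 1)))
      0 2 1 (by decide +kernel)
      clos_piece42
      clos_piece43))

/-- The pair with second ordering `2, 1, 0, 3`. -/
lemma clos_ord2103 : NNClos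
    ((1, 0, 0, 0), (1, 1, 0, 0), (1, 1, 1, 0), (1, 1, 1, 1))
    ((0, 0, 1, 0), (0, 1, 1, 0), (1, 1, 1, 0), (1, 1, 1, 1)) :=
  (NNClos.left (A1 := ((2, 1, 1, 1), (1, 1, 0, 0), (1, 1, 1, 0), (1, 1, 1, 1)))
    (A2 := ((1, 0, 0, 0), (1, 1, 0, 0), (1, 1, 1, 0), (2, 1, 1, 1)))
    0 3 1 (by decide +kernel)
    (NNClos.right (B1 := ((1, 1, 2, 0), (0, 1, 1, 0), (1, 1, 1, 0), (1, 1, 1, 1)))
      (B2 := ((0, 0, 1, 0), (0, 1, 1, 0), (1, 1, 2, 0), (1, 1, 1, 1)))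
      0 2 1 (by decide +kernel)
      clos_piece44
      clos_piece45)
    (NNClos.left (A1 := ((2, 1, 1, 0), (1, 1, 0, 0), (1, 1, 1, 0), (2, 1, 1, 1)))
      (A2 := ((1, 0, 0, 0), (1, 1, 0, 0), (2, 1, 1, 0), (2, 1, 1, 1)))
      0 2 1 (by decide +kernel)
      clos_piece46
      clos_piece47))

/-- The pair with second ordering `2, 1, 3, 0`. -/
lemma clos_ord2130 : NNClos
    ((1, 0, 0, 0), (1, 1, 0, 0), (1, 1, 1, 0), (1, 1, 1, 1))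
    ((0, 0, 1, 0), (0, 1, 1, 0), (0, 1, 1, 1), (1, 1, 1, 1)) :=
  (NNClos.right (B1 := ((1, 1, 2, 1), (0, 1, 1, 0), (0, 1, 1, 1), (1, 1, 1, 1)))
    (B2 := ((0, 0, 1, 0), (0, 1, 1, 0), (0, 1, 1, 1), (1, 1, 2, 1)))
    0 3 1 (by decide +kernel)
    (NNClos.left (A1 := ((2, 1, 1, 0), (1, 1, 0, 0), (1, 1, 1, 0), (1, 1, 1, 1)))
      (A2 := ((1, 0, 0, 0), (1, 1, 0, 0), (2, 1, 1, 0), (1, 1, 1, 1)))
      0 2 1 (by decide +kernel)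
      clos_piece48
      clos_piece49)
    (NNClos.right (B1 := ((0, 1, 2, 1), (0, 1, 1, 0), (0, 1, 1, 1), (1, 1, 2, 1)))
      (B2 := ((0, 0, 1, 0), (0, 1, 1, 0), (0, 1, 2, 1), (1, 1, 2, 1)))
      0 2 1 (by decide +kernel)
      clos_piece50
      clos_piece51))

/-- The pair with second ordering `2, 3, 0, 1`. -/
lemma clos_ord2301 : NNClos
    ((1, 0, 0, 0), (1, 1, 0, 0), (1, 1, 1, 0), (1, 1, 1, 1))
    ((0, 0, 1, 0), (0, 0, 1, 1), (1, 0, 1, 1), (1, 1, 1, 1)) :=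
  (NNClos.left (A1 := ((2, 1, 1, 1), (1, 1, 0, 0), (1, 1, 1, 0), (1, 1, 1, 1)))
    (A2 := ((1, 0, 0, 0), (1, 1, 0, 0), (1, 1, 1, 0), (2, 1, 1, 1)))
    0 3 1 (by decide +kernel)
    (NNClos.right (B1 := ((0, 0, 1, 0), (0, 0, 1, 1), (2, 1, 2, 2), (1, 1, 1, 1)))
      (B2 := ((0, 0, 1, 0), (0, 0, 1, 1), (1, 0, 1, 1), (2, 1, 2, 2)))
      2 3 1 (by decide +kernel)
      clos_piece52
      (NNClos.right (B1 := ((1, 0, 2, 1), (0, 0, 1, 1), (1, 0, 1, 1), (2, 1, 2, 2)))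
        (B2 := ((0, 0, 1, 0), (0, 0, 1, 1), (1, 0, 2, 1), (2, 1, 2, 2)))
        0 2 1 (by decide +kernel)
        clos_piece53
        clos_piece54))
    (NNClos.left (A1 := ((2, 1, 1, 0), (1, 1, 0, 0), (1, 1, 1, 0), (2, 1, 1, 1)))
      (A2 := ((1, 0, 0, 0), (1, 1, 0, 0), (2, 1, 1, 0), (2, 1, 1, 1)))
      0 2 1 (by decide +kernel)
      clos_piece55
      clos_piece56))

/-- The pair with second ordering `2, 3, 1, 0`. -/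
lemma clos_ord2310 : NNClos
    ((1, 0, 0, 0), (1, 1, 0, 0), (1, 1, 1, 0), (1, 1, 1, 1))
    ((0, 0, 1, 0), (0, 0, 1, 1), (0, 1, 1, 1), (1, 1, 1, 1)) :=
  (NNClos.right (B1 := ((1, 1, 2, 1), (0, 0, 1, 1), (0, 1, 1, 1), (1, 1, 1, 1)))
    (B2 := ((0, 0, 1, 0), (0, 0, 1, 1), (0, 1, 1, 1), (1, 1, 2, 1)))
    0 3 1 (by decide +kernel)
    (NNClos.left (A1 := ((2, 1, 1, 0), (1, 1, 0, 0), (1, 1, 1, 0), (1, 1, 1, 1)))
      (A2 := ((1, 0, 0, 0), (1, 1, 0, 0), (2, 1, 1, 0), (1, 1, 1, 1)))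
      0 2 1 (by decide +kernel)
      clos_piece57
      clos_piece58)
    (NNClos.right (B1 := ((0, 1, 2, 1), (0, 0, 1, 1), (0, 1, 1, 1), (1, 1, 2, 1)))
      (B2 := ((0, 0, 1, 0), (0, 0, 1, 1), (0, 1, 2, 1), (1, 1, 2, 1)))
      0 2 1 (by decide +kernel)
      clos_piece59
      clos_piece60))

/-- The pair with second ordering `3, 1, 2, 0`. -/
lemma clos_ord3120 : NNClos
    ((1, 0, 0, 0), (1, 1, 0, 0), (1, 1, 1, 0), (1, 1, 1, 1))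
    ((0, 0, 0, 1), (0, 1, 0, 1), (0, 1, 1, 1), (1, 1, 1, 1)) :=
  (NNClos.right (B1 := ((1, 1, 1, 2), (0, 1, 0, 1), (0, 1, 1, 1), (1, 1, 1, 1)))
    (B2 := ((0, 0, 0, 1), (0, 1, 0, 1), (0, 1, 1, 1), (1, 1, 1, 2)))
    0 3 1 (by decide +kernel)
    (NNClos.left (A1 := ((2, 1, 1, 0), (1, 1, 0, 0), (1, 1, 1, 0), (1, 1, 1, 1)))
      (A2 := ((1, 0, 0, 0), (1, 1, 0, 0), (2, 1, 1, 0), (1, 1, 1, 1)))
      0 2 1 (by decide +kernel)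
      clos_piece61
      clos_piece62)
    (NNClos.right (B1 := ((0, 1, 1, 2), (0, 1, 0, 1), (0, 1, 1, 1), (1, 1, 1, 2)))
      (B2 := ((0, 0, 0, 1), (0, 1, 0, 1), (0, 1, 1, 2), (1, 1, 1, 2)))
      0 2 1 (by decide +kernel)
      clos_piece63
      clos_piece64))

/-- The pair with second ordering `3, 2, 1, 0`. -/
lemma clos_ord3210 : NNClos
    ((1, 0, 0, 0), (1, 1, 0, 0), (1, 1, 1, 0), (1, 1, 1, 1))
    ((0, 0, 0, 1), (0, 0, 1, 1), (0, 1, 1, 1), (1, 1, 1, 1)) :=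
  (NNClos.right (B1 := ((1, 1, 1, 2), (0, 0, 1, 1), (0, 1, 1, 1), (1, 1, 1, 1)))
    (B2 := ((0, 0, 0, 1), (0, 0, 1, 1), (0, 1, 1, 1), (1, 1, 1, 2)))
    0 3 1 (by decide +kernel)
    (NNClos.left (A1 := ((2, 1, 1, 0), (1, 1, 0, 0), (1, 1, 1, 0), (1, 1, 1, 1)))
      (A2 := ((1, 0, 0, 0), (1, 1, 0, 0), (2, 1, 1, 0), (1, 1, 1, 1)))
      0 2 1 (by decide +kernel)
      clos_piece65
      clos_piece66)
    (NNClos.right (B1 := ((0, 1, 1, 2), (0, 0, 1, 1), (0, 1, 1, 1), (1, 1, 1, 2)))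
      (B2 := ((0, 0, 0, 1), (0, 0, 1, 1), (0, 1, 1, 2), (1, 1, 1, 2)))
      0 2 1 (by decide +kernel)
      clos_piece67
      clos_piece68))

end Vale.Agent.P154.Four
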