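import Vale.Agent.P154.Four.InfoPoly

/-!
The cones of the decomposition used for the information inequality.
-/

namespace Vale.Agent.P154.Four

/-- An ordering cone, by its extreme rays. -/
abbrev D0 : Cone4 := ((1,0,0,0),(1,1,0,0),(1,1,1,0),(1,1,1,1))
/-- An ordering cone, by its extreme rays. -/
abbrev B132 : Cone4 := ((1,0,0,0),(1,1,0,0),(1,1,0,1),(1,1,1,1))
/-- An ordering cone, by its extreme rays. -/
abbrev B231 : Cone4 := ((1,0,0,0),(1,0,1,0),(1,0,1,1),(1,1,1,1))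
/-- An ordering cone, by its extreme rays. -/
abbrev B321 : Cone4 := ((1,0,0,0),(1,0,0,1),(1,0,1,1),(1,1,1,1))
/-- An ordering cone, by its extreme rays. -/
abbrev B213 : Cone4 := ((1,0,0,0),(1,0,1,0),(1,1,1,0),(1,1,1,1))
/-- A piece of a cone. -/
abbrev A5 : Cone4 := ((2,1,1,0),(1,1,0,0),(1,1,1,0),(1,1,1,1))
/-- A piece of a cone. -/
abbrev A6 : Cone4 := ((1,0,0,0),(1,1,0,0),(2,1,1,0),(1,1,1,1))
/-- A piece of a cone. -/
abbrev A7 : Cone4 := ((2,1,0,0),(1,1,0,0),(2,1,1,0),(1,1,1,1))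
/-- A piece of a cone. -/
abbrev A8 : Cone4 := ((1,0,0,0),(2,1,0,0),(2,1,1,0),(1,1,1,1))

end Vale.Agent.P154.Four
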