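import Vale.Agent.P154.Four.InfoCone
import Vale.Agent.P154.Four.InfoCones

/-!
Coefficient tests for the information inequality, one pair of cones at a time.
-/

namespace Vale.Agent.P154.Four

lemma nn_D0_B132 : NNPair D0 B132 :=
  nn_of_test (bits := 83) (D := 10) (by decide +kernel) (by decide +kernel)

lemma nn_D0_B231 : NNPair D0 B231 :=
  nn_of_test (bits := 83) (D := 10) (by decide +kernel) (by decide +kernel)

lemma nn_D0_B321 : NNPair D0 B321 :=
  nn_of_test (bits := 83) (D := 10) (by decide +kernel) (by decide +kernel)

lemma nn_A5_B213 : NNPair A5 B213 :=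
  nn_of_test (bits := 83) (D := 10) (by decide +kernel) (by decide +kernel)

end Vale.Agent.P154.Four
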