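import Vale.Agent.P154.Four.InfoPoly

/-!
From the coefficient test to nonnegativity of the certificate on a pair of cones.
-/

namespace Vale.Agent.P154.Four

open Vale.Agent.P154 (Ex rc)

/-- Nonnegativity of the certificate on a pair of cones. -/
def NNPair (A B : Cone4) : Prop :=
  ∀ a b c d e f g h : ℝ, 0 ≤ a → 0 ≤ b → 0 ≤ c → 0 ≤ d → 0 ≤ e → 0 ≤ f → 0 ≤ g → 0 ≤ h →
    0 ≤ onPair rc A B a b c d e f g h

lemma infoCore_hom (c d S R u1 u2 u3 v1 v2 v3 s0 s1 s2 s3 q0 q1 q2 q3 : ℝ) :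
    infoCore rc (c * S) (d * R) (c * u1) (c * u2) (c * u3) (d * v1) (d * v2) (d * v3)
        (c * d * s0) (c * d * s1) (c * d * s2) (c * d * s3)
        ((c * d) ^ 2 * q0) ((c * d) ^ 2 * q1) ((c * d) ^ 2 * q2) ((c * d) ^ 2 * q3)
      = (c * d) ^ 9 * infoCore rc S R u1 u2 u3 v1 v2 v3 s0 s1 s2 s3 q0 q1 q2 q3 := by
  simp only [infoCore, pInv, pInf, pCorr, pForm]
  ring

lemma infoPoly_hom (c d x0 x1 x2 x3 y0 y1 y2 y3 : ℝ) :
    infoPoly rc (c * x0) (c * x1) (c * x2) (c * x3) (d * y0) (d * y1) (d * y2) (d * y3)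
      = (c * d) ^ 9 * infoPoly rc x0 x1 x2 x3 y0 y1 y2 y3 := by
  have e : ∀ x y : ℝ, c * x * (d * y) = c * d * (x * y) := fun x y => by ring
  have t : ∀ m a b c' d' : ℝ, pTot (m * a) (m * b) (m * c') (m * d') = m * pTot a b c' d' :=
    fun m a b c' d' => by simp only [pTot]; ring
  have df : ∀ m a b c' d' : ℝ,
      pDif rc (m * a) (m * b) (m * c') (m * d') = m * pDif rc a b c' d' :=
    fun m a b c' d' => by simp only [pDif]; ring
  have sq : ∀ m a b c' d' : ℝ,
      pSq rc (m * a) (m * b) (m * c') (m * d') = m ^ 2 * pSq rc a b c' d' :=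
    fun m a b c' d' => by simp only [pSq, pDif]; ring
  simp only [infoPoly, e, t, df, sq]
  exact infoCore_hom c d _ _ _ _ _ _ _ _ _ _ _ _ _ _ _ _

lemma lin4_scale (u a b c d : ℝ) (g : Vec) :
    lin4 rc (u * a) (u * b) (u * c) (u * d) g = u * lin4 rc a b c d g := by
  simp only [lin4]; ring

lemma onPair_hom (A B : Cone4) (u w a b c d e f g h : ℝ) :
    onPair rc A B (u * a) (u * b) (u * c) (u * d) (w * e) (w * f) (w * g) (w * h)
      = (u * w) ^ 9 * onPair rc A B a b c d e f g h := by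
  simp only [onPair, lin4_scale, infoPoly_hom]

/-- The six packed or kept values as a valuation. -/
def six (b c d f g h : ℝ) : ℕ → ℝ
  | 0 => f
  | 1 => g
  | 2 => h
  | 3 => b
  | 4 => c
  | 5 => d
  | _ + 6 => 0

set_option maxRecDepth 4000 in
lemma val_exPair (A B : Cone4) (b c d f g h : ℝ) :
    Ex.val (six b c d f g h) (exPair A B)
      = onPair rc A B ((1 : ℤ) : ℝ) b c d ((1 : ℤ) : ℝ) f g h := rfl

/-- The two tests suffice for nonnegativity on the pair of cones. -/
theorem nn_of_test {bits D : ℕ} {A B : Cone4}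
    (hg : Mask.sizeTest bits D (sizeInfo A B) = true)
    (hm : Mask.triTest bits D (packInfo bits D A B) = true) : NNPair A B := by
  have base : ∀ b c d f g h : ℝ, 0 ≤ b → 0 ≤ c → 0 ≤ d → 0 ≤ f → 0 ≤ g → 0 ≤ h →
      0 ≤ onPair rc A B 1 b c d 1 f g h := by
    intro b c d f g h hb hc hd hf hg' hh
    have h0 : ∀ i, 0 ≤ six b c d f g h i := fun
      | 0 => hf | 1 => hg' | 2 => hh | 3 => hb | 4 => hc | 5 => hd | _ + 6 => le_refl _
    have h1 : ∀ i, 3 + 3 ≤ i → six b c d f g h i = 0 := fun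
      | 0, i | 1, i | 2, i | 3, i | 4, i | 5, i => absurd i (by omega)
      | _ + 6, _ => rfl
    have hv := Mask.sound_tri bits D _ _ (valSize_exPair A B) _ (valTri_exPair bits D A B) hg hm _
      h0 h1
    rw [val_exPair, Int.cast_one] at hv
    exact hv
  have pos : ∀ a b c d e f g h : ℝ, 0 < a → 0 ≤ b → 0 ≤ c → 0 ≤ d → 0 < e → 0 ≤ f → 0 ≤ g →
      0 ≤ h → 0 ≤ onPair rc A B a b c d e f g h := by
    intro a b c d e f g h ha hb hc hd he hf hg' hh
    have := onPair_hom A B a e 1 (b / a) (c / a) (d / a) 1 (f / e) (g / e) (h / e)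
    rw [mul_one, mul_one, mul_div_cancel₀ b ha.ne', mul_div_cancel₀ c ha.ne',
      mul_div_cancel₀ d ha.ne', mul_div_cancel₀ f he.ne', mul_div_cancel₀ g he.ne',
      mul_div_cancel₀ h he.ne'] at this
    rw [this]
    exact mul_nonneg (pow_nonneg (mul_nonneg ha.le he.le) _)
      (base _ _ _ _ _ _ (by positivity) (by positivity) (by positivity) (by positivity)
        (by positivity) (by positivity))
  intro a b c d e f g h ha hb hc hd he hf hg' hh
  have hc' : Continuous fun t : ℝ => onPair rc A B (a + t) b c d (e + t) f g h := by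
    simp only [onPair, lin4, infoPoly, infoCore, pTot, pDif, pSq, pInv, pInf, pCorr, pForm]
    fun_prop
  have hlim : Filter.Tendsto (fun t : ℝ => onPair rc A B (a + t) b c d (e + t) f g h)
      (nhdsWithin 0 (Set.Ioi 0)) (nhds (onPair rc A B a b c d e f g h)) := by
    have := (hc'.tendsto 0).mono_left (nhdsWithin_le_nhds (s := Set.Ioi (0 : ℝ)))
    simpa using this
  refine ge_of_tendsto hlim ?_
  filter_upwards [self_mem_nhdsWithin] with t ht
  have ht' : (0 : ℝ) < t := ht
  exact pos _ _ _ _ _ _ _ _ (by linarith) hb hc hd (by linarith) hf hg' hh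

end Vale.Agent.P154.Four
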