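import Vale.Agent.P154.Four.InfoCertA
import Vale.Agent.P154.Four.InfoCertB

/-!
The certificate is nonnegative on the whole orthant: symmetry reduces every pair of vectors to one
of the pairs of ordering cones.
-/

namespace Vale.Agent.P154.Four

open Vale.Agent.P154 (rc)

section sym

variable (x0 x1 x2 x3 y0 y1 y2 y3 : ℝ)

private lemma core_neg12 (S R u1 u2 u3 v1 v2 v3 s0 s1 s2 s3 q0 q1 q2 q3 : ℝ) :
    infoCore rc S R u1 u2 u3 v1 (-v2) (-v3) s1 s0 s3 s2 q1 q0 q3 q2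
      = infoCore rc S R u1 u2 u3 v1 v2 v3 s0 s1 s2 s3 q0 q1 q2 q3 := by
  simp only [infoCore, pInv, pInf, pCorr, pForm]; ring

private lemma core_neg13 (S R u1 u2 u3 v1 v2 v3 s0 s1 s2 s3 q0 q1 q2 q3 : ℝ) :
    infoCore rc S R u1 u2 u3 (-v1) v2 (-v3) s2 s3 s0 s1 q2 q3 q0 q1
      = infoCore rc S R u1 u2 u3 v1 v2 v3 s0 s1 s2 s3 q0 q1 q2 q3 := by
  simp only [infoCore, pInv, pInf, pCorr, pForm]; ring

private lemma core_axes23 (S R u1 u2 u3 v1 v2 v3 s0 s1 s2 s3 q0 q1 q2 q3 : ℝ) :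
    infoCore rc S R u1 u3 u2 v1 v3 v2 s0 s1 s3 s2 q0 q1 q3 q2
      = infoCore rc S R u1 u2 u3 v1 v2 v3 s0 s1 s2 s3 q0 q1 q2 q3 := by
  simp only [infoCore, pInv, pInf, pCorr, pForm]; ring

private lemma core_cycle (S R u1 u2 u3 v1 v2 v3 s0 s1 s2 s3 q0 q1 q2 q3 : ℝ) :
    infoCore rc S R u2 u3 u1 v2 v3 v1 s0 s2 s3 s1 q0 q2 q3 q1
      = infoCore rc S R u1 u2 u3 v1 v2 v3 s0 s1 s2 s3 q0 q1 q2 q3 := by
  simp only [infoCore, pInv, pInf, pCorr, pForm]; ring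

private lemma core_swap (S R u1 u2 u3 v1 v2 v3 s0 s1 s2 s3 q0 q1 q2 q3 : ℝ) :
    infoCore rc R S v1 v2 v3 u1 u2 u3 s0 s1 s2 s3 q0 q1 q2 q3
      = infoCore rc S R u1 u2 u3 v1 v2 v3 s0 s1 s2 s3 q0 q1 q2 q3 := by
  simp only [infoCore, pInv, pInf, pCorr, pForm]; ring

lemma infoPoly_swap : infoPoly rc y0 y1 y2 y3 x0 x1 x2 x3 = infoPoly rc x0 x1 x2 x3 y0 y1 y2 y3 := by
  rw [infoPoly, infoPoly, core_swap]
  congr 1 <;> (simp only [pTot, pDif, pSq]; ring)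

lemma infoPoly_neg12 :
    infoPoly rc x0 x1 x2 x3 y1 y0 y3 y2 = infoPoly rc x0 x1 x2 x3 y0 y1 y2 y3 := by
  rw [infoPoly, infoPoly]
  refine Eq.trans ?_ (core_neg12 ..)
  congr 1 <;> (simp only [pTot, pDif, pSq]; ring)

lemma infoPoly_neg13 :
    infoPoly rc x0 x1 x2 x3 y2 y3 y0 y1 = infoPoly rc x0 x1 x2 x3 y0 y1 y2 y3 := by
  rw [infoPoly, infoPoly]
  refine Eq.trans ?_ (core_neg13 ..)
  congr 1 <;> (simp only [pTot, pDif, pSq]; ring)

lemma infoPoly_axes23 :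
    infoPoly rc x0 x1 x3 x2 y0 y1 y3 y2 = infoPoly rc x0 x1 x2 x3 y0 y1 y2 y3 := by
  rw [infoPoly, infoPoly]
  refine Eq.trans ?_ (core_axes23 ..)
  congr 1 <;> (simp only [pTot, pDif, pSq]; ring)

lemma infoPoly_cycle :
    infoPoly rc x0 x2 x3 x1 y0 y2 y3 y1 = infoPoly rc x0 x1 x2 x3 y0 y1 y2 y3 := by
  rw [infoPoly, infoPoly]
  refine Eq.trans ?_ (core_cycle ..)
  congr 1 <;> (simp only [pTot, pDif, pSq]; ring)

end sym

section cones

variable {x0 x1 x2 x3 y0 y1 y2 y3 : ℝ}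

/-- A sorted point lies in `A5` or in `A6`. -/
private lemma d0_split {B : Cone4} (h5 : NNPair A5 B) (h6 : NNPair A6 B) : NNPair D0 B := by
  intro a b c d e f g h ha hb hc hd he hf hg hh
  rcases le_total a c with hac | hac
  · refine le_of_le_of_eq (h5 a b (c - a) d e f g h ha hb (by linarith) hd he hf hg hh) ?_
    simp only [onPair]
    congr 1 <;> (simp only [lin4, row0, row1, row2, row3]; push_cast; ring)
  · refine le_of_le_of_eq (h6 (a - c) b c d e f g h (by linarith) hb hc hd he hf hg hh) ?_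
    simp only [onPair]
    congr 1 <;> (simp only [lin4, row0, row1, row2, row3]; push_cast; ring)

/-- A point of `A6` lies in `A7` or in `A8`. -/
private lemma a6_split {B : Cone4} (h7 : NNPair A7 B) (h8 : NNPair A8 B) : NNPair A6 B := by
  intro a b c d e f g h ha hb hc hd he hf hg hh
  rcases le_total a b with hab | hab
  · refine le_of_le_of_eq (h7 a (b - a) c d e f g h ha (by linarith) hc hd he hf hg hh) ?_
    simp only [onPair]
    congr 1 <;> (simp only [lin4, row0, row1, row2, row3]; push_cast; ring)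
  · refine le_of_le_of_eq (h8 (a - b) b c d e f g h (by linarith) hb hc hd he hf hg hh) ?_
    simp only [onPair]
    congr 1 <;> (simp only [lin4, row0, row1, row2, row3]; push_cast; ring)

lemma nn_D0_D0 : NNPair D0 D0 := d0_split nn_A5_D0 nn_A6_D0

lemma nn_D0_B213 : NNPair D0 B213 :=
  d0_split nn_A5_B213 (a6_split nn_A7_B213 nn_A8_B213)

/-- Nonnegativity for a sorted first vector and a second vector whose first entry is largest. -/
private lemma sorted_case (h01 : x1 ≤ x0) (h12 : x2 ≤ x1) (h23 : x3 ≤ x2) (hx : 0 ≤ x3)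
    (g1 : y1 ≤ y0) (g2 : y2 ≤ y0) (g3 : y3 ≤ y0) (k1 : 0 ≤ y1) (k2 : 0 ≤ y2) (k3 : 0 ≤ y3) :
    0 ≤ infoPoly rc x0 x1 x2 x3 y0 y1 y2 y3 := by
  rcases le_total y2 y1 with a | a <;> rcases le_total y3 y2 with b | b <;>
    rcases le_total y3 y1 with c | c
  · refine le_of_le_of_eq (nn_D0_D0 (x0 - x1) (x1 - x2) (x2 - x3) x3 (y0 - y1) (y1 - y2) (y2 - y3)
      y3 ?_ ?_ ?_ hx ?_ ?_ ?_ k3) ?_
    all_goals first
      | linarith
      | (simp only [onPair]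
         congr 1 <;> (simp only [lin4, row0, row1, row2, row3]; push_cast; ring))
  · refine le_of_le_of_eq (nn_D0_D0 (x0 - x1) (x1 - x2) (x2 - x3) x3 (y0 - y1) (y1 - y2) (y2 - y3)
      y3 ?_ ?_ ?_ hx ?_ ?_ ?_ k3) ?_
    all_goals first
      | linarith
      | (simp only [onPair]
         congr 1 <;> (simp only [lin4, row0, row1, row2, row3]; push_cast; ring))
  · refine le_of_le_of_eq (nn_D0_B132 (x0 - x1) (x1 - x2) (x2 - x3) x3 (y0 - y1) (y1 - y3) (y3 - y2)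
      y2 ?_ ?_ ?_ hx ?_ ?_ ?_ k2) ?_
    all_goals first
      | linarith
      | (simp only [onPair]
         congr 1 <;> (simp only [lin4, row0, row1, row2, row3]; push_cast; ring))
  · -- the order `0, 3, 1, 2` is the transpose of `0, 2, 3, 1`
    refine le_of_le_of_eq (nn_D0_B231 (y0 - y3) (y3 - y1) (y1 - y2) y2 (x0 - x1) (x1 - x2)
      (x2 - x3) x3 ?_ ?_ ?_ k2 ?_ ?_ ?_ hx) ?_
    all_goals first
      | linarith
      | (rw [← infoPoly_swap x0 x1 x2 x3 y0 y1 y2 y3, ← infoPoly_cycle y0 y1 y2 y3,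
            ← infoPoly_cycle y0 y2 y3 y1]
         simp only [onPair]
         congr 1 <;> (simp only [lin4, row0, row1, row2, row3]; push_cast; ring))
  · refine le_of_le_of_eq (nn_D0_B213 (x0 - x1) (x1 - x2) (x2 - x3) x3 (y0 - y2) (y2 - y1) (y1 - y3)
      y3 ?_ ?_ ?_ hx ?_ ?_ ?_ k3) ?_
    all_goals first
      | linarith
      | (simp only [onPair]
         congr 1 <;> (simp only [lin4, row0, row1, row2, row3]; push_cast; ring))
  · refine le_of_le_of_eq (nn_D0_B231 (x0 - x1) (x1 - x2) (x2 - x3) x3 (y0 - y2) (y2 - y3) (y3 - y1)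
      y1 ?_ ?_ ?_ hx ?_ ?_ ?_ k1) ?_
    all_goals first
      | linarith
      | (simp only [onPair]
         congr 1 <;> (simp only [lin4, row0, row1, row2, row3]; push_cast; ring))
  · refine le_of_le_of_eq (nn_D0_B321 (x0 - x1) (x1 - x2) (x2 - x3) x3 (y0 - y3) (y3 - y2) (y2 - y1)
      y1 ?_ ?_ ?_ hx ?_ ?_ ?_ k1) ?_
    all_goals first
      | linarith
      | (simp only [onPair]
         congr 1 <;> (simp only [lin4, row0, row1, row2, row3]; push_cast; ring))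
  · refine le_of_le_of_eq (nn_D0_B321 (x0 - x1) (x1 - x2) (x2 - x3) x3 (y0 - y3) (y3 - y2) (y2 - y1)
      y1 ?_ ?_ ?_ hx ?_ ?_ ?_ k1) ?_
    all_goals first
      | linarith
      | (simp only [onPair]
         congr 1 <;> (simp only [lin4, row0, row1, row2, row3]; push_cast; ring))

end cones

/-- A move that puts a largest entry first, keeping the Klein pattern. -/
private lemma move_max (P : ℝ → ℝ → ℝ → ℝ → Prop)
    (k1 : ∀ a b c d, P b a d c → P a b c d) (k2 : ∀ a b c d, P c d a b → P a b c d)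
    (base : ∀ a b c d : ℝ, b ≤ a → c ≤ a → d ≤ a → 0 ≤ b → 0 ≤ c → 0 ≤ d → P a b c d)
    (a b c d : ℝ) (ha : 0 ≤ a) (hb : 0 ≤ b) (hc : 0 ≤ c) (hd : 0 ≤ d) : P a b c d := by
  rcases le_total b a with h1 | h1 <;> rcases le_total d c with h2 | h2
  · rcases le_total c a with h3 | h3
    · exact base _ _ _ _ h1 h3 (h2.trans h3) hb hc hd
    · exact k2 _ _ _ _ (base _ _ _ _ h2 h3 (h1.trans h3) hd ha hb)
  · rcases le_total d a with h3 | h3
    · exact base _ _ _ _ h1 (h2.trans h3) h3 hb hc hd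
    · exact k2 _ _ _ _ (k1 _ _ _ _ (base _ _ _ _ h2 (h1.trans h3) h3 hc hb ha))
  · rcases le_total c b with h3 | h3
    · exact k1 _ _ _ _ (base _ _ _ _ h1 (h2.trans h3) h3 ha hd hc)
    · exact k2 _ _ _ _ (base _ _ _ _ h2 (h1.trans h3) h3 hd ha hb)
  · rcases le_total d b with h3 | h3
    · exact k1 _ _ _ _ (base _ _ _ _ h1 h3 (h2.trans h3) ha hd hc)
    · exact k2 _ _ _ _ (k1 _ _ _ _ (base _ _ _ _ h2 h3 (h1.trans h3) hc hb ha))

/-- The certificate is nonnegative on the orthant. -/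
theorem infoPoly_nonneg {x0 x1 x2 x3 y0 y1 y2 y3 : ℝ} (a0 : 0 ≤ x0) (a1 : 0 ≤ x1) (a2 : 0 ≤ x2)
    (a3 : 0 ≤ x3) (b0 : 0 ≤ y0) (b1 : 0 ≤ y1) (b2 : 0 ≤ y2) (b3 : 0 ≤ y3) :
    0 ≤ infoPoly rc x0 x1 x2 x3 y0 y1 y2 y3 := by
  revert x0 x1 x2 x3
  refine move_max (fun p q r s => ∀ {x0 x1 x2 x3 : ℝ}, 0 ≤ x0 → 0 ≤ x1 → 0 ≤ x2 → 0 ≤ x3 →
    0 ≤ infoPoly rc x0 x1 x2 x3 p q r s) ?_ ?_ ?_ y0 y1 y2 y3 b0 b1 b2 b3
  · intro p q r s h x0 x1 x2 x3 a0 a1 a2 a3
    rw [← infoPoly_neg12]; exact h a0 a1 a2 a3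
  · intro p q r s h x0 x1 x2 x3 a0 a1 a2 a3
    rw [← infoPoly_neg13]; exact h a0 a1 a2 a3
  intro p q r s g1 g2 g3 k1 k2 k3 x0 x1 x2 x3 a0 a1 a2 a3
  refine move_max (fun a b c d => ∀ p q r s : ℝ, q ≤ p → r ≤ p → s ≤ p → 0 ≤ q → 0 ≤ r → 0 ≤ s →
    0 ≤ infoPoly rc a b c d p q r s) ?_ ?_ ?_ x0 x1 x2 x3 a0 a1 a2 a3 p q r s g1 g2 g3 k1 k2 k3
  · intro a b c d h p q r s g1 g2 g3 k1 k2 k3
    rw [← infoPoly_swap, ← infoPoly_neg12, infoPoly_swap]; exact h p q r s g1 g2 g3 k1 k2 k3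
  · intro a b c d h p q r s g1 g2 g3 k1 k2 k3
    rw [← infoPoly_swap, ← infoPoly_neg13, infoPoly_swap]; exact h p q r s g1 g2 g3 k1 k2 k3
  intro a b c d hb hc hd nb nc nd p q r s g1 g2 g3 k1 k2 k3
  -- sort the last three entries of the first vector
  rcases le_total c b with h1 | h1 <;> rcases le_total d c with h2 | h2 <;>
    rcases le_total d b with h3 | h3
  · exact sorted_case hb h1 h2 nd g1 g2 g3 k1 k2 k3
  · exact sorted_case hb h1 h2 nd g1 g2 g3 k1 k2 k3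
  · rw [← infoPoly_axes23]; exact sorted_case hb h3 h2 nc g1 g3 g2 k1 k3 k2
  · rw [← infoPoly_cycle, ← infoPoly_cycle]; exact sorted_case hd h3 h1 nc g3 g1 g2 k3 k1 k2
  · rw [← infoPoly_cycle, ← infoPoly_axes23]; exact sorted_case hc h1 h3 nd g2 g1 g3 k2 k1 k3
  · rw [← infoPoly_cycle]; exact sorted_case hc h2 h3 nb g2 g3 g1 k2 k3 k1
  · rw [← infoPoly_cycle, ← infoPoly_cycle, ← infoPoly_axes23]
    exact sorted_case hd h2 h1 nb g3 g2 g1 k3 k2 k1
  · rw [← infoPoly_cycle, ← infoPoly_cycle, ← infoPoly_axes23]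
    exact sorted_case hd h2 h1 nb g3 g2 g1 k3 k2 k1

end Vale.Agent.P154.Four
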