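import Vale.Agent.P154.Four.InfoOrthant
import Vale.Agent.P154.Four.Relabel

/-!
The information inequality for nonnegative four-state vectors.
-/

namespace Vale.Agent.P154.Four

open Vale.Agent.P154 (rc)
open Filter Topology

/-- The right-hand side of the information inequality, per coset. -/
private noncomputable def rhs (v w : Fin 4 → ℝ) : ℝ :=
  mA v * mS w + mS v * mA w - mF v * mW w - mW v * mF w - (mB v * mA w + mA v * mB w) / 128

/-- The correction attached to a coset. -/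
private noncomputable def corr (v : Fin 4 → ℝ) (a b c d : ℝ) : ℝ :=
  pCorr rc (tot v) (sq v) (quart v) (cub v) (u1 v ^ 2) (u2 v ^ 2) (u3 v ^ 2)
      (tot ![a, b, c, d]) (sq ![a, b, c, d]) (quart ![a, b, c, d]) (cub ![a, b, c, d])
      (u1 ![a, b, c, d] ^ 2) (u2 ![a, b, c, d] ^ 2) (u3 ![a, b, c, d] ^ 2)
    / (345600 * (tot v * tot ![a, b, c, d]) ^ 4)

private lemma core_slack {S R u1 u2 u3 v1 v2 v3 s0 s1 s2 s3 q0 q1 q2 q3 : ℝ}
    (hS : 0 < S) (hR : 0 < R) (h0 : 0 < s0) (h1 : 0 < s1) (h2 : 0 < s2) (h3 : 0 < s3)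
    (h : 0 ≤ infoCore rc S R u1 u2 u3 v1 v2 v3 s0 s1 s2 s3 q0 q1 q2 q3)
    {P Q z U V w : ℝ} (hP : P = u1 * u1 + (u2 * u2 + u3 * u3))
    (hQ : Q = u1 * u1 * (u1 * u1) + (u2 * u2 * (u2 * u2) + u3 * u3 * (u3 * u3)))
    (hz : z = u1 * u2 * u3) (hU : U = v1 * v1 + (v2 * v2 + v3 * v3))
    (hV : V = v1 * v1 * (v1 * v1) + (v2 * v2 * (v2 * v2) + v3 * v3 * (v3 * v3)))
    (hw : w = v1 * v2 * v3) :
    q0 / (3 * s0) + q1 / (3 * s1) + (q2 / (3 * s2) + q3 / (3 * s3)) ≤
      P / (3 * S) * R + S * (U / (3 * R))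
        - pInv rc S P Q z / (150 * S ^ 4) * (pInf rc R U V w / (36 * R ^ 4))
        - pInf rc S P Q z / (36 * S ^ 4) * (pInv rc R U V w / (150 * R ^ 4))
        - (P ^ 2 / (9 * S ^ 3) * (U / (3 * R)) + P / (3 * S) * (U ^ 2 / (9 * R ^ 3))) / 128
        + pCorr rc S P Q z (u1 * u1) (u2 * u2) (u3 * u3) R U V w (v1 * v1) (v2 * v2) (v3 * v3)
            / (345600 * (S * R) ^ 4) := by
  simp only [infoCore, ← hP, ← hQ, ← hz, ← hU, ← hV, ← hw] at h
  generalize pInv rc S P Q z = I at *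
  generalize pInf rc S P Q z = I' at *
  generalize pInv rc R U V w = J at *
  generalize pInf rc R U V w = J' at *
  generalize pCorr rc S P Q z (u1 * u1) (u2 * u2) (u3 * u3) R U V w (v1 * v1) (v2 * v2) (v3 * v3)
    = K at *
  rw [← sub_nonneg]
  refine le_of_le_of_eq
    (div_nonneg h (show 0 ≤ 345600 * (S * R) ^ 4 * (s0 * s1 * (s2 * s3)) by positivity)) ?_
  simp only [rc]
  push_cast
  field_simp
  ring

/-- One coset. -/
private theorem coset {v : Fin 4 → ℝ} (hv : ∀ i, 0 < v i) {a b c d : ℝ} (ha : 0 < a) (hb : 0 < b)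
    (hc : 0 < c) (hd : 0 < d) :
    cosetSum mA v a b c d ≤ rhs v ![a, b, c, d] + corr v a b c d := by
  have h0 := hv 0; have h1 := hv 1; have h2 := hv 2; have h3 := hv 3
  have h := infoPoly_nonneg h0.le h1.le h2.le h3.le ha.le hb.le hc.le hd.le
  rw [infoPoly] at h
  refine le_trans (le_of_eq ?_) (le_trans (core_slack
    (S := pTot (v 0) (v 1) (v 2) (v 3)) (R := pTot a b c d)
    (by simp only [pTot]; positivity) (by simp only [pTot]; positivity)
    (by simp only [pTot]; positivity) (by simp only [pTot]; positivity)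
    (by simp only [pTot]; positivity) (by simp only [pTot]; positivity) h
    (P := sq v) (Q := quart v) (z := cub v) (U := sq ![a, b, c, d]) (V := quart ![a, b, c, d])
    (w := cub ![a, b, c, d]) ?_ ?_ ?_ ?_ ?_ ?_) (le_of_eq ?_))
  · simp [cosetSum, mA, tot, pTot, sq, pSq, pDif, u1, u2, u3]
    ring
  iterate 6
    simp [sq, quart, cub, u1, u2, u3, pDif]
    ring
  · have eS : pTot (v 0) (v 1) (v 2) (v 3) = tot v := by simp only [pTot, tot]; ring
    have eR : pTot a b c d = tot ![a, b, c, d] := by simp [pTot, tot]; ring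
    have x1 : pDif rc (v 0) (v 1) (v 2) (v 3) = u1 v := by simp [pDif, u1]; ring
    have x2 : pDif rc (v 0) (v 2) (v 1) (v 3) = u2 v := by simp [pDif, u2]; ring
    have x3 : pDif rc (v 0) (v 3) (v 1) (v 2) = u3 v := by simp [pDif, u3]; ring
    have y1 : pDif rc a b c d = u1 ![a, b, c, d] := by simp [pDif, u1]; ring
    have y2 : pDif rc a c b d = u2 ![a, b, c, d] := by simp [pDif, u2]; ring
    have y3 : pDif rc a d b c = u3 ![a, b, c, d] := by simp [pDif, u3]; ring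
    have i1 : ∀ z : Fin 4 → ℝ, pInv rc (tot z) (sq z) (quart z) (cub z) = invNum z := fun z => by
      simp only [pInv, invNum, rc]; push_cast; ring
    have i2 : ∀ z : Fin 4 → ℝ, pInf rc (tot z) (sq z) (quart z) (cub z) = infNum z := fun z => by
      simp only [pInf, infNum, rc]; push_cast; ring
    simp only [eS, eR, x1, x2, x3, y1, y2, y3, i1, i2, rhs, corr, mA, mS, mB, mF, mW, ← pow_two]

/-- The correction cancels over the six cosets. -/
private lemma corr_sum (v : Fin 4 → ℝ) (a b c d : ℝ) :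
    corr v a b c d + corr v a b d c + corr v a c b d + corr v a c d b + corr v a d b c
      + corr v a d c b = 0 := by
  obtain ⟨⟨t1, p1, z1, Q1⟩, ⟨t2, p2, z2, Q2⟩, ⟨t3, p3, z3, Q3⟩, ⟨t4, p4, z4, Q4⟩,
    ⟨t5, p5, z5, Q5⟩⟩ := moments_perms4 a b c d
  obtain ⟨⟨a1, b1, c1⟩, ⟨a2, b2, c2⟩, ⟨a3, b3, c3⟩, ⟨a4, b4, c4⟩, ⟨a5, b5, c5⟩⟩ :=
    fourier_perms a b c d
  simp only [corr, t1, t2, t3, t4, t5, p1, p2, p3, p4, p5, z1, z2, z3, z4, z5, Q1, Q2, Q3, Q4, Q5,
    a1, a2, a3, a4, a5, b1, b2, b3, b4, b5, c1, c2, c3, c4, c5, ← add_div]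
  refine div_eq_zero_iff.mpr (Or.inl ?_)
  have eP : sq v = u1 v ^ 2 + u2 v ^ 2 + u3 v ^ 2 := rfl
  have eQ : quart v = u1 v ^ 4 + u2 v ^ 4 + u3 v ^ 4 := rfl
  have eU : sq ![a, b, c, d] = u1 ![a, b, c, d] ^ 2 + u2 ![a, b, c, d] ^ 2
      + u3 ![a, b, c, d] ^ 2 := rfl
  have eV : quart ![a, b, c, d] = u1 ![a, b, c, d] ^ 4 + u2 ![a, b, c, d] ^ 4
      + u3 ![a, b, c, d] ^ 4 := rfl
  simp only [pCorr, pForm, eP, eQ, eU, eV, rc]
  push_cast
  ring

private lemma rhs_perm {v w w' : Fin 4 → ℝ}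
    (h : tot w' = tot w ∧ sq w' = sq w ∧ cub w' = cub w ∧ quart w' = quart w) :
    rhs v w' = rhs v w := by
  obtain ⟨t, p, z, q⟩ := h
  simp only [rhs, mA, mS, mF, mW, mB, invNum, infNum, t, p, z, q]

/-- The inequality for positive vectors. -/
private theorem info_pos {v w : Fin 4 → ℝ} (hv : ∀ i, 0 < v i) (hw : ∀ i, 0 < w i) :
    relabels mA v w ≤ 6 * rhs v w := by
  have c0 := coset hv (hw 0) (hw 1) (hw 2) (hw 3)
  have c1 := coset hv (hw 0) (hw 1) (hw 3) (hw 2)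
  have c2 := coset hv (hw 0) (hw 2) (hw 1) (hw 3)
  have c3 := coset hv (hw 0) (hw 2) (hw 3) (hw 1)
  have c4 := coset hv (hw 0) (hw 3) (hw 1) (hw 2)
  have c5 := coset hv (hw 0) (hw 3) (hw 2) (hw 1)
  obtain ⟨m1, m2, m3, m4, m5⟩ := moments_perms4 (w 0) (w 1) (w 2) (w 3)
  have e : (![w 0, w 1, w 2, w 3] : Fin 4 → ℝ) = w := by funext i; fin_cases i <;> rfl
  rw [rhs_perm m1] at c1; rw [rhs_perm m2] at c2; rw [rhs_perm m3] at c3
  rw [rhs_perm m4] at c4; rw [rhs_perm m5] at c5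
  rw [e] at c0 c1 c2 c3 c4 c5
  rw [relabels_eq_cosets]
  linarith [corr_sum v (w 0) (w 1) (w 2) (w 3)]

/-- The information inequality. -/
theorem infoPoint : InfoPoint := by
  intro v w hv hw
  have nv : ∀ t : ℝ, 0 ≤ t → ∀ i, 0 ≤ v i + t := fun t ht i => add_nonneg (hv i) ht
  have nw : ∀ t : ℝ, 0 ≤ t → ∀ i, 0 ≤ w i + t := fun t ht i => add_nonneg (hw i) ht
  set fv : ℝ → Fin 4 → ℝ := fun t i => v i + t with hfv
  set fw : ℝ → Fin 4 → ℝ := fun t i => w i + t with hfw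
  have cv : Continuous fv := by rw [hfv]; fun_prop
  have cw : Continuous fw := by rw [hfw]; fun_prop
  have key := le_of_tendsto_of_tendsto (tendsto_relabels tendsto_mA hv hw)
    ((((((tendsto_mA fv cv nv).mul (tendsto_mS fw cw nw)).add
      ((tendsto_mS fv cv nv).mul (tendsto_mA fw cw nw))).sub
      ((tendsto_mF fv cv nv).mul (tendsto_mW fw cw nw))).sub
      ((tendsto_mW fv cv nv).mul (tendsto_mF fw cw nw))).sub
      ((((tendsto_mB fv cv nv).mul (tendsto_mA fw cw nw)).add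
        ((tendsto_mA fv cv nv).mul (tendsto_mB fw cw nw))).div_const 128) |>.const_mul 6) (by
      filter_upwards [self_mem_nhdsWithin] with t ht
      have ht' : (0 : ℝ) < t := ht
      exact info_pos (fun i => add_pos_of_nonneg_of_pos (hv i) ht')
        (fun i => add_pos_of_nonneg_of_pos (hw i) ht'))
  simpa [hfv, hfw] using key

end Vale.Agent.P154.Four
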