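import Vale.Agent.P154.Four.Part
import Vale.Agent.P154.Cert

/-!
The polynomial certificate behind the information inequality: one coset of the Klein group, with
an axis correction that averages to zero over the six cosets.
-/

namespace Vale.Agent.P154.Four

open Vale.Agent.P154

section generic

variable {α : Type} [Add α] [Mul α] (k : ℤ → α)

/-- Total of four entries. -/
def pTot (a b c d : α) : α := (a + b) + (c + d)
/-- Difference of two pair sums. -/
def pDif (a b c d : α) : α := (a + b) + k (-1) * (c + d)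
/-- Squared length of the Fourier coordinates. -/
def pSq (a b c d : α) : α :=
  let x := pDif k a b c d
  let y := pDif k a c b d
  let z := pDif k a d b c
  x * x + (y * y + z * z)
/-- Quintic numerator of the invariant. -/
def pInv (S P Q z : α) : α :=
  k 150 * (z * (S * S)) + (k (-22) * (P * P * S) + (k 5 * (Q * S) + k 21 * (P * z)))
/-- Quintic numerator of the information weight. -/
def pInf (S P Q z : α) : α :=
  k 48 * (P * (S * S * S)) + (k (-36) * (z * (S * S))
    + (k (-23) * (P * P * S) + (k 24 * (Q * S) + k 18 * (P * z))))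
/-- One axis of the correction form. -/
def pForm (f1 f2 f3 f4 g1 g2 g3 g4 : α) : α :=
  f1 * (k (-115200) * g1 + k 47640 * g2 + k (-8125) * g3 + k (-14248) * g4)
    + (f2 * (k 47640 * g1 + k (-226611) * g2 + k 213037 * g3 + k 2142 * g4)
    + (f3 * (k (-8125) * g1 + k 213037 * g2 + k (-227986) * g3 + k (-67722) * g4)
    + f4 * (k (-14248) * g1 + k 2142 * g2 + k (-67722) * g3 + k 564844 * g4)))
/-- The correction: axiswise minus the average. -/
def pCorr (S P Q z a b c R U V w p q r : α) : α :=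
  let S3 := S * S * S
  let R3 := R * R * R
  let PS := P * S
  let UR := U * R
  k 3 * (pForm k (a * S3) (a * PS) (a * a * S) (a * z) (p * R3) (p * UR) (p * p * R) (p * w)
      + pForm k (b * S3) (b * PS) (b * b * S) (b * z) (q * R3) (q * UR) (q * q * R) (q * w)
      + pForm k (c * S3) (c * PS) (c * c * S) (c * z) (r * R3) (r * UR) (r * r * R) (r * w))
    + k (-1) * pForm k (P * S3) (P * PS) (Q * S) (P * z) (U * R3) (U * UR) (V * R) (U * w)

/-- `345600 (S R)^4 ∏ s_k` times the slack of the coset inequality, in the totals `S`, `R`, the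
Fourier coordinates, and the totals and squared lengths of the four relabelled products. -/
def infoCore (S R u1 u2 u3 v1 v2 v3 s0 s1 s2 s3 q0 q1 q2 q3 : α) : α :=
  let a := u1 * u1
  let b := u2 * u2
  let c := u3 * u3
  let p := v1 * v1
  let q := v2 * v2
  let r := v3 * v3
  let P := a + (b + c)
  let U := p + (q + r)
  let Q := a * a + (b * b + c * c)
  let V := p * p + (q * q + r * r)
  let z := u1 * u2 * u3
  let w := v1 * v2 * v3
  let S2 := S * S
  let R2 := R * R
  let R3 := R2 * R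
  let S3 := S2 * S
  (k 115200 * ((P * S3) * (R3 * R2) + (S3 * S2) * (U * R3))
      + (k (-64) * (pInv k S P Q z * pInf k R U V w + pInf k S P Q z * pInv k R U V w)
      + (k (-100) * ((P * P * S) * (U * R3) + (P * S3) * (U * U * R))
      + pCorr k S P Q z a b c R U V w p q r))) * (s0 * s1 * (s2 * s3))
    + k (-115200) * (((S2 * S2) * (R2 * R2))
        * ((q0 * s1 + q1 * s0) * (s2 * s3) + s0 * s1 * (q2 * s3 + q3 * s2)))

/-- The slack as a function of two vectors. -/
def infoPoly (x0 x1 x2 x3 y0 y1 y2 y3 : α) : α :=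
  infoCore k (pTot x0 x1 x2 x3) (pTot y0 y1 y2 y3) (pDif k x0 x1 x2 x3) (pDif k x0 x2 x1 x3)
    (pDif k x0 x3 x1 x2) (pDif k y0 y1 y2 y3) (pDif k y0 y2 y1 y3) (pDif k y0 y3 y1 y2)
    (pTot (x0 * y0) (x1 * y1) (x2 * y2) (x3 * y3)) (pTot (x0 * y1) (x1 * y0) (x2 * y3) (x3 * y2))
    (pTot (x0 * y2) (x1 * y3) (x2 * y0) (x3 * y1)) (pTot (x0 * y3) (x1 * y2) (x2 * y1) (x3 * y0))
    (pSq k (x0 * y0) (x1 * y1) (x2 * y2) (x3 * y3)) (pSq k (x0 * y1) (x1 * y0) (x2 * y3) (x3 * y2))
    (pSq k (x0 * y2) (x1 * y3) (x2 * y0) (x3 * y1)) (pSq k (x0 * y3) (x1 * y2) (x2 * y1) (x3 * y0))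

end generic

/-- An integer vector. -/
abbrev Vec := ℤ × ℤ × ℤ × ℤ
/-- Four generators. -/
abbrev Cone4 := Vec × Vec × Vec × Vec

section cone
variable {α : Type} [Add α] [Mul α] (k : ℤ → α)

/-- One coordinate of a point of a cone. -/
def lin4 (a b c d : α) (g : Vec) : α := k g.1 * a + (k g.2.1 * b + (k g.2.2.1 * c + k g.2.2.2 * d))

/-- The coordinates of the generators, one coordinate at a time. -/
def row0 (A : Cone4) : Vec := (A.1.1, A.2.1.1, A.2.2.1.1, A.2.2.2.1)
/-- Second coordinates. -/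
def row1 (A : Cone4) : Vec := (A.1.2.1, A.2.1.2.1, A.2.2.1.2.1, A.2.2.2.2.1)
/-- Third coordinates. -/
def row2 (A : Cone4) : Vec := (A.1.2.2.1, A.2.1.2.2.1, A.2.2.1.2.2.1, A.2.2.2.2.2.1)
/-- Fourth coordinates. -/
def row3 (A : Cone4) : Vec := (A.1.2.2.2, A.2.1.2.2.2, A.2.2.1.2.2.2, A.2.2.2.2.2.2)

/-- The certificate on two cones. -/
def onPair (A B : Cone4) (a b c d e f g h : α) : α :=
  infoPoly k (lin4 k a b c d (row0 A)) (lin4 k a b c d (row1 A)) (lin4 k a b c d (row2 A))
    (lin4 k a b c d (row3 A)) (lin4 k e f g h (row0 B)) (lin4 k e f g h (row1 B))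
    (lin4 k e f g h (row2 B)) (lin4 k e f g h (row3 B))

end cone

/-- The expression on two cones, first coefficient one on each. -/
def exPair (A B : Cone4) : Ex :=
  onPair Ex.c A B (.c 1) (.x 3) (.x 4) (.x 5) (.c 1) (.x 0) (.x 1) (.x 2)

/-- The partially evaluated coefficients, computed directly. -/
noncomputable def packInfo (bits D : ℕ) (A B : Cone4) : Mask.Tri :=
  onPair (fun z : ℤ => Mask.Tri.num z) A B (.num 1)
    (.pol (Pol.var 3 0)) (.pol (Pol.var 3 1)) (.pol (Pol.var 3 2)) (.num 1)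
    (.num (Pol.base bits D 0)) (.num (Pol.base bits D 1)) (.num (Pol.base bits D 2))

/-- The degree and coefficient bound, computed directly. -/
noncomputable def sizeInfo (A B : Cone4) : Mask.Size :=
  onPair Mask.Size.num A B (Mask.Size.num 1) ⟨1, 0, 1⟩ ⟨1, 0, 1⟩ ⟨1, 0, 1⟩ (Mask.Size.num 1)
    ⟨1, 1, 0⟩ ⟨1, 1, 0⟩ ⟨1, 1, 0⟩

set_option maxRecDepth 4000 in
lemma valTri_exPair (bits D : ℕ) (A B : Cone4) :
    Mask.valTri bits D (exPair A B) = packInfo bits D A B := rfl

set_option maxRecDepth 4000 in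
lemma valSize_exPair (A B : Cone4) : Mask.valSize (exPair A B) = sizeInfo A B := rfl

end Vale.Agent.P154.Four
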