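import Vale.Agent.P154.Four.Moments
import Mathlib.Data.Fin.Tuple.Sort
import Mathlib.Tactic

/-!
Nonnegativity of the two weights.

Both numerators are symmetric, so the entries may be assumed decreasing; in the coordinates given
by consecutive differences the information weight has nonnegative coefficients, and the closure
weight does after removing seven nonnegative binary quadratic forms.
-/

namespace Vale.Agent.P154.Four

open Equiv

private lemma quad_nonneg {a b c : ℝ} (ha : 0 < a) (h : b ^ 2 ≤ 4 * a * c) (x y : ℝ) :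
    0 ≤ a * x ^ 2 - b * x * y + c * y ^ 2 := by
  have e : 4 * a * (a * x ^ 2 - b * x * y + c * y ^ 2) =
      (2 * a * x - b * y) ^ 2 + (4 * a * c - b ^ 2) * y ^ 2 := by ring
  refine nonneg_of_mul_nonneg_right (e ▸ ?_) (by positivity : 0 < 4 * a)
  exact add_nonneg (sq_nonneg _) (mul_nonneg (by linarith) (sq_nonneg _))

private def steps (a b c d : ℝ) : Fin 4 → ℝ := ![a + b + c + d, b + c + d, c + d, d]

private lemma infNum_steps {a b c d : ℝ} (ha : 0 ≤ a) (hb : 0 ≤ b) (hc : 0 ≤ c) (hd : 0 ≤ d) :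
    0 ≤ infNum (steps a b c d) := by
  have e : infNum (steps a b c d) =
      9216 * (c ^ 2 * d ^ 3) + 21312 * (c ^ 3 * d ^ 2) + 15876 * (c ^ 4 * d) + 3753 * (c ^ 5) + 12288 * (b * c * d ^ 3) + 42624 * (b * c ^ 2 * d ^ 2) + 42336 * (b * c ^ 3 * d) + 12510 * (b * c ^ 4) + 12288 * (b ^ 2 * d ^ 3) + 46080 * (b ^ 2 * c * d ^ 2) + 55072 * (b ^ 2 * c ^ 2 * d) + 19776 * (b ^ 2 * c ^ 3) + 18432 * (b ^ 3 * d ^ 2) + 36992 * (b ^ 3 * c * d) + 17984 * (b ^ 3 * c ^ 2) + 9280 * (b ^ 4 * d) + 8560 * (b ^ 4 * c) + 1568 * (b ^ 5) + 6144 * (a * c * d ^ 3) + 21312 * (a * c ^ 2 * d ^ 2) + 21168 * (a * c ^ 3 * d) + 6255 * (a * c ^ 4) + 12288 * (a * b * d ^ 3) + 46080 * (a * b * c * d ^ 2) + 55072 * (a * b * c ^ 2 * d) + 19776 * (a * b * c ^ 3) + 27648 * (a * b ^ 2 * d ^ 2) + 55488 * (a * b ^ 2 * c * d) + 26976 * (a * b ^ 2 * c ^ 2) + 18560 * (a * b ^ 3 * d) + 17120 * (a * b ^ 3 * c) + 3920 * (a * b ^ 4) + 9216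 * (a ^ 2 * d ^ 3) + 24768 * (a ^ 2 * c * d ^ 2) + 23320 * (a ^ 2 * c ^ 2 * d) + 7266 * (a ^ 2 * c ^ 3) + 21888 * (a ^ 2 * b * d ^ 2) + 37792 * (a ^ 2 * b * c * d) + 16620 * (a ^ 2 * b * c ^ 2) + 15904 * (a ^ 2 * b ^ 2 * d) + 13664 * (a ^ 2 * b ^ 2 * c) + 3808 * (a ^ 2 * b ^ 3) + 6336 * (a ^ 3 * d ^ 2) + 9648 * (a ^ 3 * c * d) + 3814 * (a ^ 3 * c ^ 2) + 6624 * (a ^ 3 * b * d) + 5104 * (a ^ 3 * b * c) + 1792 * (a ^ 3 * b ^ 2) + 900 * (a ^ 4 * d) + 645 * (a ^ 4 * c) + 390 * (a ^ 4 * b) + 27 * (a ^ 5) := by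
    simp [infNum, tot, sq, cub, quart, u1, u2, u3, steps]
    ring
  rw [e]
  positivity

private lemma cloNum_steps {a b c d : ℝ} (ha : 0 ≤ a) (hb : 0 ≤ b) (hc : 0 ≤ c) (hd : 0 ≤ d) :
    0 ≤ cloNum (steps a b c d) := by
  have q0 := mul_nonneg (sq_nonneg a) (mul_nonneg hd (quad_nonneg (a := (94 / 1 : ℝ)) (b := 2112) (c := 11904) (by norm_num) (by norm_num) a d))
  have q1 := mul_nonneg (sq_nonneg a) (mul_nonneg hd (quad_nonneg (a := (23 / 2 : ℝ)) (b := 815) (c := 14472) (by norm_num) (by norm_num) a c))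
  have q2 := mul_nonneg (sq_nonneg a) (mul_nonneg hc (quad_nonneg (a := (40 / 1 : ℝ)) (b := 1857) (c := 21696) (by norm_num) (by norm_num) a d))
  have q3 := mul_nonneg (sq_nonneg a) (mul_nonneg hc (quad_nonneg (a := (32 / 1 : ℝ)) (b := 324) (c := 4444) (by norm_num) (by norm_num) a c))
  have q4 := mul_nonneg (sq_nonneg a) (mul_nonneg hb (quad_nonneg (a := (30 / 1 : ℝ)) (b := 960) (c := 7680) (by norm_num) (by norm_num) a d))
  have q5 := mul_nonneg (sq_nonneg a) (mul_nonneg hd (quad_nonneg (a := (5 / 2 : ℝ)) (b := 160) (c := 2784) (by norm_num) (by norm_num) a b))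
  have q6 := mul_nonneg (sq_nonneg a) (mul_nonneg hb (quad_nonneg (a := (6 / 1 : ℝ)) (b := 180) (c := 6180) (by norm_num) (by norm_num) a c))
  have e : cloNum (steps a b c d) =
      a ^ 2 * (d * (94 * a ^ 2 - 2112 * a * d + 11904 * d ^ 2)) + a ^ 2 * (d * ((23 / 2) * a ^ 2 - 815 * a * c + 14472 * c ^ 2)) + a ^ 2 * (c * (40 * a ^ 2 - 1857 * a * d + 21696 * d ^ 2)) + a ^ 2 * (c * (32 * a ^ 2 - 324 * a * c + 4444 * c ^ 2)) + a ^ 2 * (b * (30 * a ^ 2 - 960 * a * d + 7680 * d ^ 2)) + a ^ 2 * (d * ((5 / 2) * a ^ 2 - 160 * a * b + 2784 * b ^ 2)) + a ^ 2 * (b * (6 * a ^ 2 - 180 * a * c + 6180 * c ^ 2))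
        + (30720 * (d ^ 5) + 115200 * (c * d ^ 4) + 165504 * (c ^ 2 * d ^ 3) + 114624 * (c ^ 3 * d ^ 2) + 40044 * (c ^ 4 * d) + 6444 * (c ^ 5) + 76800 * (b * d ^ 4) + 220672 * (b * c * d ^ 3) + 229248 * (b * c ^ 2 * d ^ 2) + 106784 * (b * c ^ 3 * d) + 21480 * (b * c ^ 4) + 67072 * (b ^ 2 * d ^ 3) + 136320 * (b ^ 2 * c * d ^ 2) + 94560 * (b ^ 2 * c ^ 2 * d) + 25924 * (b ^ 2 * c ^ 3) + 23808 * (b ^ 3 * d ^ 2) + 31616 * (b ^ 3 * c * d) + 13656 * (b ^ 3 * c ^ 2) + 3904 * (b ^ 4 * d) + 3312 * (b ^ 4 * c) + 544 * (b ^ 5) + 38400 * (a * d ^ 4) + 110336 * (a * c * d ^ 3) + 114624 * (a * c ^ 2 * d ^ 2) + 53392 * (a * c ^ 3 * d) + 10740 * (a * c ^ 4) + 67072 * (a * b * d ^ 3) + 136320 * (a * b * c * d ^ 2) + 94560 * (a * b * c ^ 2 * d) + 25924 * (a * b * c ^ 3) + 35712 * (a * b ^ 2 * d ^ 2) + 47424 * (a * b ^ 2 * c * d) + 20484 * (a * b ^ 2 * c ^ 2) + 7808 * (a * b ^ 3 * d) + 6624 * (a * b ^ 3 * c)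 + 1360 * (a * b ^ 4) + 10464 * (a ^ 2 * b * c * d) + 3132 * (a ^ 2 * b ^ 2 * c) + 1160 * (a ^ 2 * b ^ 3) + 380 * (a ^ 3 * b ^ 2)) := by
    simp [cloNum, tot, sq, cub, quart, u1, u2, u3, steps]
    ring
  rw [e]
  refine add_nonneg ?_ (by positivity)
  linarith

private lemma sq_comp_swap (i j : Fin 4) (v : Fin 4 → ℝ) :
    tot (v ∘ swap i j) = tot v ∧ sq (v ∘ swap i j) = sq v ∧ cub (v ∘ swap i j) = cub v ∧
      quart (v ∘ swap i j) = quart v := by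
  fin_cases i <;> fin_cases j <;> simp [tot, sq, cub, quart, u1, u2, u3, swap_apply_def] <;>
    refine ⟨?_, ?_, ?_, ?_⟩ <;> ring

private lemma moments_comp_perm (σ : Perm (Fin 4)) : ∀ v : Fin 4 → ℝ,
    tot (v ∘ σ) = tot v ∧ sq (v ∘ σ) = sq v ∧ cub (v ∘ σ) = cub v ∧ quart (v ∘ σ) = quart v := by
  induction σ using Perm.swap_induction_on with
  | one => intro v; simp
  | swap_mul f x y _ ih =>
    intro v
    obtain ⟨a1, a2, a3, a4⟩ := ih (v ∘ swap x y)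
    obtain ⟨b1, b2, b3, b4⟩ := sq_comp_swap x y v
    rw [Perm.coe_mul, ← Function.comp_assoc]
    exact ⟨a1.trans b1, a2.trans b2, a3.trans b3, a4.trans b4⟩

/-- Both numerators of the weights are nonnegative on the nonnegative orthant. -/
lemma weightNum_nonneg (v : Fin 4 → ℝ) (hv : ∀ i, 0 ≤ v i) : 0 ≤ cloNum v ∧ 0 ≤ infNum v := by
  set σ := Tuple.sort (fun i => -v i)
  set w := v ∘ σ with hw
  have hm : ∀ i j, i ≤ j → w j ≤ w i := fun i j hij => by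
    have := Tuple.monotone_sort (fun i => -v i) hij
    simpa [hw] using this
  have h01 := hm 0 1 (by decide); have h12 := hm 1 2 (by decide); have h23 := hm 2 3 (by decide)
  have h3 : 0 ≤ w 3 := hv _
  have e : w = steps (w 0 - w 1) (w 1 - w 2) (w 2 - w 3) (w 3) := by
    funext i; fin_cases i <;> simp [steps]
  obtain ⟨t1, t2, t3, t4⟩ := moments_comp_perm σ v
  have hc : cloNum w = cloNum v := by simp only [cloNum, hw, t1, t2, t3, t4]
  have hi : infNum w = infNum v := by simp only [infNum, hw, t1, t2, t3, t4]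
  rw [← hc, ← hi, e]
  exact ⟨cloNum_steps (by linarith) (by linarith) (by linarith) h3,
    infNum_steps (by linarith) (by linarith) (by linarith) h3⟩

/-- The weights are nonnegative. -/
theorem weightPoint : WeightPoint := fun v hv => by
  obtain ⟨hc, hi⟩ := weightNum_nonneg v hv
  have ht : 0 ≤ tot v := by unfold tot; linarith [hv 0, hv 1, hv 2, hv 3]
  exact ⟨div_nonneg hc (by positivity), div_nonneg hi (by positivity)⟩

end Vale.Agent.P154.Four
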