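import Vale.Agent.P154.Four.KS
import Vale.Agent.P154.Four.Weight

/-!
The moment functions of `Moments` form a certificate as soon as the two pointwise inequalities
hold.
-/

namespace Vale.Agent.P154.Four

section
variable {v : Fin 4 → ℝ}

lemma abs_cub_le (hv : ∀ i, 0 ≤ v i) : |cub v| ≤ sq v * tot v / 3 := by
  have hP := sq_le hv
  have h0 := sq_nonneg' v
  have hS := tot_nonneg hv
  have key : ∀ a b c : ℝ, 0 ≤ a → 0 ≤ b → 0 ≤ c → 27 * (a * b * c) ≤ (a + b + c) ^ 3 := by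
    intro a b c ha hb hc
    nlinarith [mul_nonneg ha (sq_nonneg (b - c)), mul_nonneg hb (sq_nonneg (a - c)),
      mul_nonneg hc (sq_nonneg (a - b)), mul_nonneg (add_nonneg (add_nonneg ha hb) hc)
        (add_nonneg (add_nonneg (sq_nonneg (a - b)) (sq_nonneg (b - c))) (sq_nonneg (a - c)))]
  have h2 : 27 * cub v ^ 2 ≤ sq v ^ 3 := by
    have h := key (u1 v ^ 2) (u2 v ^ 2) (u3 v ^ 2) (sq_nonneg _) (sq_nonneg _) (sq_nonneg _)
    have e : u1 v ^ 2 * u2 v ^ 2 * u3 v ^ 2 = cub v ^ 2 := by simp only [cub]; ring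
    rw [e] at h
    exact h
  refine abs_le_of_sq_le_sq ?_ (by positivity)
  have h3 : sq v ^ 3 ≤ sq v ^ 2 * (3 * tot v ^ 2) := by
    rw [pow_succ]; exact mul_le_mul_of_nonneg_left hP (sq_nonneg _)
  rw [div_pow, mul_pow]
  linarith

lemma quart_le_sq (v : Fin 4 → ℝ) : quart v ≤ sq v ^ 2 := by
  simp only [quart, sq]
  nlinarith [mul_nonneg (sq_nonneg (u1 v)) (sq_nonneg (u2 v)),
    mul_nonneg (sq_nonneg (u1 v)) (sq_nonneg (u3 v)),
    mul_nonneg (sq_nonneg (u2 v)) (sq_nonneg (u3 v))]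

lemma term_bounds (hv : ∀ i, 0 ≤ v i) :
    (0 ≤ sq v * tot v ^ 3 ∧ sq v * tot v ^ 3 ≤ 3 * tot v ^ 5) ∧
    |cub v * tot v ^ 2| ≤ tot v ^ 5 ∧
    (0 ≤ sq v ^ 2 * tot v ∧ sq v ^ 2 * tot v ≤ 9 * tot v ^ 5) ∧
    (0 ≤ quart v * tot v ∧ quart v * tot v ≤ 9 * tot v ^ 5) ∧
    |sq v * cub v| ≤ 3 * tot v ^ 5 := by
  have hS := tot_nonneg hv
  have hP := sq_le hv
  have h0 := sq_nonneg' v
  have hz : |cub v| ≤ tot v ^ 3 := by
    have := mul_le_mul_of_nonneg_right hP hS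
    linarith [abs_cub_le hv, pow_succ (tot v) 2]
  have hP2 : sq v ^ 2 ≤ 9 * tot v ^ 4 := by
    calc sq v ^ 2 ≤ (3 * tot v ^ 2) ^ 2 := pow_le_pow_left₀ h0 hP 2
      _ = 9 * tot v ^ 4 := by ring
  have hQ0 : 0 ≤ quart v := by simp only [quart]; positivity
  refine ⟨⟨by positivity, ?_⟩, ?_, ⟨by positivity, ?_⟩, ⟨by positivity, ?_⟩, ?_⟩
  · linarith [mul_le_mul_of_nonneg_right hP (pow_nonneg hS 3)]
  · rw [abs_mul, abs_of_nonneg (sq_nonneg (tot v))]
    linarith [mul_le_mul_of_nonneg_right hz (sq_nonneg (tot v))]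
  · linarith [mul_le_mul_of_nonneg_right hP2 hS]
  · linarith [mul_le_mul_of_nonneg_right ((quart_le_sq v).trans hP2) hS]
  · rw [abs_mul, abs_of_nonneg h0]
    calc sq v * |cub v| ≤ (3 * tot v ^ 2) * tot v ^ 3 :=
          mul_le_mul hP hz (abs_nonneg _) (by positivity)
      _ = 3 * tot v ^ 5 := by ring

lemma dom_of_num {N : (Fin 4 → ℝ) → ℝ} {k C : ℝ} (hk : 0 < k)
    (h : ∀ v : Fin 4 → ℝ, (∀ i, 0 ≤ v i) → |N v| ≤ C * k * tot v ^ 5) :
    Dom (fun v => N v / (k * tot v ^ 4)) C := fun v hv => by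
  rcases eq_or_lt_of_le (tot_nonneg hv) with h0 | h0
  · simp [← h0]
  · rw [abs_div, abs_of_pos (show 0 < k * tot v ^ 4 by positivity), div_le_iff₀ (by positivity)]
    exact le_of_le_of_eq (h v hv) (by ring)

lemma dom_mF : Dom mF 4 := dom_of_num (by norm_num) fun v hv => by
  obtain ⟨-, h2, ⟨h3, h3'⟩, ⟨h4, h4'⟩, h5⟩ := term_bounds hv
  rw [abs_le] at h2 h5 ⊢
  simp only [invNum]
  have := pow_nonneg (tot_nonneg hv) 5
  constructor <;> linarith

lemma dom_mP : Dom mP 41 := dom_of_num (by norm_num) fun v hv => by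
  obtain ⟨⟨h1, h1'⟩, h2, ⟨h3, h3'⟩, ⟨h4, h4'⟩, h5⟩ := term_bounds hv
  rw [abs_le] at h2 h5 ⊢
  simp only [cloNum]
  have := pow_nonneg (tot_nonneg hv) 5
  constructor <;> linarith

lemma dom_mW : Dom mW 19 := dom_of_num (by norm_num) fun v hv => by
  obtain ⟨⟨h1, h1'⟩, h2, ⟨h3, h3'⟩, ⟨h4, h4'⟩, h5⟩ := term_bounds hv
  rw [abs_le] at h2 h5 ⊢
  simp only [infNum]
  have := pow_nonneg (tot_nonneg hv) 5
  constructor <;> linarith

end

lemma invNum_smul (c : ℝ) (v : Fin 4 → ℝ) : invNum (fun i => c * v i) = c ^ 5 * invNum v := by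
  simp only [invNum, tot, sq, cub, quart, u1, u2, u3]; ring

lemma invNum_shiftVec (l : ℝ) (v : Fin 4 → ℝ) : invNum (shiftVec l v) =
    150 * (l ^ 3 * cub v) * tot v ^ 2 + l ^ 4 * (-22 * sq v ^ 2 + 5 * quart v) * tot v
      + 21 * l ^ 5 * (sq v * cub v) := by
  simp only [invNum, shiftVec, tot, sq, cub, quart, u1, u2, u3]; ring

lemma mF_shiftVec {l : ℝ} (h0 : 0 ≤ l) (h1 : l ≤ 1) {v : Fin 4 → ℝ} (hv : ∀ i, 0 ≤ v i) :
    l ^ 3 * mF v ≤ mF (shiftVec l v) := by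
  rw [mF, mF, (shiftVec_moments l v).1, ← mul_div_assoc, invNum_shiftVec]
  refine div_le_div_of_nonneg_right ?_ (by positivity)
  have hS := tot_nonneg hv
  have hP0 := sq_nonneg' v
  have hz := abs_le.mp (abs_cub_le hv)
  have hQ := mul_le_mul_of_nonneg_right (quart_le_sq v) hS
  have hPz : 3 * (sq v * cub v) ≤ sq v ^ 2 * tot v := by
    linarith [mul_le_mul_of_nonneg_left hz.2 hP0]
  have h2 : 0 ≤ sq v ^ 2 * tot v := by positivity
  have hPz' : (1 + l) * (21 * (sq v * cub v)) ≤ 14 * (sq v ^ 2 * tot v) :=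
    calc (1 + l) * (21 * (sq v * cub v)) ≤ (1 + l) * (7 * (sq v ^ 2 * tot v)) :=
          mul_le_mul_of_nonneg_left (by linarith) (by linarith)
      _ ≤ 2 * (7 * (sq v ^ 2 * tot v)) := mul_le_mul_of_nonneg_right (by linarith) (by linarith)
      _ = 14 * (sq v ^ 2 * tot v) := by ring
  have key := mul_nonneg (mul_nonneg (pow_nonneg h0 3) (sub_nonneg.mpr h1))
    (show 0 ≤ (22 * sq v ^ 2 - 5 * quart v) * tot v - (1 + l) * (21 * (sq v * cub v)) by linarith)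
  simp only [invNum]
  linarith

/-- The certificate obtained from the pointwise inequalities. -/
theorem cert_of_points (hi : InfoPoint) (hc : ClosPoint) : Cert mF mP mW (1 / 128) where
  delta_pos := by norm_num
  delta_le := by norm_num
  domF := ⟨4, dom_mF⟩
  domP := ⟨41, dom_mP⟩
  domW := ⟨19, dom_mW⟩
  nnP v hv := (weightPoint v hv).1
  nnW v hv := (weightPoint v hv).2
  homF c v := by
    rw [mF, mF, invNum_smul, tot_smul]
    by_cases hc : c = 0
    · simp [hc]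
    · by_cases ht : tot v = 0
      · simp [ht]
      · field_simp
  onesF := by norm_num [mF, invNum, tot, sq, cub, quart, u1, u2, u3]
  leafF s := by
    fin_cases s <;> norm_num [mF, invNum, tot, sq, cub, quart, u1, u2, u3, Fin.ext_iff]
  shiftF l h0 h1 := ⟨l ^ 3, pow_nonneg h0 3, fun _ hv => mF_shiftVec h0 h1 hv⟩
  info v w hv hw := le_of_le_of_eq (hi v w hv hw) (by ring)
  clos := hc

end Vale.Agent.P154.Four
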