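import Vale.Agent.P154.Four.Tree
import Vale.Agent.P154.KS

/-!
Reconstruction above the Kesten-Stigum threshold for four states, and the exact threshold for
regular and Poisson trees given a certificate.
-/

namespace Vale.Agent.P154.Four

open Vale.Agent.P154 (Law branch branch_pos regularLaw poissonLaw hasSum_pow abs_mul_le_sq
  regular_law regular_m2 regular_branch poisson_law poisson_m2 poisson_branch)

/-- The census weight of a spin. -/
noncomputable def wt : Fin 4 → ℝ := ![1, -1 / 3, -1 / 3, -1 / 3]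

/-- The census of the leaves. -/
noncomputable def census : (n : ℕ) → Obs n → ℝ
  | 0 => fun (s : Fin 4) => wt s
  | n + 1 => fun (cs : List (Obs n)) => (cs.map (census n)).sum

/-- First two moments of the census, given the root spin. -/
lemma census_moments {p : ℕ → ℝ} {d l : ℝ} {m2 : ℝ} (hp : Law p d) (h0 : -(1 / 3) ≤ l) (h1 : l ≤ 1)
    (hm : HasSum (fun N : ℕ => (N : ℝ) * ((N : ℝ) - 1) * p N) m2)
    {C : ℝ} (hC1 : 1 ≤ C) (hC : C * d + m2 * l ^ 2 ≤ C * (d * l) ^ 2) :
    ∀ n i, HasSum (fun η : Obs n => lik p l n i η * census n η) ((d * l) ^ n * wt i)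
      ∧ ∃ v, v ≤ C * ((d * l) ^ n) ^ 2
        ∧ HasSum (fun η : Obs n => lik p l n i η * census n η ^ 2) v
  | 0, i => by
      have key : ∀ f : Fin 4 → ℝ, HasSum (fun s : Fin 4 => (if s = i then (1 : ℝ) else 0) * f s)
          (f i) := fun f => by
        simpa using hasSum_single i
          (fun s hs => by simp [hs] : ∀ s : Fin 4, s ≠ i →
            (if s = i then (1 : ℝ) else 0) * f s = 0)
      refine ⟨hasSum_eq_val (key wt) (by simp), wt i ^ 2, ?_, key fun s => wt s ^ 2⟩
      have : wt i ^ 2 ≤ 1 := by fin_cases i <;> norm_num [wt]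
      simpa using le_trans this hC1
  | n + 1, i => by
      have ih := census_moments hp h0 h1 hm hC1 hC n
      choose v hv hv' using fun j => (ih j).2
      have hk := tab_ok (l := l) hp h0 h1 n
      have hs := shift_ok h0 h1 hk
      have w1 : HasSum (fun c : Obs n => shift l (tab p l n) c i * census n c)
          (l * (d * l) ^ n * wt i) := by
        have := hasSum_sum (s := (Finset.univ : Finset (Fin 4)))
          fun j _ => (ih j).1.mul_left (potts l i j)
        refine hasSum_eq_val (this.congr_fun fun c => ?_) ?_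
        · simp [shift, tab, Finset.sum_mul, mul_assoc]
        · simp only [Fin.sum_univ_four]
          fin_cases i <;> simp [potts, wt] <;> ring
      have w2 : HasSum (fun c : Obs n => shift l (tab p l n) c i * census n c ^ 2)
          (∑ j, potts l i j * v j) := by
        have := hasSum_sum (s := (Finset.univ : Finset (Fin 4)))
          fun j _ => (hv' j).mul_left (potts l i j)
        refine this.congr_fun fun c => ?_
        simp [shift, tab, Finset.sum_mul, mul_assoc]
      have hK : ∀ j, 0 ≤ potts l i j := fun j => by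
        simp only [potts]; split_ifs <;> linarith
      have hsum : ∑ j, potts l i j = 1 := by
        simp only [Fin.sum_univ_four]
        fin_cases i <;> simp [potts] <;> ring
      have hvb : ∑ j, potts l i j * v j ≤ C * ((d * l) ^ n) ^ 2 := by
        calc ∑ j, potts l i j * v j ≤ ∑ j, potts l i j * (C * ((d * l) ^ n) ^ 2) :=
              Finset.sum_le_sum fun j _ => mul_le_mul_of_nonneg_left (hv j) (hK j)
          _ = C * ((d * l) ^ n) ^ 2 := by rw [← Finset.sum_mul, hsum, one_mul]
      have hN := hasSum_pow (fun c => shift l (tab p l n) c i) (census n) _ _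
        (hs.total i) w1 w2
      have f1 : ∀ N, HasSum (fun x : Fin N → Obs n =>
          p N * ((∏ j, shift l (tab p l n) (x j) i) * ∑ j, census n (x j)))
          (p N * ((N : ℝ) * (l * (d * l) ^ n * wt i))) := fun N => (hN N).2.1.mul_left _
      have f2 : ∀ N, HasSum (fun x : Fin N → Obs n =>
          p N * ((∏ j, shift l (tab p l n) (x j) i) * (∑ j, census n (x j)) ^ 2))
          (p N * ((N : ℝ) * (∑ j, potts l i j * v j)
            + ((N : ℝ) * ((N : ℝ) - 1)) * (l * (d * l) ^ n * wt i) ^ 2)) :=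
        fun N => (hN N).2.2.mul_left _
      have o2 : HasSum (fun N : ℕ => p N * ((N : ℝ) * (∑ j, potts l i j * v j)
            + ((N : ℝ) * ((N : ℝ) - 1)) * (l * (d * l) ^ n * wt i) ^ 2))
          (d * (∑ j, potts l i j * v j) + m2 * (l * (d * l) ^ n * wt i) ^ 2) :=
        ((hp.mean.mul_right _).add (hm.mul_right _)).congr_fun fun N => by ring
      have hnn : ∀ s : Σ N, Fin N → Obs n, 0 ≤ p s.1 * ∏ j, shift l (tab p l n) (s.2 j) i :=
        fun s => mul_nonneg (hp.nonneg _) (Finset.prod_nonneg fun j _ => hs.nonneg _ _)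
      have s2 : Summable fun s : Σ N, Fin N → Obs n =>
          p s.1 * ((∏ j, shift l (tab p l n) (s.2 j) i) * (∑ j, census n (s.2 j)) ^ 2) :=
        (summable_sigma_of_nonneg fun s => by
          rw [← mul_assoc]; exact mul_nonneg (hnn s) (sq_nonneg _)).mpr
          ⟨fun N => (f2 N).summable, o2.summable.congr fun N => (f2 N).tsum_eq.symm⟩
      have s1 : Summable fun s : Σ N, Fin N → Obs n =>
          p s.1 * ((∏ j, shift l (tab p l n) (s.2 j) i) * ∑ j, census n (s.2 j)) := by
        refine Summable.of_norm_bounded ((((mix_ok hp hs).total i).summable).add s2) fun s => ?_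
        rw [Real.norm_eq_abs, ← mul_assoc, ← mul_assoc]
        exact abs_mul_le_sq (hnn s)
      have t1 : HasSum (fun s : Σ N, Fin N → Obs n =>
          p s.1 * ((∏ j, shift l (tab p l n) (s.2 j) i) * ∑ j, census n (s.2 j)))
          ((d * l) ^ (n + 1) * wt i) :=
        hasSum_eq_val (HasSum.sigma_of_hasSum
          ((hp.mean.mul_right (l * (d * l) ^ n * wt i)).congr_fun fun N => by ring) f1 s1)
          (by ring)
      have t2 := HasSum.sigma_of_hasSum o2 f2 s2
      have link : ∀ cs : List (Obs n), ∀ (G : ℝ → ℝ),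
          lik p l (n + 1) i cs * G (census (n + 1) cs)
          = p (List.equivSigmaTuple cs).1 *
            ((∏ j, shift l (tab p l n) ((List.equivSigmaTuple cs).2 j) i) *
              G (∑ j, census n ((List.equivSigmaTuple cs).2 j))) := by
        intro cs G
        rw [← mul_assoc]
        change (p cs.length * (cs.map fun c => ∑ j, potts l i j * lik p l n j c).prod)
            * G ((cs.map (census n)).sum)
          = p cs.length * (∏ k : Fin cs.length, shift l (tab p l n) (cs.get k) i)
            * G (∑ k : Fin cs.length, census n (cs.get k))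
        congr 1
        · congr 1
          conv_lhs => rw [← List.ofFn_get cs, List.map_ofFn, List.prod_ofFn]
          rfl
        · congr 1
          conv_lhs => rw [← List.ofFn_get cs, List.map_ofFn, List.sum_ofFn]
          rfl
      refine ⟨((Equiv.hasSum_iff List.equivSigmaTuple).mpr t1).congr_fun
          fun cs => link cs fun z => z, _, ?_,
        ((Equiv.hasSum_iff List.equivSigmaTuple).mpr t2).congr_fun fun cs => link cs fun z => z ^ 2⟩
      have hd0 : 0 ≤ d := hp.mean.nonneg fun N => mul_nonneg (Nat.cast_nonneg N) (hp.nonneg N)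
      have hm0 : 0 ≤ m2 := hm.nonneg fun N => by
        rcases N with _ | N
        · simp
        · have h := hp.nonneg (N + 1)
          push_cast
          exact mul_nonneg (mul_nonneg (by positivity) (by simp)) h
      have hw : wt i ^ 2 ≤ 1 := by fin_cases i <;> norm_num [wt]
      have a1 : d * (∑ j, potts l i j * v j) ≤ d * (C * ((d * l) ^ n) ^ 2) :=
        mul_le_mul_of_nonneg_left hvb hd0
      have a2 : m2 * (l * (d * l) ^ n * wt i) ^ 2 ≤ m2 * l ^ 2 * ((d * l) ^ n) ^ 2 := by
        calc m2 * (l * (d * l) ^ n * wt i) ^ 2 = m2 * l ^ 2 * ((d * l) ^ n) ^ 2 * wt i ^ 2 := by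
              ring
          _ ≤ m2 * l ^ 2 * ((d * l) ^ n) ^ 2 * 1 :=
              mul_le_mul_of_nonneg_left hw (by positivity)
          _ = m2 * l ^ 2 * ((d * l) ^ n) ^ 2 := mul_one _
      have a3 := mul_le_mul_of_nonneg_right hC (sq_nonneg ((d * l) ^ n))
      have a4 : C * ((d * l) ^ (n + 1)) ^ 2 = C * (d * l) ^ 2 * ((d * l) ^ n) ^ 2 := by ring
      rw [a4]; linarith

/-- Above the Kesten-Stigum threshold the census reconstructs, for every admissible `l`. -/
theorem reconstruction_of_gt {p : ℕ → ℝ} {d l : ℝ} {m2 : ℝ} (hp : Law p d) (h0 : -(1 / 3) ≤ l)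
    (h1 : l ≤ 1) (hm : HasSum (fun N : ℕ => (N : ℝ) * ((N : ℝ) - 1) * p N) m2)
    (hd : 1 < d * l ^ 2) : Reconstruction p l := by
  have hd0 : 0 < d := by
    rcases lt_trichotomy d 0 with h | h | h
    · nlinarith [sq_nonneg l]
    · subst h; linarith
    · exact h
  have hl : l ≠ 0 := by
    rintro rfl
    norm_num at hd
  have hgap : 0 < d * (d * l ^ 2 - 1) := mul_pos hd0 (by linarith)
  set C : ℝ := max 1 (m2 * l ^ 2 / (d * (d * l ^ 2 - 1))) with hCdef
  have hC1 : 1 ≤ C := le_max_left _ _
  have hC : C * d + m2 * l ^ 2 ≤ C * (d * l) ^ 2 := by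
    have h2 : m2 * l ^ 2 / (d * (d * l ^ 2 - 1)) ≤ C := le_max_right _ _
    rw [div_le_iff₀ hgap] at h2
    linarith
  refine ⟨1 / (24 * C), by positivity, fun n => ?_⟩
  have hk := tab_ok (l := l) hp h0 h1 n
  have mom := census_moments hp h0 h1 hm hC1 hC n
  choose v hv hv' using fun j => (mom j).2
  set r := (d * l) ^ n with hr
  have hr0 : r ≠ 0 := pow_ne_zero _ (mul_ne_zero hd0.ne' hl)
  set s := |r| with hsdef
  have hspos : 0 < s := abs_pos.mpr hr0
  set σ : ℝ := if 0 ≤ r then 1 else -1 with hσ
  have hσr : σ * r = s := by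
    rw [hσ, hsdef]; split_ifs with h
    · rw [abs_of_nonneg h, one_mul]
    · rw [abs_of_neg (not_le.mp h)]; ring
  have hσ2 : σ ^ 2 = 1 := by rw [hσ]; split_ifs <;> norm_num
  have hs2 : s ^ 2 = r ^ 2 := sq_abs r
  set t : ℝ := C * s with ht
  have htpos : 0 < t := by positivity
  have hl' := ((((mom 0).1.add ((mom 1).1.mul_left (-1 / 3))).add
    ((mom 2).1.mul_left (-1 / 3))).add ((mom 3).1.mul_left (-1 / 3))).mul_left σ
  have hr' := ((hk.summable_mom dom_mA).hasSum.mul_left t).add
    (((((hv' 0).add (hv' 1)).add (hv' 2)).add (hv' 3)).mul_left (1 / (4 * t)))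
  have key := hasSum_le (fun η : Obs n => ?_) hl' hr'
  · have hi : info p l n = (∑' η, mA (tab p l n η)) / 4 := rfl
    have ha := info_le_advantage hk
    have hw : σ * (r * wt 0 + -1 / 3 * (r * wt 1) + -1 / 3 * (r * wt 2) + -1 / 3 * (r * wt 3))
        = 4 / 3 * s := by
      rw [← hσr]; simp [wt]; ring
    rw [hw] at key
    have hvs : 1 / (4 * t) * (v 0 + v 1 + v 2 + v 3) ≤ s := by
      rw [one_div_mul_eq_div, div_le_iff₀ (by positivity), ht]
      have h4 : v 0 + v 1 + v 2 + v 3 ≤ 4 * (C * s ^ 2) := by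
        rw [hs2]; linarith [hv 0, hv 1, hv 2, hv 3]
      linarith
    have h3 : 1 / 3 * s ≤ t * (4 * info p l n) := by rw [hi]; linarith
    have h4 : 1 / 3 * s ≤ (8 * C * advantage p l n) * s := by
      have := mul_le_mul_of_nonneg_left (mul_le_mul_of_nonneg_left ha (by norm_num : (0:ℝ) ≤ 4))
        htpos.le
      rw [ht] at this h3
      linarith
    have h5 := le_of_mul_le_mul_right h4 hspos
    rw [div_le_iff₀ (by positivity)]
    linarith
  · set a := lik p l n 0 η
    set b := lik p l n 1 η
    set c := lik p l n 2 η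
    set e := lik p l n 3 η
    set g := census n η
    have hv0 : tab p l n η = ![a, b, c, e] := by funext i; fin_cases i <;> rfl
    rw [hv0]
    have ha : 0 ≤ a := hk.nonneg η 0
    have hb : 0 ≤ b := hk.nonneg η 1
    have hc : 0 ≤ c := hk.nonneg η 2
    have he : 0 ≤ e := hk.nonneg η 3
    simp only [mA, sq, u1, u2, u3, tot, Matrix.cons_val_zero, Matrix.cons_val_one,
      Matrix.cons_val]
    set S := a + b + c + e with hS
    rcases eq_or_lt_of_le (show 0 ≤ S by linarith) with h | h
    · have a0 : a = 0 := by linarith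
      have b0 : b = 0 := by linarith
      have c0 : c = 0 := by linarith
      have e0 : e = 0 := by linarith
      rw [a0, b0, c0, e0]; simp
    · obtain ⟨w, hw⟩ : ∃ w, w = a - b / 3 - c / 3 - e / 3 := ⟨_, rfl⟩
      set q := (a + b - c - e) ^ 2 + (a - b + c - e) ^ 2 + (a - b - c + e) ^ 2 with hq'
      have hq : w ^ 2 ≤ q / 3 := by
        rw [hw, hq']
        linarith [sq_nonneg ((a + b - c - e) - (a - b + c - e)),
          sq_nonneg ((a + b - c - e) - (a - b - c + e)),
          sq_nonneg ((a - b + c - e) - (a - b - c + e))]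
      have hsq : σ * w * g ≤ t * (w ^ 2 / S) + 1 / (4 * t) * (g ^ 2 * S) := by
        have hid : t * (w ^ 2 / S) + 1 / (4 * t) * (g ^ 2 * S) - σ * w * g
            = (2 * t * (σ * w) - g * S) ^ 2 / (4 * t * S) := by
          rw [show (2 * t * (σ * w) - g * S) ^ 2
            = σ ^ 2 * (4 * t ^ 2 * w ^ 2) - 4 * t * S * σ * w * g + g ^ 2 * S ^ 2 by ring, hσ2]
          field_simp; ring
        rw [← sub_nonneg, hid]; positivity
      have hmono : t * (w ^ 2 / S) ≤ t * (q / (3 * S)) := by
        rw [← div_div q]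
        exact mul_le_mul_of_nonneg_left (div_le_div_of_nonneg_right hq h.le) htpos.le
      have e1 : σ * w * g = σ * (a * g + -1 / 3 * (b * g) + -1 / 3 * (c * g) + -1 / 3 * (e * g)) := by
        rw [hw]; ring
      have e2 : g ^ 2 * S = a * g ^ 2 + b * g ^ 2 + c * g ^ 2 + e * g ^ 2 := by rw [hS]; ring
      rw [e1, e2] at hsq
      linarith

/-- A certificate gives the exact threshold for every law with a finite second moment. -/
theorem dichotomy {F P W : Mom} {δ : ℝ} (c : Cert F P W δ) {p : ℕ → ℝ} {d m2 l : ℝ}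
    (hp : Law p d) (hb : 0 < branch p)
    (hm : HasSum (fun N : ℕ => (N : ℝ) * ((N : ℝ) - 1) * p N) m2)
    (h0 : 0 ≤ l) (h1 : l ≤ 1) :
    (Reconstruction p l ↔ 1 < d * l ^ 2) ∧ (Nonreconstruction p l ↔ d * l ^ 2 ≤ 1) := by
  have rec_ : 1 < d * l ^ 2 → Reconstruction p l := reconstruction_of_gt hp (by linarith) h1 hm
  have non_ : d * l ^ 2 ≤ 1 → Nonreconstruction p l :=
    fun hd => nonreconstruction_of_le c hp h0 h1 hd hb
  have excl : Nonreconstruction p l → ¬ Reconstruction p l := by
    rintro h ⟨ε, hε, hb'⟩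
    have := ge_of_tendsto h (Filter.Eventually.of_forall hb')
    linarith
  refine ⟨⟨fun h => ?_, rec_⟩, ⟨fun h => ?_, non_⟩⟩
  · by_contra hn
    exact excl (non_ (not_lt.mp hn)) h
  · by_contra hn
    exact excl h (rec_ (not_le.mp hn))

/-- A certificate gives the exact threshold on regular and Poisson trees. -/
theorem threshold {F P W : Mom} {δ : ℝ} (c : Cert F P W δ) :
    (∀ d : ℕ, 2 ≤ d → ∀ l : ℝ, 0 ≤ l → l ≤ 1 →
      (Reconstruction (regularLaw d) l ↔ 1 < (d : ℝ) * l ^ 2) ∧
      (Nonreconstruction (regularLaw d) l ↔ (d : ℝ) * l ^ 2 ≤ 1)) ∧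
    (∀ d : ℝ, 0 < d → ∀ l : ℝ, 0 ≤ l → l ≤ 1 →
      (Reconstruction (poissonLaw d) l ↔ 1 < d * l ^ 2) ∧
      (Nonreconstruction (poissonLaw d) l ↔ d * l ^ 2 ≤ 1)) :=
  ⟨fun d hd _ h0 h1 => dichotomy c (regular_law d) (regular_branch hd) (regular_m2 d) h0 h1,
    fun _ hd _ h0 h1 => dichotomy c (poisson_law hd) (poisson_branch hd) (poisson_m2 hd) h0 h1⟩

end Vale.Agent.P154.Four
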