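import Mathlib.Data.Real.Basic
import Mathlib.Algebra.BigOperators.Fin
import Mathlib.Data.Fintype.Perm

/-!
Moment functions of four-state likelihood vectors, homogeneous of degree one.
-/

namespace Vale.Agent.P154.Four

/-- Total mass. -/
def tot (v : Fin 4 → ℝ) : ℝ := v 0 + v 1 + v 2 + v 3
/-- First Fourier coordinate. -/
def u1 (v : Fin 4 → ℝ) : ℝ := v 0 + v 1 - v 2 - v 3
/-- Second Fourier coordinate. -/
def u2 (v : Fin 4 → ℝ) : ℝ := v 0 - v 1 + v 2 - v 3
/-- Third Fourier coordinate. -/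
def u3 (v : Fin 4 → ℝ) : ℝ := v 0 - v 1 - v 2 + v 3
/-- Squared length. -/
def sq (v : Fin 4 → ℝ) : ℝ := u1 v ^ 2 + u2 v ^ 2 + u3 v ^ 2
/-- The cubic invariant. -/
def cub (v : Fin 4 → ℝ) : ℝ := u1 v * u2 v * u3 v
/-- The quartic invariant. -/
def quart (v : Fin 4 → ℝ) : ℝ := u1 v ^ 4 + u2 v ^ 4 + u3 v ^ 4

/-- Numerator of the invariant. -/
def invNum (v : Fin 4 → ℝ) : ℝ :=
  150 * cub v * tot v ^ 2 - 22 * sq v ^ 2 * tot v + 5 * quart v * tot v + 21 * sq v * cub v
/-- Numerator of the weight in the closure inequality. -/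
def cloNum (v : Fin 4 → ℝ) : ℝ :=
  30 * tot v ^ 5 - 38 * sq v * tot v ^ 3 - 90 * cub v * tot v ^ 2 + 54 * sq v ^ 2 * tot v
    - 29 * quart v * tot v - 75 * sq v * cub v
/-- Numerator of the weight in the information inequality. -/
def infNum (v : Fin 4 → ℝ) : ℝ :=
  48 * sq v * tot v ^ 3 - 36 * cub v * tot v ^ 2 - 23 * sq v ^ 2 * tot v + 24 * quart v * tot v
    + 18 * sq v * cub v

/-- Mass. -/
def mS (v : Fin 4 → ℝ) : ℝ := tot v
/-- Information. -/
noncomputable def mA (v : Fin 4 → ℝ) : ℝ := sq v / (3 * tot v)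
/-- Squared information. -/
noncomputable def mB (v : Fin 4 → ℝ) : ℝ := sq v ^ 2 / (9 * tot v ^ 3)
/-- The invariant. -/
noncomputable def mF (v : Fin 4 → ℝ) : ℝ := invNum v / (150 * tot v ^ 4)
/-- The weight in the closure inequality. -/
noncomputable def mP (v : Fin 4 → ℝ) : ℝ := cloNum v / (30 * tot v ^ 4)
/-- The weight in the information inequality. -/
noncomputable def mW (v : Fin 4 → ℝ) : ℝ := infNum v / (36 * tot v ^ 4)

/-- The sum of a moment over all relabellings of the second factor. -/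
noncomputable def relabels (g : (Fin 4 → ℝ) → ℝ) (v w : Fin 4 → ℝ) : ℝ :=
  ∑ π : Equiv.Perm (Fin 4), g fun i => v i * w (π i)

/-- The information inequality at a pair of vectors. -/
def InfoPoint : Prop :=
  ∀ v w : Fin 4 → ℝ, (∀ i, 0 ≤ v i) → (∀ i, 0 ≤ w i) →
    relabels mA v w ≤ 6 * (mA v * mS w + mS v * mA w - mF v * mW w - mW v * mF w
      - (mB v * mA w + mA v * mB w) / 128)

/-- The closure inequality at a pair of vectors. -/
def ClosPoint : Prop :=
  ∀ v w : Fin 4 → ℝ, (∀ i, 0 ≤ v i) → (∀ i, 0 ≤ w i) →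
    6 * (mF v * mP w + mP v * mF w) ≤ relabels mF v w

/-- Nonnegativity of the two weights. -/
def WeightPoint : Prop :=
  ∀ v : Fin 4 → ℝ, (∀ i, 0 ≤ v i) → 0 ≤ mP v ∧ 0 ≤ mW v

end Vale.Agent.P154.Four
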