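import Vale.Agent.P154.Four.Mask

/-!
Coefficient checking by partial evaluation: the variables below `n` are packed into one integer,
the next `j` variables are kept as nested lists.
-/

namespace Vale.Agent.P154.Four.Mask

open Vale.Agent.P154

/-- A polynomial in `j` variables whose coefficients are packed integers. -/
structure Part (j : ℕ) where
  /-- The nested coefficient lists. -/
  po : Pol j

instance (j : ℕ) : Add (Part j) := ⟨fun a b => ⟨Pol.add j a.po b.po⟩⟩
instance (j : ℕ) : Mul (Part j) := ⟨fun a b => ⟨Pol.mul j a.po b.po⟩⟩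

/-- The partial value of an expression. -/
def valPart (n j bits D : ℕ) : Ex → Part j
  | .c z => ⟨Pol.const j z⟩
  | .x i => if i < n then ⟨Pol.const j (Pol.base bits D i)⟩
      else if i < n + j then ⟨Pol.var j (i - n)⟩ else ⟨Pol.zero j⟩
  | .add a b => valPart n j bits D a + valPart n j bits D b
  | .mul a b => valPart n j bits D a * valPart n j bits D b

/-- Packing the variables below `n`. -/
def squeeze (x : ℕ → ℤ) (n : ℕ) : (j : ℕ) → Pol (n + j) → Pol j
  | 0 => fun a => Pol.evalZ x n a
  | j + 1 => fun (a : List (Pol (n + j))) => a.map (squeeze x n j)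

lemma squeeze_add (x : ℕ → ℤ) (n : ℕ) : ∀ j a b,
    squeeze x n j (Pol.add (n + j) a b) = Pol.add j (squeeze x n j a) (squeeze x n j b)
  | 0, a, b => evalZ_add x n a b
  | j + 1, a, b => map_zipAdd (squeeze x n j) (squeeze_add x n j) a b

lemma squeeze_zero (x : ℕ → ℤ) (n : ℕ) : ∀ j, squeeze x n j (Pol.zero (n + j)) = Pol.zero j
  | 0 => evalZ_zero x n
  | _ + 1 => rfl

lemma squeeze_mul (x : ℕ → ℤ) (n : ℕ) : ∀ j a b,
    squeeze x n j (Pol.mul (n + j) a b) = Pol.mul j (squeeze x n j a) (squeeze x n j b)
  | 0, a, b => evalZ_mul x n a b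
  | j + 1, a, b => by
    have h := map_listMul (z := Pol.zero (n + j)) (squeeze x n j) (squeeze_add x n j)
      (squeeze_mul x n j) b a
    rw [squeeze_zero] at h
    exact h

lemma squeeze_const (x : ℕ → ℤ) (n : ℕ) : ∀ j (z : ℤ),
    squeeze x n j (Pol.const (n + j) z) = Pol.const j z
  | 0, z => evalZ_const x n z
  | j + 1, z => congrArg (fun t => [t]) (squeeze_const x n j z)

lemma squeeze_low (x : ℕ → ℤ) (n i : ℕ) (hi : i < n) : ∀ j,
    squeeze x n j (Pol.var (n + j) i) = Pol.const j (x i)
  | 0 => evalZ_var x n i hi
  | j + 1 => by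
    change List.map (squeeze x n j) (Pol.var (n + j + 1) i) = [Pol.const j (x i)]
    rw [Pol.var, if_neg (show i ≠ n + j by omega), List.map_cons, List.map_nil, squeeze_low x n i hi j]

lemma squeeze_high (x : ℕ → ℤ) (n i : ℕ) : ∀ j, n ≤ i → i < n + j →
    squeeze x n j (Pol.var (n + j) i) = Pol.var j (i - n)
  | 0, h1, h2 => absurd h2 (by omega)
  | j + 1, h1, h2 => by
    change List.map (squeeze x n j) (Pol.var (n + j + 1) i) = Pol.var (j + 1) (i - n)
    by_cases hij : i = n + j
    · rw [Pol.var, if_pos hij, Pol.var, if_pos (show i - n = j by omega), List.map_cons,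
        List.map_cons, List.map_nil, squeeze_zero, squeeze_const]
    · rw [Pol.var, if_neg hij, Pol.var, if_neg (show i - n ≠ j by omega), List.map_cons,
        List.map_nil, squeeze_high x n i j h1 (by omega)]

lemma valPart_eq (n j bits D : ℕ) : ∀ e : Ex,
    (valPart n j bits D e).po = squeeze (Pol.base bits D) n j (nrm (n + j) e)
  | .c z => (squeeze_const _ n j z).symm
  | .x i => by
    by_cases h : i < n
    · simp only [valPart, nrm, if_pos h, if_pos (show i < n + j by omega),
        squeeze_low _ n i h j]
    · by_cases h2 : i < n + j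
      · simp only [valPart, nrm, if_neg h, if_pos h2, squeeze_high _ n i j (by omega) h2]
      · simp only [valPart, nrm, if_neg h, if_neg h2, squeeze_zero]
  | .add a b => by
    change Pol.add j (valPart n j bits D a).po (valPart n j bits D b).po = _
    rw [valPart_eq n j bits D a, valPart_eq n j bits D b]
    exact (squeeze_add _ n j _ _).symm
  | .mul a b => by
    change Pol.mul j (valPart n j bits D a).po (valPart n j bits D b).po = _
    rw [valPart_eq n j bits D a, valPart_eq n j bits D b]
    exact (squeeze_mul _ n j _ _).symm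

/-- The mask test on every packed coefficient. -/
def leafTest (n bits D : ℕ) : (j : ℕ) → Pol j → Bool
  | 0 => fun z => maskTest n bits D z
  | j + 1 => fun (a : List (Pol j)) => a.all (leafTest n bits D j)

lemma nonneg_of_leafTest (n bits D : ℕ) (hb : 0 < bits) (hD : 0 < D) (d : ℕ → ℕ)
    (hd : ∀ i, d i < D) : ∀ j (a : Pol (n + j)), Pol.Deg d (n + j) a →
      2 * Pol.size (n + j) a < (2 : ℤ) ^ bits →
      leafTest n bits D j (squeeze (Pol.base bits D) n j a) = true →
      Pol.nonneg (n + j) a = true
  | 0, a, hdeg, hs, h => by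
    refine Pol.check_sound bits D d hd n a hdeg hs ?_
    change maskTest n bits D (Pol.evalZ (Pol.base bits D) n a) = true at h
    rcases hz : Pol.evalZ (Pol.base bits D) n a with N | N
    · rw [hz] at h
      simp only [maskTest, Bool.and_eq_true] at h
      exact (check_of_mask bits D hb hD n N (Nat.blt_eq.mp h.1) (Nat.eq_of_beq_eq_true h.2)).1
    · rw [hz] at h
      simp [maskTest] at h
  | j + 1, a, hdeg, hs, h => by
    change List.all (a.map (squeeze (Pol.base bits D) n j)) (leafTest n bits D j) = true at h
    rw [List.all_map, List.all_eq_true] at h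
    change List.all a (Pol.nonneg (n + j)) = true
    rw [List.all_eq_true]
    intro b hb'
    refine nonneg_of_leafTest n bits D hb hD d hd j b (hdeg.2 b hb') ?_ (h b hb')
    have h1 : Pol.size (n + j) b ≤ Pol.listEvalZ (Pol.size (n + j)) 1 a := size_mem hb'
    have h2 : Pol.size (n + (j + 1)) a = Pol.listEvalZ (Pol.size (n + j)) 1 a := rfl
    rw [h2] at hs
    linarith

theorem sound_part (n j bits D : ℕ) (e : Ex) (hg : good (n + j) bits D e = true)
    (P : Part j) (hP : valPart n j bits D e = P) (hm : leafTest n bits D j P.po = true)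
    (ρ : ℕ → ℝ) (h0 : ∀ i, 0 ≤ ρ i) (h1 : ∀ i, n + j ≤ i → ρ i = 0) : 0 ≤ Ex.val ρ e := by
  simp only [good, Bool.and_eq_true, decide_eq_true_eq, List.all_eq_true, List.mem_range] at hg
  obtain ⟨⟨⟨hb, hD⟩, hd⟩, hbound⟩ := hg
  rw [← eval_nrm (n + j) ρ h1 e]
  refine Pol.eval_nonneg ρ h0 (n + j) _ ?_
  subst hP
  rw [valPart_eq] at hm
  have hdeg := deg_congr (e := fun i => if i < n + j then Ex.deg i e else 0) (n + j) _
    (fun i hi => by simp [hi]) (deg_nrm (n + j) e)
  refine nonneg_of_leafTest n bits D hb hD _ (fun i => ?_) j _ hdeg ?_ hm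
  · split_ifs with hi
    exacts [hd i hi, hD]
  · linarith [size_nrm (n + j) e]

lemma const_add : ∀ j (a b : ℤ), Pol.add j (Pol.const j a) (Pol.const j b) = Pol.const j (a + b)
  | 0, _, _ => rfl
  | j + 1, a, b => congrArg (fun t => [t]) (const_add j a b)

lemma add_zero_const : ∀ j (a : ℤ), Pol.add j (Pol.const j a) (Pol.zero j) = Pol.const j a
  | 0, a => Int.add_zero a
  | _ + 1, _ => rfl

lemma const_mul : ∀ j (a b : ℤ), Pol.mul j (Pol.const j a) (Pol.const j b) = Pol.const j (a * b)
  | 0, _, _ => rfl
  | j + 1, a, b => by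
    change [Pol.add j (Pol.mul j (Pol.const j a) (Pol.const j b)) (Pol.zero j)] = [Pol.const j (a * b)]
    rw [const_mul j a b, add_zero_const]

/-- Termwise sum, written with the recursor so that kernel evaluation stays small. -/
noncomputable def rAdd {α : Type} (f : α → α → α) (as : List α) : List α → List α :=
  List.rec (motive := fun _ => List α → List α) (fun bs => bs)
    (fun a as r bs => List.rec (motive := fun _ => List α) (a :: as)
      (fun b bs' _ => f a b :: r bs') bs) as

/-- Schoolbook product, written with the recursor. -/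
noncomputable def rMul {α : Type} (z : α) (f g : α → α → α) (as bs : List α) : List α :=
  List.rec (motive := fun _ => List α) []
    (fun a _ r => rAdd f (List.rec (motive := fun _ => List α) [] (fun b _ q => g a b :: q) bs)
      (z :: r)) as

/-- Whether every entry passes. -/
noncomputable def rAll {α : Type} (f : α → Bool) (l : List α) : Bool :=
  List.rec (motive := fun _ => Bool) true (fun a _ r => f a && r) l

lemma rAdd_eq {α : Type} (f : α → α → α) :
    ∀ as bs : List α, rAdd f as bs = Pol.zipAdd f as bs
  | [], _ => rfl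
  | _ :: _, [] => rfl
  | a :: as, b :: bs => congrArg (f a b :: ·) (rAdd_eq f as bs)

lemma rMul_eq {α : Type} (z : α) (f g : α → α → α) :
    ∀ as bs : List α, rMul z f g as bs = Pol.listMul z f g as bs
  | [], _ => rfl
  | a :: as, bs => by
    have hmap : ∀ l : List α,
        List.rec (motive := fun _ => List α) [] (fun b _ q => g a b :: q) l = l.map (g a) := by
      intro l
      induction l with
      | nil => rfl
      | cons b l ih => exact congrArg (g a b :: ·) ih
    change rAdd f (List.rec (motive := fun _ => List α) [] (fun b _ q => g a b :: q) bs)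
      (z :: rMul z f g as bs) = _
    rw [rAdd_eq, hmap, rMul_eq z f g as bs]
    rfl

lemma rAll_eq {α : Type} (f : α → Bool) : ∀ l : List α, rAll f l = l.all f
  | [] => rfl
  | a :: l => congrArg (f a && ·) (rAll_eq f l)

/-- Sums in one variable. -/
noncomputable def add1 : List ℤ → List ℤ → List ℤ := rAdd Int.add
/-- Products in one variable. -/
noncomputable def mul1 : List ℤ → List ℤ → List ℤ := rMul 0 Int.add Int.mul
/-- Sums in two variables. -/
noncomputable def add2 : List (List ℤ) → List (List ℤ) → List (List ℤ) := rAdd add1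
/-- Products in two variables. -/
noncomputable def mul2 : List (List ℤ) → List (List ℤ) → List (List ℤ) := rMul [] add1 mul1
/-- Sums in three variables. -/
noncomputable def add3 : Pol 3 → Pol 3 → Pol 3 := rAdd add2
/-- Products in three variables. -/
noncomputable def mul3 : Pol 3 → Pol 3 → Pol 3 := rMul [] add2 mul2

lemma add1_eq : add1 = Pol.add 1 := funext fun _ => funext fun _ => rAdd_eq _ _ _
lemma mul1_eq : mul1 = Pol.mul 1 := funext fun _ => funext fun _ => rMul_eq _ _ _ _ _
lemma add2_eq : add2 = Pol.add 2 := by
  funext a b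
  rw [add2, rAdd_eq, add1_eq]
  rfl
lemma mul2_eq : mul2 = Pol.mul 2 := by
  funext a b
  rw [mul2, rMul_eq, add1_eq, mul1_eq]
  rfl
lemma add3_eq : add3 = Pol.add 3 := by
  funext a b
  rw [add3, rAdd_eq, add2_eq]
  rfl
lemma mul3_eq : mul3 = Pol.mul 3 := by
  funext a b
  rw [mul3, rMul_eq, add2_eq, mul2_eq]
  rfl

/-- A value in three kept variables, with constants as single integers. -/
inductive Tri : Type where
  /-- A constant. -/
  | num : ℤ → Tri
  /-- Any other value. -/
  | pol : List (List (List ℤ)) → Tri

/-- A constant as nested lists. -/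
def lift3 (a : ℤ) : Pol 3 := [[[a]]]

/-- The nested lists of a value. -/
def Tri.lists : Tri → Pol 3
  | .num z => lift3 z
  | .pol p => p

/-- Sum. -/
noncomputable def Tri.plus : Tri → Tri → Tri
  | .num a, .num b => .num (Int.add a b)
  | .num a, .pol q => .pol (add3 (lift3 a) q)
  | .pol p, .num b => .pol (add3 p (lift3 b))
  | .pol p, .pol q => .pol (add3 p q)

/-- Product. -/
noncomputable def Tri.times : Tri → Tri → Tri
  | .num a, .num b => .num (Int.mul a b)
  | .num a, .pol q => .pol (mul3 (lift3 a) q)
  | .pol p, .num b => .pol (mul3 p (lift3 b))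
  | .pol p, .pol q => .pol (mul3 p q)

noncomputable instance : Add Tri := ⟨Tri.plus⟩
noncomputable instance : Mul Tri := ⟨Tri.times⟩

/-- The partial value of an expression in three packed and three kept variables. -/
noncomputable def valTri (bits D : ℕ) : Ex → Tri
  | .c z => .num z
  | .x i => if i < 3 then .num (Pol.base bits D i)
      else if i < 3 + 3 then .pol (Pol.var 3 (i - 3)) else .pol (Pol.zero 3)
  | .add a b => valTri bits D a + valTri bits D b
  | .mul a b => valTri bits D a * valTri bits D b

lemma valTri_eq (bits D : ℕ) : ∀ e : Ex,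
    (valTri bits D e).lists = (valPart 3 3 bits D e).po
  | .c _ => rfl
  | .x i => by
    simp only [valTri, valPart]
    split_ifs <;> rfl
  | .add a b => by
    change (Tri.plus (valTri bits D a) (valTri bits D b)).lists
      = Pol.add 3 (valPart 3 3 bits D a).po (valPart 3 3 bits D b).po
    rw [← valTri_eq bits D a, ← valTri_eq bits D b]
    rcases valTri bits D a with u | u <;> rcases valTri bits D b with v | v
    · exact (const_add 3 u v).symm
    all_goals simp [Tri.plus, Tri.lists, add3_eq]
  | .mul a b => by
    change (Tri.times (valTri bits D a) (valTri bits D b)).lists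
      = Pol.mul 3 (valPart 3 3 bits D a).po (valPart 3 3 bits D b).po
    rw [← valTri_eq bits D a, ← valTri_eq bits D b]
    rcases valTri bits D a with u | u <;> rcases valTri bits D b with v | v
    · exact (const_mul 3 u v).symm
    all_goals simp [Tri.times, Tri.lists, mul3_eq]

/-- The mask test on all leaves. -/
noncomputable def triTest (bits D : ℕ) (t : Tri) : Bool :=
  rAll (rAll (rAll (maskTest 3 bits D))) t.lists

/-- Coefficient bound and degrees in the packed and in the kept variables. -/
structure Size : Type where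
  /-- A bound on the sum of absolute values of the coefficients. -/
  coef : ℤ
  /-- A bound on the degree in the variables below three. -/
  low : ℕ
  /-- A bound on the degree in the other variables. -/
  high : ℕ

/-- Size of a sum. -/
noncomputable def Size.plus (a b : Size) : Size :=
  ⟨Int.add a.coef b.coef, bif Nat.ble a.low b.low then b.low else a.low,
    bif Nat.ble a.high b.high then b.high else a.high⟩

/-- Size of a product. -/
noncomputable def Size.times (a b : Size) : Size :=
  ⟨Int.mul a.coef b.coef, Nat.add a.low b.low, Nat.add a.high b.high⟩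

noncomputable instance : Add Size := ⟨Size.plus⟩
noncomputable instance : Mul Size := ⟨Size.times⟩

/-- The size of a constant. -/
noncomputable def Size.num (z : ℤ) : Size := ⟨(z.natAbs : ℤ), 0, 0⟩

/-- The size of an expression. -/
noncomputable def valSize : Ex → Size
  | .c z => Size.num z
  | .x i => if i < 3 then ⟨1, 1, 0⟩ else ⟨1, 0, 1⟩
  | .add a b => valSize a + valSize b
  | .mul a b => valSize a * valSize b

lemma valSize_spec : ∀ e : Ex, Ex.bound e = (valSize e).coef ∧
    ∀ i, Ex.deg i e ≤ if i < 3 then (valSize e).low else (valSize e).high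
  | .c z => ⟨by simp [Ex.bound, valSize, Size.num], fun i => by simp [Ex.deg]⟩
  | .x j => by
    refine ⟨by simp only [Ex.bound, valSize]; split_ifs <;> rfl, fun i => ?_⟩
    by_cases hij : i = j
    · subst hij; by_cases h : i < 3 <;> simp [Ex.deg, valSize, h]
    · simp [Ex.deg, hij]
  | .add a b => by
    obtain ⟨ha, ha'⟩ := valSize_spec a
    obtain ⟨hb, hb'⟩ := valSize_spec b
    refine ⟨by simp only [Ex.bound, ha, hb]; rfl, fun i => ?_⟩
    have hm : ∀ p q : ℕ, (bif Nat.ble p q then q else p) = max p q := fun p q => by
      rcases Nat.lt_or_ge q p with h | h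
      · rw [show Nat.ble p q = false by
          rw [Bool.eq_false_iff]; exact fun hb => absurd (Nat.le_of_ble_eq_true hb) (by omega)]
        simp [max_eq_left h.le]
      · rw [Nat.ble_eq_true_of_le h]
        simp [max_eq_right h]
    change max (Ex.deg i a) (Ex.deg i b) ≤ if i < 3 then
      (bif Nat.ble (valSize a).low (valSize b).low then (valSize b).low else (valSize a).low) else
      (bif Nat.ble (valSize a).high (valSize b).high then (valSize b).high else (valSize a).high)
    rw [hm, hm]
    have := ha' i
    have := hb' i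
    split_ifs at * <;> omega
  | .mul a b => by
    obtain ⟨ha, ha'⟩ := valSize_spec a
    obtain ⟨hb, hb'⟩ := valSize_spec b
    refine ⟨by simp only [Ex.bound, ha, hb]; rfl, fun i => ?_⟩
    change Ex.deg i a + Ex.deg i b ≤ if i < 3 then (valSize a).low + (valSize b).low
      else (valSize a).high + (valSize b).high
    have := ha' i
    have := hb' i
    split_ifs at * <;> omega

/-- The degree and size test. -/
noncomputable def sizeTest (bits D : ℕ) (s : Size) : Bool :=
  Nat.ble (s.low + 1) D && Nat.ble (s.high + 1) D && decide (2 * s.coef < (2 : ℤ) ^ bits)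
    && Nat.ble 1 bits

theorem sound_tri (bits D : ℕ) (e : Ex) (S : Size) (hS : valSize e = S) (T : Tri)
    (hT : valTri bits D e = T) (hs : sizeTest bits D S = true) (hm : triTest bits D T = true)
    (ρ : ℕ → ℝ) (h0 : ∀ i, 0 ≤ ρ i) (h1 : ∀ i, 3 + 3 ≤ i → ρ i = 0) : 0 ≤ Ex.val ρ e := by
  simp only [sizeTest, Bool.and_eq_true, decide_eq_true_eq] at hs
  obtain ⟨⟨⟨hl, hh⟩, hc⟩, hb⟩ := hs
  have hl' := Nat.le_of_ble_eq_true hl
  have hh' := Nat.le_of_ble_eq_true hh
  have hb' := Nat.le_of_ble_eq_true hb
  obtain ⟨hbound, hdeg⟩ := valSize_spec e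
  rw [hS] at hbound hdeg
  refine sound_part 3 3 bits D e ?_ ⟨T.lists⟩ (by rw [← hT, valTri_eq]) ?_ ρ h0 h1
  · simp only [good, Bool.and_eq_true, decide_eq_true_eq, List.all_eq_true, List.mem_range]
    refine ⟨⟨⟨by omega, by omega⟩, fun i _ => ?_⟩, by rw [hbound]; exact hc⟩
    have := hdeg i
    split_ifs at this <;> omega
  · simp only [triTest, rAll_eq] at hm
    have a1 : rAll (maskTest 3 bits D) = fun l => List.all l (maskTest 3 bits D) :=
      funext fun l => rAll_eq _ l
    have a2 : rAll (rAll (maskTest 3 bits D)) = fun l => List.all l (rAll (maskTest 3 bits D)) :=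
      funext fun l => rAll_eq _ l
    rw [a2, a1] at hm
    exact hm

end Vale.Agent.P154.Four.Mask
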