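import Vale.Agent.P154.Four.Channel
import Vale.Agent.P154.Tree

/-!
The depth recursion for four states and the contraction of the information below the
Kesten-Stigum threshold, for any certificate.
-/

namespace Vale.Agent.P154.Four

open Equiv
open Vale.Agent.P154 (Law branch branch_hasSum)

variable {ι : Type} {F P W : Mom} {δ : ℝ}

/-- Independent copies of a channel. -/
def power (L : Lik ι) (N : ℕ) : Lik (Fin N → ι) := fun x i => ∏ j, L (x j) i

lemma power_succ (L : Lik ι) (N : ℕ) :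
    power L (N + 1) = reindex (Fin.consEquiv fun _ => ι).symm (pair L (power L N)) := by
  funext x i
  simp [power, reindex, pair, Fin.prod_univ_succ, Fin.consEquiv, Fin.tail]

lemma power_zero_mom (g : Mom) (L : Lik ι) : mo g (power L 0) = g (fun _ => 1) / 4 := by
  rw [mo, tsum_eq_single default (fun x hx => absurd (Subsingleton.elim x default) hx),
    show power L 0 default = fun _ => 1 from funext fun i => by simp [power]]

lemma power_ok (L : Lik ι) (h : Ok L) : ∀ N, Ok (power L N)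
  | 0 => {
      nonneg := fun x i => by simp [power]
      total := fun i => by
        have := hasSum_single (f := fun x : Fin 0 → ι => power L 0 x i) default
          (fun x hx => absurd (Subsingleton.elim x default) hx)
        simpa [power] using this
      sym := fun π => ⟨Equiv.refl _, fun x i => by simp [power]⟩ }
  | N + 1 => by
      rw [power_succ]
      exact reindex_ok _ (pair_ok h (power_ok L h N))

lemma mA_ones : mA (fun _ => 1) = 0 := by
  simp [mA, sq, u1, u2, u3]

lemma power_inv (c : Cert F P W δ) (L : Lik ι) (h : Ok L) (hF : 0 ≤ mo F L) :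
    ∀ N, 0 ≤ mo F (power L N)
  | 0 => by rw [power_zero_mom, c.onesF]; norm_num
  | N + 1 => by
      rw [power_succ, mo_reindex]
      exact pair_inv c h (power_ok L h N) hF (power_inv c L h hF N)

/-- The bound on the information of `N` independent copies. -/
noncomputable def gb (δ x : ℝ) : ℕ → ℝ
  | 0 => 0
  | N + 1 => x + (1 - δ * x ^ 2) * gb δ x N

lemma gb_nonneg {δ x : ℝ} (h0 : 0 ≤ x) (h : δ * x ^ 2 ≤ 1) : ∀ N, 0 ≤ gb δ x N
  | 0 => le_rfl
  | N + 1 => by
      simp only [gb]
      have := gb_nonneg h0 h N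
      have : 0 ≤ (1 - δ * x ^ 2) * gb δ x N := mul_nonneg (by linarith) this
      linarith

lemma gb_le {δ x : ℝ} (hδ : 0 ≤ δ) (h0 : 0 ≤ x) (h : δ * x ^ 2 ≤ 1) :
    ∀ N : ℕ, gb δ x N ≤ (N : ℝ) * x - (if 2 ≤ N then δ * x ^ 3 else 0)
  | 0 => by simp [gb]
  | 1 => by simp [gb]
  | N + 2 => by
      rw [if_pos (by omega)]
      have hN : gb δ x (N + 1) ≤ ((N + 1 : ℕ) : ℝ) * x := by
        have := gb_le hδ h0 h (N + 1)
        have : (0 : ℝ) ≤ if 2 ≤ N + 1 then δ * x ^ 3 else 0 := by split_ifs <;> positivity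
        linarith
      have hge : x ≤ gb δ x (N + 1) := by
        have := mul_nonneg (sub_nonneg.mpr h) (gb_nonneg h0 h N)
        simp only [gb]; linarith
      have h2 := mul_le_mul_of_nonneg_left hge (show 0 ≤ δ * x ^ 2 by positivity)
      rw [show gb δ x (N + 2) = x + (1 - δ * x ^ 2) * gb δ x (N + 1) from rfl]
      push_cast at hN ⊢
      nlinarith

lemma delta_sq_le (c : Cert F P W δ) {L : Lik ι} (h : Ok L) : δ * mo mA L ^ 2 ≤ 1 := by
  have h0 : 0 ≤ mo mA L := h.mo_nonneg fun _ => mA_nonneg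
  have h1 := h.mA_le_one
  have : mo mA L ^ 2 ≤ 1 := pow_le_one₀ h0 h1
  nlinarith [c.delta_pos, c.delta_le]

lemma power_info (c : Cert F P W δ) (L : Lik ι) (h : Ok L) (hF : 0 ≤ mo F L) :
    ∀ N, mo mA (power L N) ≤ gb δ (mo mA L) N
  | 0 => by rw [power_zero_mom, mA_ones]; simp [gb]
  | N + 1 => by
      rw [power_succ, mo_reindex]
      have hp := pair_info c h (power_ok L h N) hF (power_inv c L h hF N)
      have ih := power_info c L h hF N
      have h0 : 0 ≤ mo mA L := h.mo_nonneg fun _ => mA_nonneg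
      have hY : 0 ≤ mo mA (power L N) := (power_ok L h N).mo_nonneg fun _ => mA_nonneg
      have hd := delta_sq_le c h
      have h2 : (1 - δ * mo mA L ^ 2) * mo mA (power L N)
          ≤ (1 - δ * mo mA L ^ 2) * gb δ (mo mA L) N :=
        mul_le_mul_of_nonneg_left ih (by linarith)
      have h3 : 0 ≤ δ * (mo mA L * mo mA (power L N) ^ 2) :=
        mul_nonneg c.delta_pos.le (mul_nonneg h0 (sq_nonneg _))
      simp only [gb]
      linarith

/-- Random number of copies, the number being observed. -/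
def mix (p : ℕ → ℝ) (L : Lik ι) : Lik (Σ N, Fin N → ι) := fun s i => p s.1 * power L s.1 s.2 i

lemma mix_ok {p : ℕ → ℝ} {d : ℝ} (hp : Law p d) {L : Lik ι} (h : Ok L) : Ok (mix p L) where
  nonneg s i := mul_nonneg (hp.nonneg _) ((power_ok L h _).nonneg _ _)
  total i := by
    have hf : ∀ N, HasSum (fun x : Fin N → ι => mix p L ⟨N, x⟩ i) (p N) := fun N => by
      have := ((power_ok L h N).total i).mul_left (p N)
      rwa [mul_one] at this
    have hs : Summable fun s : Σ N, Fin N → ι => mix p L s i :=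
      (summable_sigma_of_nonneg fun s => mul_nonneg (hp.nonneg _)
        ((power_ok L h _).nonneg _ _)).mpr
        ⟨fun N => (hf N).summable,
          hp.total.summable.congr fun N => ((hf N).tsum_eq).symm⟩
    exact HasSum.sigma_of_hasSum hp.total hf hs
  sym π := by
    choose e he using fun N => (power_ok L h N).sym π
    exact ⟨Equiv.sigmaCongrRight e, fun ⟨N, x⟩ i => by
      change p N * power L N (e N x) (π i) = p N * power L N x i
      rw [he]⟩

lemma mix_mom {p : ℕ → ℝ} {d : ℝ} (hp : Law p d) {L : Lik ι} (h : Ok L)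
    {g : Mom} {C : ℝ} (hg : Dom g C)
    (hom : ∀ (c : ℝ) (v : Fin 4 → ℝ), g (fun i => c * v i) = c * g v) :
    HasSum (fun N => p N * mo g (power L N)) (mo g (mix p L)) := by
  have hs := (mix_ok hp h).summable_mom hg
  have hf : ∀ N, HasSum (fun x : Fin N → ι => g (mix p L ⟨N, x⟩))
      (p N * (4 * mo g (power L N))) := fun N => by
    have := ((power_ok L h N).summable_mom hg).hasSum.mul_left (p N)
    have e : (4 * mo g (power L N)) = ∑' x, g (power L N x) := by rw [mo]; ring
    rw [e]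
    refine this.congr_fun fun x => ?_
    exact hom (p N) (power L N x)
  have := (hs.hasSum.sigma hf).div_const 4
  refine (this.congr_fun fun N => ?_)
  ring

lemma mix_info (c : Cert F P W δ) {p : ℕ → ℝ} {d : ℝ} (hp : Law p d) {L : Lik ι} (h : Ok L)
    (hF : 0 ≤ mo F L) : mo mA (mix p L) ≤ d * mo mA L - δ * branch p * mo mA L ^ 3 := by
  have h0 : 0 ≤ mo mA L := h.mo_nonneg fun _ => mA_nonneg
  refine hasSum_le (fun N => ?_) (mix_mom hp h dom_mA mA_smul)
    ((hp.mean.mul_right (mo mA L)).sub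
      (((branch_hasSum hp).mul_left δ).mul_right (mo mA L ^ 3)))
  have := mul_le_mul_of_nonneg_left
    (le_trans (power_info c L h hF N) (gb_le c.delta_pos.le h0 (delta_sq_le c h) N)) (hp.nonneg N)
  split_ifs with hN
  · rw [if_pos hN] at this; linarith
  · rw [if_neg hN] at this; linarith

lemma mix_inv (c : Cert F P W δ) {p : ℕ → ℝ} {d : ℝ} (hp : Law p d) {L : Lik ι} (h : Ok L)
    (hF : 0 ≤ mo F L) : 0 ≤ mo F (mix p L) := by
  obtain ⟨CF, dF⟩ := c.domF
  exact (mix_mom hp h dF c.homF).nonneg fun N =>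
    mul_nonneg (hp.nonneg N) (power_inv c L h hF N)

/-- The likelihood table at depth `n`. -/
noncomputable def tab (p : ℕ → ℝ) (l : ℝ) (n : ℕ) : Lik (Obs n) := fun η i => lik p l n i η

lemma tab_succ (p : ℕ → ℝ) (l : ℝ) (n : ℕ) :
    tab p l (n + 1) = reindex List.equivSigmaTuple (mix p (shift l (tab p l n))) := by
  funext cs i
  change p cs.length * (cs.map fun c => ∑ j, potts l i j * lik p l n j c).prod
    = p cs.length * ∏ k : Fin cs.length, shift l (tab p l n) (cs.get k) i
  congr 1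
  conv_lhs => rw [← List.ofFn_get cs, List.map_ofFn, List.prod_ofFn]
  rfl

lemma mo_tab_succ (p : ℕ → ℝ) (l : ℝ) (n : ℕ) (g : Mom) :
    mo g (tab p l (n + 1)) = mo g (mix p (shift l (tab p l n))) := by
  rw [tab_succ]; exact mo_reindex _ g

lemma tab_zero_ok (p : ℕ → ℝ) (l : ℝ) : Ok (tab p l 0) := by
  refine ⟨fun s i => ?_, fun i => ?_, fun π => ⟨(show Fin 4 ≃ Fin 4 from π), fun s i => ?_⟩⟩
  · simp only [tab, lik]; split_ifs <;> norm_num
  · exact hasSum_ite_eq (i : Fin 4) (1 : ℝ)
  · change (if π (show Fin 4 from s) = π i then (1 : ℝ) else 0)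
      = if (show Fin 4 from s) = i then (1 : ℝ) else 0
    exact if_congr π.injective.eq_iff rfl rfl

lemma tab_ok {p : ℕ → ℝ} {d l : ℝ} (hp : Law p d) (h0 : -(1 / 3) ≤ l) (h1 : l ≤ 1) :
    ∀ n, Ok (tab p l n)
  | 0 => tab_zero_ok p l
  | n + 1 => by
      rw [tab_succ]; exact reindex_ok _ (mix_ok hp (shift_ok h0 h1 (tab_ok hp h0 h1 n)))

lemma tab_inv (c : Cert F P W δ) {p : ℕ → ℝ} {d l : ℝ} (hp : Law p d) (h0 : 0 ≤ l) (h1 : l ≤ 1) :
    ∀ n, 0 ≤ mo F (tab p l n)
  | 0 => div_nonneg (tsum_nonneg fun s => c.leafF s) (by norm_num)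
  | n + 1 => by
      have hk := tab_ok (l := l) hp (by linarith) h1 n
      have hs := shift_ok (l := l) (by linarith) h1 hk
      rw [mo_tab_succ]
      exact mix_inv c hp hs (shift_inv c h0 h1 hk (tab_inv c hp h0 h1 n))

/-- The information at depth `n`. -/
noncomputable def info (p : ℕ → ℝ) (l : ℝ) (n : ℕ) : ℝ := mo mA (tab p l n)

lemma info_succ (c : Cert F P W δ) {p : ℕ → ℝ} {d l : ℝ} (hp : Law p d) (h0 : 0 ≤ l) (h1 : l ≤ 1)
    (n : ℕ) : info p l (n + 1)
      ≤ d * l ^ 2 * info p l n - δ * branch p * l ^ 6 * info p l n ^ 3 := by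
  have hk := tab_ok (l := l) hp (by linarith) h1 n
  have := mix_info c hp (shift_ok (by linarith) h1 hk) (shift_inv c h0 h1 hk (tab_inv c hp h0 h1 n))
  rw [shift_mA] at this
  rw [info, mo_tab_succ, info]
  refine le_trans this (le_of_eq ?_)
  ring

lemma info_tendsto_zero (c : Cert F P W δ) {p : ℕ → ℝ} {d l : ℝ} (hp : Law p d) (h0 : 0 ≤ l)
    (h1 : l ≤ 1) (hd : d * l ^ 2 ≤ 1) (hb : 0 < branch p) :
    Filter.Tendsto (info p l) Filter.atTop (nhds 0) := by
  have nn : ∀ n, 0 ≤ info p l n := fun n =>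
    (tab_ok hp (by linarith) h1 n).mo_nonneg fun _ => mA_nonneg
  rcases eq_or_lt_of_le h0 with hl | hl
  · refine tendsto_const_nhds.congr' ?_
    refine Filter.eventually_atTop.mpr ⟨1, fun n hn => ?_⟩
    obtain ⟨m, rfl⟩ : ∃ m, n = m + 1 := ⟨n - 1, by omega⟩
    have := info_succ c hp h0 h1 m
    rw [← hl] at this ⊢
    have := nn (m + 1)
    rw [← hl] at this
    linarith
  · have hpos : 0 < δ * branch p * l ^ 6 := mul_pos (mul_pos c.delta_pos hb) (pow_pos hl 6)
    have hstep : ∀ n,
        info p l (n + 1) ≤ info p l n - δ * branch p * l ^ 6 * info p l n ^ 3 := fun n => by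
      have := info_succ c hp h0 h1 n
      have := mul_le_mul_of_nonneg_right hd (nn n)
      linarith
    have anti : Antitone (info p l) := antitone_nat_of_succ_le fun n => by
      have := hstep n
      have := mul_nonneg hpos.le (pow_nonneg (nn n) 3)
      linarith
    obtain ⟨L, hL⟩ : ∃ L, Filter.Tendsto (info p l) Filter.atTop (nhds L) :=
      ⟨_, tendsto_atTop_ciInf anti ⟨0, by rintro x ⟨n, rfl⟩; exact nn n⟩⟩
    have hlim : L ≤ L - δ * branch p * l ^ 6 * L ^ 3 :=
      le_of_tendsto_of_tendsto (hL.comp (Filter.tendsto_add_atTop_nat 1))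
        (hL.sub ((hL.pow 3).const_mul (δ * branch p * l ^ 6)))
        (Filter.Eventually.of_forall hstep)
    have hL0 : 0 ≤ L := ge_of_tendsto hL (Filter.Eventually.of_forall nn)
    have : L = 0 := by
      rcases eq_or_lt_of_le hL0 with h | h
      · exact h.symm
      · have := mul_pos hpos (pow_pos h 3)
        linarith
    rwa [this] at hL

lemma adv_term_le {ε : ℝ} (hε : 0 < ε) (v : Fin 4 → ℝ) (hv : ∀ i, 0 ≤ v i) :
    (1 / 2) * ∑ i, |v i / 4 - (∑ j, v j) / 16| ≤ ε / 16 * mS v + 3 / (16 * ε) * mA v := by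
  simp only [Fin.sum_univ_four, mS, mA]
  set S := tot v with hS
  have e : v 0 + v 1 + v 2 + v 3 = S := rfl
  rw [e]
  rcases eq_or_lt_of_le (tot_nonneg hv) with h | h
  · have h' : S = 0 := h.symm
    have a0 : v 0 = 0 := by linarith [hv 0, hv 1, hv 2, hv 3]
    have a1 : v 1 = 0 := by linarith [hv 0, hv 1, hv 2, hv 3]
    have a2 : v 2 = 0 := by linarith [hv 0, hv 1, hv 2, hv 3]
    have a3 : v 3 = 0 := by linarith [hv 0, hv 1, hv 2, hv 3]
    rw [h', a0, a1, a2, a3]; simp
  · have key : ∀ i : Fin 4,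
        |v i / 4 - S / 16| ≤ ε * S / 32 + (4 * v i - S) ^ 2 / (32 * ε * S) := by
      intro i
      have hpos : (0 : ℝ) < 32 * ε * S := by positivity
      have h6 : (4 * v i - S) ^ 2 = (4 * v i - S) ^ 2 / (32 * ε * S) * (32 * ε * S) :=
        (div_mul_cancel₀ _ hpos.ne').symm
      rw [abs_le]
      constructor <;>
        · rw [← sub_nonneg]
          nlinarith [sq_nonneg (4 * v i - S - ε * S), sq_nonneg (4 * v i - S + ε * S)]
    have hsum : (4 * v 0 - S) ^ 2 + (4 * v 1 - S) ^ 2 + (4 * v 2 - S) ^ 2 + (4 * v 3 - S) ^ 2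
        = 4 * sq v := by
      rw [← e]; simp only [sq, u1, u2, u3]; ring
    have h3 : (4 * v 0 - S) ^ 2 / (32 * ε * S) + (4 * v 1 - S) ^ 2 / (32 * ε * S)
        + (4 * v 2 - S) ^ 2 / (32 * ε * S) + (4 * v 3 - S) ^ 2 / (32 * ε * S)
        = 2 * (3 / (16 * ε) * (sq v / (3 * S))) := by
      rw [← add_div, ← add_div, ← add_div, hsum]; field_simp; ring
    linarith [key 0, key 1, key 2, key 3]

lemma adv_term_ge (v : Fin 4 → ℝ) (hv : ∀ i, 0 ≤ v i) :
    mA v ≤ 8 * ((1 / 2) * ∑ i, |v i / 4 - (∑ j, v j) / 16|) := by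
  simp only [Fin.sum_univ_four, mA]
  set S := tot v with hS
  have e : v 0 + v 1 + v 2 + v 3 = S := rfl
  rw [e]
  rcases eq_or_lt_of_le (tot_nonneg hv) with h | h
  · have h' : S = 0 := h.symm
    rw [h', mul_zero, div_zero]; positivity
  · have key : ∀ i : Fin 4, (4 * v i - S) ^ 2 ≤ 3 * S * (16 * |v i / 4 - S / 16|) := by
      intro i
      have a : |4 * v i - S| = 16 * |v i / 4 - S / 16| := by
        rw [← abs_of_pos (show (0 : ℝ) < 16 by norm_num), ← abs_mul]; congr 1
        rw [abs_of_pos (show (0 : ℝ) < 16 by norm_num)]; ring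
      have b : |4 * v i - S| ≤ 3 * S := by
        have h1 : v i ≤ S := by
          fin_cases i <;> simp <;> linarith [hv 0, hv 1, hv 2, hv 3]
        rw [abs_le]; constructor <;> linarith [hv i]
      rw [← a, ← sq_abs, pow_two]
      exact mul_le_mul_of_nonneg_right b (abs_nonneg _)
    have hsum : (4 * v 0 - S) ^ 2 + (4 * v 1 - S) ^ 2 + (4 * v 2 - S) ^ 2 + (4 * v 3 - S) ^ 2
        = 4 * sq v := by
      rw [← e]; simp only [sq, u1, u2, u3]; ring
    rw [div_le_iff₀ (by positivity)]
    linarith [key 0, key 1, key 2, key 3]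

lemma adv_summable {p : ℕ → ℝ} {l : ℝ} {n : ℕ} (h : Ok (tab p l n)) :
    Summable fun η : Obs n => (1 / 2) * ∑ i, |lik p l n i η / 4 - (∑ j, lik p l n j η) / 16| :=
  Summable.of_nonneg_of_le (fun η => by positivity)
    (fun η => adv_term_le one_pos (tab p l n η) (h.nonneg η))
    ((h.hasSum_mass.mul_left ((1 : ℝ) / 16)).add
      ((h.summable_mom dom_mA).hasSum.mul_left (3 / (16 * (1 : ℝ))))).summable

lemma advantage_le {p : ℕ → ℝ} {l : ℝ} {n : ℕ} (h : Ok (tab p l n)) {ε : ℝ} (hε : 0 < ε) :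
    advantage p l n ≤ ε / 4 + 3 * info p l n / (4 * ε) := by
  refine le_trans (hasSum_le (fun η => adv_term_le hε (tab p l n η) (h.nonneg η))
    (adv_summable h).hasSum ((h.hasSum_mass.mul_left (ε / 16)).add
      ((h.summable_mom dom_mA).hasSum.mul_left (3 / (16 * ε))))) (le_of_eq ?_)
  rw [info, mo]; field_simp; ring

lemma info_le_advantage {p : ℕ → ℝ} {l : ℝ} {n : ℕ} (h : Ok (tab p l n)) :
    info p l n ≤ 2 * advantage p l n := by
  have key : (∑' η, mA (tab p l n η)) ≤ 8 * advantage p l n :=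
    hasSum_le (fun η => adv_term_ge (tab p l n η) (h.nonneg η)) (h.summable_mom dom_mA).hasSum
      ((adv_summable h).hasSum.mul_left 8)
  rw [info, mo]; linarith

/-- At or below the Kesten-Stigum threshold a certificate gives nonreconstruction. -/
theorem nonreconstruction_of_le (c : Cert F P W δ) {p : ℕ → ℝ} {d l : ℝ} (hp : Law p d)
    (h0 : 0 ≤ l) (h1 : l ≤ 1) (hd : d * l ^ 2 ≤ 1) (hb : 0 < branch p) :
    Nonreconstruction p l := by
  rw [Nonreconstruction, Metric.tendsto_atTop]
  intro η hη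
  obtain ⟨N, hN⟩ := Metric.tendsto_atTop.mp (info_tendsto_zero c hp h0 h1 hd hb) (η ^ 2 / 2)
    (by positivity)
  refine ⟨N, fun n hn => ?_⟩
  have hinfo := hN n hn
  have hk := tab_ok (l := l) hp (by linarith) h1 n
  have hnn : 0 ≤ info p l n := hk.mo_nonneg fun _ => mA_nonneg
  rw [Real.dist_eq, sub_zero, abs_of_nonneg hnn] at hinfo
  have ha := advantage_le hk hη
  have hpos : 0 ≤ advantage p l n := tsum_nonneg fun _ => by positivity
  rw [Real.dist_eq, sub_zero, abs_of_nonneg hpos]
  have : 3 * info p l n / (4 * η) < η / 2 := by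
    rw [div_lt_iff₀ (by positivity)]; nlinarith
  linarith

end Vale.Agent.P154.Four
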